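import Vale.Agent.P128.Defs

/-!
# P128: the pieces of the classification, as propositions

The pieces are stated for all reduced global minimisers (`IsGM`); only the final Part I
statements assume a connected complement (`OpenCase`).

A piece file proves `theorem <name> (earlier specs used as hypotheses) : <XSpec>`.
See `notes/helper11/P128/PLAN.md`.
-/

open MeasureTheory Set Metric Filter
open scoped ENNReal Topology Real

noncomputable section

namespace Vale.Agent.P128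


/-- S01a: comparison on a compact set, separation assumed. -/
def ReplaceSpec : Prop :=
  ∀ K u, IsGM K u → ∀ (S L : Set ℂ) (v : ℂ → ℝ), IsCompact S → IsClosed L →
    LocallyLipschitzOn Lᶜ v → L \ S = K \ S → (∀ z ∉ S ∪ K, v z = u z) →
    (∃ R₀ : ℝ, ∀ R, R₀ ≤ R → KeepsSeparation K L 0 R) →
      energy K u S ≤ energy L v S

/-- S01b: replace `u` by a constant on a bounded open set. -/
def CutSpec : Prop :=
  ∀ K u, IsGM K u → ∀ A : Set ℂ, IsOpen A → Bornology.IsBounded A →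
    energy K u A ≤ μH[1] (frontier A \ K)

/-- S01c: Euler-Lagrange equation, test functions may jump on `K`. -/
def TestSpec : Prop :=
  ∀ K u, IsGM K u → ∀ φ : ℂ → ℝ, LocallyLipschitzOn Kᶜ φ → HasCompactSupport φ →
    dirichlet K φ univ < ⊤ →
      IntegrableOn (gradInner u φ) Kᶜ ∧ ∫ z in Kᶜ, gradInner u φ z = 0

/-- S01d: growth, absolute continuity of `D`, almost every radius is good. -/
def GrowthSpec : Prop :=
  ∀ K u, IsGM K u → ∀ x : ℂ,
    (∀ r : ℝ, 0 < r → 0 ≤ dir K u x r ∧ 0 ≤ len K x r ∧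
      dir K u x r + len K x r ≤ 2 * π * r) ∧
    (∀ᵐ r : ℝ, 0 < r → GoodRadius K u x r) ∧
    ∀ a b : ℝ, 0 ≤ a → a ≤ b →
      IntervalIntegrable (fun r => tauC u x r + rhoC u x r) volume a b ∧
      dir K u x b - dir K u x a = ∫ r in a..b, tauC u x r + rhoC u x r

/-- S01e: partitions exist and have as many arcs as there are points. -/
def PartitionSpec : Prop :=
  ∀ (K : Set ℂ) (x : ℂ) (r : ℝ), 0 < r → (K ∩ sphere x r).Finite →
    ((K ∩ sphere x r).Nonempty → ∃ t m, IsPartition K x r t m) ∧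
    ∀ t m, IsPartition K x r t m →
      (m : ℕ∞) = cnt K x r ∧
      ∀ p ∈ K ∩ sphere x r, ∃ i < m, circleMap x r (t i) = p

/-- S01f: `D` cannot vanish identically around a point of `K`. -/
def NoFlatSpec : Prop :=
  ∀ K u, OpenCase K u → ∀ x ∈ K, ∃ r : ℝ, 0 < r ∧ 0 < dir K u x r

/-- S02a: Eilenberg inequality for the distance to a point. -/
def EilenbergSpec : Prop :=
  ∀ (K : Set ℂ), IsClosed K → ∀ x : ℂ,
    Measurable (fun r : ℝ => (cnt K x r : ℝ≥0∞)) ∧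
    ∀ a b : ℝ, 0 ≤ a →
      ∫⁻ r in Ioo a b, (cnt K x r : ℝ≥0∞) ≤ μH[1] (K ∩ (ball x b \ closedBall x a))

/-- S02b: coarea inequality. -/
def CoareaSpec : Prop :=
  ∃ C : ℝ, 0 ≤ C ∧ ∀ (U : Set ℂ) (f : ℂ → ℝ), IsOpen U → ContDiffOn ℝ 1 f U →
    ∃ g : ℝ → ℝ≥0∞, Measurable g ∧ (∀ c, μH[1] (U ∩ f ⁻¹' {c}) ≤ g c) ∧
      ∫⁻ c, g c ≤ ENNReal.ofReal C * ∫⁻ z in U, ENNReal.ofReal (Real.sqrt (gradSq f z))

/-- S03: Wirtinger inequalities on an interval, with equality case. -/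
def WirtingerSpec : Prop :=
  ∀ (a b : ℝ) (W W' : ℝ → ℝ), a < b → ContinuousOn W (Icc a b) →
    (∀ θ ∈ Ioo a b, HasDerivAt W (W' θ) θ) →
    IntervalIntegrable (fun θ => W' θ ^ 2) volume a b →
    ((W a = 0 ∧ W b = 0) ∨ (∫ θ in a..b, W θ) = 0 →
      ∫ θ in a..b, W θ ^ 2 ≤ ((b - a) / π) ^ 2 * ∫ θ in a..b, W' θ ^ 2) ∧
    (W a = 0 → W b = 0 → b = a + 2 * π →
      |(∫ θ in a..b, Real.cos (θ - (a + π)) * W θ ^ 2) - (∫ θ in a..b, W θ ^ 2) / 2| ≤
        Real.sqrt ((∫ θ in a..b, W' θ ^ 2) - (∫ θ in a..b, W θ ^ 2) / 4) *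
          Real.sqrt (∫ θ in a..b, W θ ^ 2)) ∧
    (W a = 0 → W b = 0 → b = a + 2 * π →
      (∫ θ in a..b, W' θ ^ 2) ≤ (∫ θ in a..b, W θ ^ 2) / 4 →
        ∃ A : ℝ, ∀ θ ∈ Icc a b, W θ = A * Real.cos ((θ - (a + π)) / 2))

/-- S04: the key theorem, no compact piece. -/
def KeySpec : Prop := ∀ K u, IsGM K u → NoPiece K

/-- S04b: empty crack set. -/
def LiouvilleSpec : Prop := ∀ u, OpenCase ∅ u → ∃ c : ℝ, ∀ z, u z = c

/-- S05a: continua of finite length are connected by arcs. -/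
def ContinuumSpec : Prop :=
  ∀ C : Set ℂ, IsCompact C → IsConnected C → μH[1] C < ⊤ →
    ∀ p ∈ C, ∀ q ∈ C, ∃ γ T, ArcIn C γ T p q

/-- S05b: components. -/
def ComponentsSpec : Prop := ∀ K u, IsGM K u → CompStructure K

/-- S06: stream function. -/
def StreamSpec : Prop := ∀ K u, IsGM K u → ∃ V, IsStream K u V

/-- S07a: circle calculus with gap lemma. -/
def EnergyBoundSpec : Prop :=
  ∃ C : ℝ, 0 ≤ C ∧ ∀ K u V, IsGM K u → IsStream K u V →
    ∀ (x : ℂ) (r M : ℝ), GoodRadius K u x r → 0 ≤ M →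
      (∀ p ∈ K, ∀ q ∈ K, |V p - V q| ≤ M) →
      ∀ t m, IsPartition K x r t m →
        dir K u x r ≤ r * arcSum u x r t m +
          C * (m : ℝ) ^ 2 * (M * Real.sqrt (r * tauC u x r) +
            M ^ ((2 : ℝ) / 3) * r ^ ((2 : ℝ) / 3))

/-- S07b: exact identity on a circle with one crossing. -/
def OneArcSpec : Prop :=
  ∀ K u V, IsGM K u → IsStream K u V → ∀ (x : ℂ) (r : ℝ), GoodRadius K u x r →
    ∀ t, IsPartition K x r t 1 →
      dir K u x r = -∫ θ in (t 0)..(t 0 + 2 * π),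
        r * dT u x r θ * (V (circleMap x r θ) - V (circleMap x r (t 0)))

/-- S08: monotonicity and near equality at the ends. -/
def MonoSpec : Prop :=
  ∀ K u V, IsGM K u → IsStream K u V → ∀ x ∈ K,
    (Balanced K V → MonotoneOn (yrat K u x) (Ioi 0)) ∧
    ∀ l, l = atTop ∨ (l = 𝓝[>] (0 : ℝ) ∧ Balanced K V) →
      ∃ L : ℝ, 0 ≤ L ∧ Tendsto (yrat K u x) l (𝓝 L) ∧
        ∀ η > 0, Most l (NearEq K u x η L)

/-- S09a: sector competitors (cap; cone). -/
def ConeSpec : Prop :=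
  ∀ K u, IsGM K u → ∀ (x : ℂ) (r : ℝ), GoodRadius K u x r →
    (∀ a b, IsFreeArc K x r a b →
      dir K u x r + len K x r ≤
        2 * r * tauArc u x r a b + r + r * (2 * π - (b - a))) ∧
    ∀ t m, IsPartition K x r t m →
      dir K u x r + len K x r ≤ r * ((∑ i ∈ Finset.range m,
        (t (i + 1) - t i) / π * tauArc u x r (t i) (t (i + 1))) + m)

/-- S09b: tip shift competitor. -/
def TipShiftSpec : Prop :=
  ∀ K u, IsGM K u → ∀ (x : ℂ) (r : ℝ), GoodRadius K u x r →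
    ∀ t, IsPartition K x r t 1 → ∀ δ : ℝ, |δ| < 1 →
      dir K u x r + len K x r ≤ r * (1 + δ) +
        2 * r * ∫ θ in (t 0)..(t 0 + 2 * π), r * dT u x r θ ^ 2 *
          ((1 - 2 * δ * Real.cos (θ - (t 0 + π)) + δ ^ 2) / (1 - δ ^ 2))

/-- S10: network competitors (deletion, chord, Steiner). -/
def NetworkSpec : Prop :=
  ∀ ε > 0, ∃ c > 0, ∃ η > 0, ∀ K u, IsGM K u → ∀ (x : ℂ) (r : ℝ), GoodRadius K u x r →
    ∀ t m, IsPartition K x r t m → m ≤ 50 → ¬ IsRegularStar ε t m → tauC u x r ≤ η →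
      dir K u x r + len K x r ≤ ((m : ℝ) - c) * r

/-- S11: ends with `y → 0`. -/
def EndsSpec : Prop :=
  ∀ K u, IsGM K u → ∀ x ∈ K, ∀ l, IsEnd l → Tendsto (yrat K u x) l (𝓝 0) →
    ∃ n : ℕ, (n = 2 ∨ n = 3) ∧
      Tendsto (fun r => len K x r / r) l (𝓝 (n : ℝ)) ∧
      (∀ ε > 0, Most l (fun r => GoodRadius K u x r ∧ cnt K x r = (n : ℕ∞) ∧
        tauC u x r ≤ ε ∧ ∀ t m, IsPartition K x r t m → IsRegularStar ε t m)) ∧
      (l = atTop → ∀ᶠ r in l, (n : ℕ∞) ≤ cnt K x r) ∧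
      (l = 𝓝[>] (0 : ℝ) → TwoBranches K x)

/-- S12a: positive limit gives one long arc, hence at most one unit of length. -/
def CapSpec : Prop :=
  ∀ K u, IsGM K u → ∀ x ∈ K, ∀ l, IsEnd l → ∀ L : ℝ, 0 < L →
    Tendsto (yrat K u x) l (𝓝 L) → (∀ η > 0, Most l (NearEq K u x η L)) →
      ∀ η > 0, ∀ᶠ r in l, len K x r ≤ (1 + η) * r

/-- S12b: positive limits in the balanced case are equal to one. -/
def TipValueSpec : Prop :=
  ∀ K u V, IsGM K u → IsStream K u V → Balanced K V → ∀ x ∈ K, ∀ l, IsEnd l →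
    ∀ L : ℝ, 0 < L → Tendsto (yrat K u x) l (𝓝 L) →
      L = 1 ∧ Most l (fun r => cnt K x r = 1)

/-- S13: there is only one component. -/
def OneCompSpec : Prop := ∀ K u, OpenCase K u → K.Nonempty → IsConnected K

/-- S14: existence of a leaf. -/
def LeafSpec : Prop :=
  ∀ K u, OpenCase K u → IsConnected K → ∀ x ∈ K, ∀ R : ℝ, 0 < R → cnt K x R = 1 →
    ∃ z ∈ K, ¬ TwoBranches K z

/-- S15: equality in the monotonicity formula. -/
def RigiditySpec : Prop :=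
  ∀ K u V, OpenCase K u → IsStream K u V → Balanced K V → ∀ x ∈ K,
    (∀ r : ℝ, 0 < r → yrat K u x r = 1) → IsCrackTip K u

/-- S16: from the problem's notion to the working notion. -/
def BridgeSpec : Prop :=
  ∀ P : Pair, IsGlobalMinimizer P → IsReduced P.K →
    ∃ u : ℂ → ℝ, IsGM P.K u ∧ ∀ᵐ z, P.u z = u z

/-- The classification in the open case, working notion. -/
def OpenClassificationSpec : Prop :=
  ∀ K u, OpenCase K u → (K = ∅ ∧ ∃ c : ℝ, ∀ z, u z = c) ∨ IsCrackTip K u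

end Vale.Agent.P128
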