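import Vale.Agent.P128.Bridge.Weyl
import Vale.Agent.P128.Spec

/-!
# P128, piece R: from the problem's notion of global minimiser to the working notion

The weak gradient of a global minimiser satisfies the Euler-Lagrange equation against test
functions off the crack set, so by Weyl's lemma the function has a harmonic representative there,
whose gradient is the weak one. A locally Lipschitz competitor is a competitor in the weak sense by
Rademacher's theorem and integration by parts.
-/

open MeasureTheory Set Metric Filter InnerProductSpace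
open scoped ENNReal NNReal Topology Real RealInnerProductSpace ContDiff

noncomputable section

namespace Vale.Agent.P128

namespace Bridge

/-- The gradient as a complex number. -/
def grad (f : ℂ → ℝ) (z : ℂ) : ℂ := ⟨fderiv ℝ f z 1, fderiv ℝ f z Complex.I⟩

lemma inner_grad (f : ℂ → ℝ) (z e : ℂ) : ⟪grad f z, e⟫ = fderiv ℝ f z e := by
  conv_rhs => rw [show e = e.re • (1 : ℂ) + e.im • Complex.I by simp]
  rw [map_add, map_smul, map_smul]
  simp [grad, Complex.inner]

lemma norm_grad_sq (f : ℂ → ℝ) (z : ℂ) : ‖grad f z‖ ^ 2 = gradSq f z := by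
  rw [Complex.sq_norm, Complex.normSq_apply, gradSq]; simp [grad]; ring

lemma enorm_grad_sq (f : ℂ → ℝ) (z : ℂ) : ‖grad f z‖ₑ ^ 2 = ENNReal.ofReal (gradSq f z) := by
  rw [← ofReal_norm, ← ENNReal.ofReal_pow (norm_nonneg _), norm_grad_sq]

lemma measurable_grad (f : ℂ → ℝ) : Measurable (grad f) := by
  have h : grad f = fun z => Complex.measurableEquivRealProd.symm
      (fderiv ℝ f z 1, fderiv ℝ f z Complex.I) := rfl
  rw [h]
  exact Complex.measurableEquivRealProd.symm.measurable.comp
    ((measurable_fderiv_apply_const ℝ f 1).prodMk (measurable_fderiv_apply_const ℝ f Complex.I))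

lemma weakEnergy_grad (L : Set ℂ) (f : ℂ → ℝ) (S : Set ℂ) :
    weakEnergy L (grad f) S = energy L f S := by
  simp only [weakEnergy, energy, dirichlet, enorm_grad_sq]

variable (P : Pair)

lemma volume_K : volume P.K = 0 := by
  have : P.K = ⋃ n : ℕ, P.K ∩ ball (0 : ℂ) n := by
    rw [← inter_iUnion, iUnion_ball_nat, inter_univ]
  rw [this]
  exact measure_iUnion_null fun n => volume_eq_zero_of_hausdorff_one_lt_top
    (lt_of_le_of_lt le_add_self (P.finite 0 n))

lemma memLp_G (c : ℂ) (r : ℝ) : MemLp P.G 2 (volume.restrict (ball c r \ P.K)) := by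
  refine ⟨P.grad_meas.mono_measure (Measure.restrict_mono (fun z hz => hz.2) le_rfl), ?_⟩
  rw [eLpNorm_lt_top_iff_lintegral_rpow_enorm_lt_top (by norm_num) (by norm_num)]
  refine lt_of_le_of_lt (le_of_eq ?_) (lt_of_le_of_lt le_self_add (P.finite c r))
  simp

lemma integrableOn_G {C : Set ℂ} (hC : IsCompact C) (hCU : C ⊆ P.Kᶜ) : IntegrableOn P.G C := by
  obtain ⟨r, hr⟩ := hC.isBounded.subset_ball 0
  have : IsFiniteMeasure (volume.restrict (ball (0 : ℂ) r \ P.K)) :=
    isFiniteMeasure_restrict.2 ((measure_mono sdiff_subset).trans_lt measure_ball_lt_top).ne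
  exact IntegrableOn.mono_set ((memLp_G P 0 r).integrable one_le_two)
    fun z hz => ⟨hr hz, hCU hz⟩

lemma integrableOn_u {C : Set ℂ} (hC : IsCompact C) (hCU : C ⊆ P.Kᶜ) : IntegrableOn P.u C := by
  have : IsFiniteMeasure (volume.restrict C) := isFiniteMeasure_restrict.2 hC.measure_ne_top
  exact (P.memL2 C hC hCU).integrable one_le_two

lemma locallyIntegrableOn_u : LocallyIntegrableOn P.u P.Kᶜ :=
  (locallyIntegrableOn_iff P.isClosed.isOpen_compl.isLocallyClosed).2
    fun _ hCU hC => integrableOn_u P hC hCU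

/-- A function integrable on the compact support of a continuous factor. -/
lemma integrable_mul_test {f g : ℂ → ℝ} {C : Set ℂ} (hC : IsCompact C) (hf : IntegrableOn f C)
    (hg : Continuous g) (hg0 : ∀ x ∉ C, g x = 0) : Integrable fun x => f x * g x := by
  refine (integrableOn_iff_integrable_of_support_subset (s := C) ?_).1
    (hf.mul_continuousOn hg.continuousOn hC)
  intro x hx
  by_contra h
  exact hx (by simp [hg0 x h])

variable {P}

lemma continuous_fderiv_apply {φ : ℂ → ℝ} (hφ : ContDiff ℝ ∞ φ) (e : ℂ) :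
    Continuous fun z => fderiv ℝ φ z e :=
  (hφ.continuous_fderiv (by simp)).clm_apply continuous_const

/-- The Euler-Lagrange equation. -/
lemma euler_lagrange (hP : IsGlobalMinimizer P) {φ : ℂ → ℝ} (hφ : ContDiff ℝ ∞ φ)
    (hc : HasCompactSupport φ) (hs : tsupport φ ⊆ P.Kᶜ) :
    ∫ z, ⟪P.G z, grad φ z⟫ = 0 := by
  obtain ⟨r, hr0, hr⟩ : ∃ r, 0 < r ∧ tsupport φ ⊆ ball 0 r := by
    obtain ⟨r, hr⟩ := hc.isBounded.subset_ball 0
    exact ⟨max r 1, by positivity, hr.trans (ball_subset_ball (le_max_left _ _))⟩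
  have hgc : Continuous (grad φ) := by
    have : grad φ = fun z => Complex.equivRealProdCLM.symm
        (fderiv ℝ φ z 1, fderiv ℝ φ z Complex.I) := by
      funext z
      exact Complex.ext (by simp [grad]) (by simp [grad])
    rw [this]
    exact Complex.equivRealProdCLM.symm.continuous.comp
      ((continuous_fderiv_apply hφ 1).prodMk (continuous_fderiv_apply hφ Complex.I))
  have hg0 : ∀ z ∉ tsupport φ, grad φ z = 0 := fun z hz => by
    simp [grad, fderiv_of_notMem_tsupport ℝ hz]; rfl
  set S := ball (0 : ℂ) r \ P.K with hS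
  have hgS : ∀ z ∉ S, grad φ z = 0 := fun z hz => hg0 z fun h => hz ⟨hr h, hs h⟩
  have hG := memLp_G P 0 r
  have hg2 : MemLp (grad φ) 2 volume := hgc.memLp_of_hasCompactSupport
    (HasCompactSupport.intro hc hg0)
  have hg : MemLp (grad φ) 2 (volume.restrict S) := hg2.restrict S
  -- the competitors
  have key : ∀ t : ℝ, 0 ≤ 2 * t * (∫ z in S, ⟪P.G z, grad φ z⟫) +
      t ^ 2 * ∫ z in S, ‖grad φ z‖ ^ 2 := by
    intro t
    have hT : ∀ (c : ℂ) (ρ : ℝ),
        MemLp (fun z => P.G z + t • grad φ z) 2 (volume.restrict (ball c ρ \ P.K)) :=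
      fun c ρ => (memLp_G P c ρ).add ((hg2.restrict _).const_smul t)
    let Q : Pair :=
      { K := P.K
        u := fun z => P.u z + t * φ z
        G := fun z => P.G z + t • grad φ z
        isClosed := P.isClosed
        memL2 := fun C hC hCU => (P.memL2 C hC hCU).add
          (((hφ.continuous.memLp_of_hasCompactSupport hc).restrict C).const_mul t)
        grad_meas := P.grad_meas.add (hgc.const_smul t).aestronglyMeasurable
        weakGrad := by
          intro ψ hψ hψc hψs e
          have h0 : ∀ x ∉ tsupport ψ, fderiv ℝ ψ x e = 0 := fun x hx => by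
            simp [fderiv_of_notMem_tsupport ℝ hx]
          have i1 : Integrable fun z => P.u z * fderiv ℝ ψ z e := integrable_mul_test hψc
            (integrableOn_u P hψc hψs) (continuous_fderiv_apply hψ e) h0
          have i2 : Integrable fun z => φ z * fderiv ℝ ψ z e := integrable_mul_test hψc
            (hφ.continuous.continuousOn.integrableOn_compact hψc) (continuous_fderiv_apply hψ e) h0
          have i3 : Integrable fun z => ⟪P.G z, e⟫ * ψ z := integrable_mul_test hψc
            ((integrableOn_G P hψc hψs).inner_const e) hψ.continuous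
            fun x hx => image_eq_zero_of_notMem_tsupport hx
          have i4 : Integrable fun z => fderiv ℝ φ z e * ψ z := integrable_mul_test hψc
            ((continuous_fderiv_apply hφ e).continuousOn.integrableOn_compact hψc) hψ.continuous
            fun x hx => image_eq_zero_of_notMem_tsupport hx
          have h2 := integral_mul_fderiv isOpen_univ
            (hφ.of_le (WithTop.coe_le_coe.2 le_top)).contDiffOn
            (hψ.of_le (WithTop.coe_le_coe.2 le_top)) hψc (subset_univ _) e
          simp only [inner_add_left, real_inner_smul_left, inner_grad, add_mul, mul_assoc]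
          rw [integral_add i1 (i2.const_mul t), integral_add i3 (i4.const_mul t),
            integral_const_mul, integral_const_mul, P.weakGrad ψ hψ hψc hψs e, h2]
          ring
        finite := fun c ρ => by
          refine ENNReal.add_lt_top.2 ⟨?_, lt_of_le_of_lt le_add_self (P.finite c ρ)⟩
          have := (hT c ρ).2
          rw [eLpNorm_lt_top_iff_lintegral_rpow_enorm_lt_top (by norm_num) (by norm_num)] at this
          refine lt_of_le_of_lt (le_of_eq ?_) this
          simp }
    have hle := hP 0 r hr0 Q ⟨⟨tsupport φ, hc, hr, rfl, ?_⟩, fun x y _ _ h => h⟩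
    · have hle' : ∫⁻ z in S, ‖P.G z‖ₑ ^ 2 ≤ ∫⁻ z in S, ‖P.G z + t • grad φ z‖ₑ ^ 2 :=
        (ENNReal.add_le_add_iff_right
          (lt_of_le_of_lt le_add_self (P.finite 0 r)).ne).1 hle
      have hsq : ∀ (F : ℂ → ℂ), MemLp F 2 (volume.restrict S) →
          (∫⁻ z in S, ‖F z‖ₑ ^ 2) = ENNReal.ofReal (∫ z in S, ‖F z‖ ^ 2) := fun F hF => by
        rw [ofReal_integral_eq_lintegral_ofReal
          ((memLp_two_iff_integrable_sq_norm hF.1).1 hF)
          (Eventually.of_forall fun z => by positivity)]
        refine lintegral_congr fun z => ?_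
        rw [← ofReal_norm, ENNReal.ofReal_pow (norm_nonneg _)]
      rw [hsq _ hG, hsq _ (hT 0 r), ENNReal.ofReal_le_ofReal_iff
        (integral_nonneg fun z => by positivity)] at hle'
      have e : ∫ z in S, ‖P.G z + t • grad φ z‖ ^ 2 = (∫ z in S, ‖P.G z‖ ^ 2) +
          (2 * t * (∫ z in S, ⟪P.G z, grad φ z⟫) + t ^ 2 * ∫ z in S, ‖grad φ z‖ ^ 2) := by
        have j1 := (memLp_two_iff_integrable_sq_norm hG.1).1 hG
        have j2 := (memLp_two_iff_integrable_sq_norm hg.1).1 hg
        have j3 : Integrable (fun z => ⟪P.G z, grad φ z⟫) (volume.restrict S) :=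
          (j1.add j2).mono' (hG.1.inner hg.1) (Eventually.of_forall fun z => by
            refine (norm_inner_le_norm _ _).trans ?_
            simp only [Pi.add_apply]
            nlinarith [sq_nonneg (‖P.G z‖ - ‖grad φ z‖), norm_nonneg (P.G z),
              norm_nonneg (grad φ z)])
        simp only [norm_add_sq_real, real_inner_smul_right, norm_smul, mul_pow, Real.norm_eq_abs,
          sq_abs]
        have j13 : Integrable (fun z => ‖P.G z‖ ^ 2 + 2 * (t * ⟪P.G z, grad φ z⟫))
            (volume.restrict S) := j1.add ((j3.const_mul t).const_mul 2)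
        rw [integral_add j13 (j2.const_mul (t ^ 2)),
          integral_add j1 ((j3.const_mul t).const_mul 2), integral_const_mul, integral_const_mul,
          integral_const_mul]
        ring
      linarith
    · refine (ae_restrict_iff'
        ((isClosed_tsupport φ).union P.isClosed).isOpen_compl.measurableSet).2
        (Eventually.of_forall fun z hz => ?_)
      simp only [mem_compl_iff, mem_union, not_or] at hz
      simp [Q, image_eq_zero_of_notMem_tsupport hz.1]
  have hzero : ∫ z in S, ⟪P.G z, grad φ z⟫ = 0 := by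
    set A := ∫ z in S, ⟪P.G z, grad φ z⟫
    set B := ∫ z in S, ‖grad φ z‖ ^ 2
    have hB : 0 ≤ B := integral_nonneg fun z => by positivity
    have h := key (-A / (B + 1))
    have e : 2 * (-A / (B + 1)) * A + (-A / (B + 1)) ^ 2 * B =
        -(A ^ 2 * (B + 2)) / (B + 1) ^ 2 := by
      field_simp
      ring
    rw [e, div_nonneg_iff] at h
    rcases h with ⟨h, -⟩ | ⟨-, h⟩
    · nlinarith [sq_nonneg A]
    · nlinarith [sq_pos_of_pos (show 0 < B + 1 by linarith)]
  rwa [setIntegral_eq_integral_of_forall_compl_eq_zero] at hzero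
  intro z hz
  simp [hgS z hz]

/-- The function is weakly harmonic off the crack set. -/
lemma weakHarmonic (hP : IsGlobalMinimizer P) : WeakHarmonic P.Kᶜ P.u := by
  intro φ hφ hc hs
  have hd : ∀ v, ContDiff ℝ ∞ fun w => fderiv ℝ φ w v := fun v =>
    (hφ.fderiv_right le_rfl).clm_apply contDiff_const
  have h0 : ∀ v, ∀ x ∉ tsupport φ, fderiv ℝ (fun w => fderiv ℝ φ w v) x v = 0 := fun v x hx => by
    simp [fderiv_of_notMem_tsupport ℝ fun h => hx (tsupport_fderiv_apply φ v h)]
  have i1 : ∀ v, Integrable fun z => P.u z * fderiv ℝ (fun w => fderiv ℝ φ w v) z v := fun v =>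
    integrable_mul_test hc (integrableOn_u P hc hs) (continuous_fderiv_apply (hd v) v) (h0 v)
  have i2 : ∀ v, Integrable fun z => ⟪P.G z, v⟫ * fderiv ℝ φ z v := fun v =>
    integrable_mul_test hc ((integrableOn_G P hc hs).inner_const v) (continuous_fderiv_apply hφ v)
      fun x hx => by simp [fderiv_of_notMem_tsupport ℝ hx]
  have hw : ∀ v, ∫ z, P.u z * fderiv ℝ (fun w => fderiv ℝ φ w v) z v =
      -∫ z, ⟪P.G z, v⟫ * fderiv ℝ φ z v := fun v =>
    P.weakGrad _ (hd v) (hc.fderiv_apply ℝ v) ((tsupport_fderiv_apply φ v).trans hs) v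
  simp only [lap, mul_add]
  rw [integral_add (i1 1) (i1 Complex.I), hw, hw, ← neg_add, ← integral_add (i2 1) (i2 Complex.I),
    neg_eq_zero, ← euler_lagrange hP hφ hc hs]
  refine integral_congr_ae (Eventually.of_forall fun z => ?_)
  simp [grad, Complex.inner]
  ring

/-- A harmonic representative has the weak gradient as gradient. -/
lemma grad_ae (P : Pair) {u : ℂ → ℝ} (hu : HarmonicOnNhd u P.Kᶜ)
    (hae : ∀ᵐ z, z ∈ P.Kᶜ → P.u z = u z) : ∀ᵐ z, z ∈ P.Kᶜ → P.G z = grad u z := by
  have hU : IsOpen P.Kᶜ := P.isClosed.isOpen_compl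
  have h1 : ContDiffOn ℝ 1 u P.Kᶜ := hu.contDiffOn.of_le one_le_two
  have hc : ∀ e : ℂ, ContinuousOn (fun z => fderiv ℝ u z e) P.Kᶜ := fun e =>
    (h1.continuousOn_fderiv_of_isOpen hU le_rfl).clm_apply continuousOn_const
  have key : ∀ e : ℂ, ∀ᵐ z, z ∈ P.Kᶜ → ⟪P.G z, e⟫ - fderiv ℝ u z e = 0 := by
    intro e
    refine hU.ae_eq_zero_of_integral_contDiff_smul_eq_zero ?_ fun ψ hψ hψc hψs => ?_
    · exact (locallyIntegrableOn_iff hU.isLocallyClosed).2 fun C hCU hC =>
        ((integrableOn_G P hC hCU).inner_const e).sub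
          (((hc e).mono hCU).integrableOn_compact hC)
    · have i1 : Integrable fun z => ⟪P.G z, e⟫ * ψ z := integrable_mul_test hψc
        ((integrableOn_G P hψc hψs).inner_const e) hψ.continuous
        fun x hx => image_eq_zero_of_notMem_tsupport hx
      have i2 : Integrable fun z => fderiv ℝ u z e * ψ z := integrable_mul_test hψc
        (((hc e).mono hψs).integrableOn_compact hψc) hψ.continuous
        fun x hx => image_eq_zero_of_notMem_tsupport hx
      simp only [smul_eq_mul, mul_comm (ψ _), sub_mul]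
      rw [integral_sub i1 i2]
      have a := P.weakGrad ψ hψ hψc hψs e
      have b := integral_mul_fderiv hU h1 (hψ.of_le (WithTop.coe_le_coe.2 le_top)) hψc hψs e
      have c : ∫ z, P.u z * fderiv ℝ ψ z e = ∫ z, u z * fderiv ℝ ψ z e := by
        refine integral_congr_ae ?_
        filter_upwards [hae] with z hz
        by_cases h : z ∈ P.Kᶜ
        · rw [hz h]
        · simp [fderiv_of_notMem_tsupport ℝ fun h' => h (hψs h')]
      linarith
  filter_upwards [key 1, key Complex.I] with z hz hI hzU
  have e1 := hz hzU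
  have e2 := hI hzU
  simp [Complex.inner] at e1 e2
  exact Complex.ext (by simp [grad]; linarith) (by simp [grad]; linarith)

/-- A locally Lipschitz function has its gradient as weak gradient. -/
lemma hasWeakGradOn_grad {U : Set ℂ} (hU : IsOpen U) {v : ℂ → ℝ} (hv : LocallyLipschitzOn U v) :
    HasWeakGradOn U v (grad v) := by
  intro φ hφ hc hs e
  obtain ⟨δ, hδ, hδU⟩ := hc.exists_cthickening_subset_open hU hs
  obtain ⟨C, hC⟩ := LocallyLipschitzOn.exists_lipschitzOnWith_of_compact hc.cthickening
    (hv.mono hδU)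
  obtain ⟨V, hV, hVv⟩ := hC.extend_real
  obtain ⟨D, hD⟩ := ContDiff.lipschitzWith_of_hasCompactSupport hc hφ (by simp)
  have h := LipschitzWith.integral_lineDeriv_mul_eq (μ := volume) hV hD hc e
  have e1 : ∫ z, lineDeriv ℝ V z e * φ z = ∫ z, ⟪grad v z, e⟫ * φ z := by
    refine integral_congr_ae ?_
    filter_upwards [hV.ae_differentiableAt (μ := volume)] with z hz
    by_cases h : z ∈ tsupport φ
    · have hVz : V =ᶠ[𝓝 z] v := by
        filter_upwards [(isOpen_thickening (δ := δ) (E := tsupport φ)).mem_nhds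
          (self_subset_thickening hδ _ h)] with w hw
        exact (hVv (thickening_subset_cthickening _ _ hw)).symm
      rw [hz.lineDeriv_eq_fderiv, inner_grad, hVz.fderiv_eq]
    · simp [image_eq_zero_of_notMem_tsupport h]
  have e2 : ∫ z, lineDeriv ℝ φ z (-e) * V z = -∫ z, v z * fderiv ℝ φ z e := by
    rw [← integral_neg]
    refine integral_congr_ae (Eventually.of_forall fun z => ?_)
    simp only [((hφ.differentiable (by simp)) z).lineDeriv_eq_fderiv, map_neg]
    by_cases h : z ∈ tsupport φ
    · rw [hVv (self_subset_cthickening _ h)]; ring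
    · simp [fderiv_of_notMem_tsupport ℝ h]
  rw [e1, e2] at h
  linarith

end Bridge

open Bridge in
/-- **Bridge.** -/
theorem bridge : BridgeSpec := by
  intro P hP hred
  have hU : IsOpen P.Kᶜ := P.isClosed.isOpen_compl
  obtain ⟨u, hu, hae⟩ := weyl hU (locallyIntegrableOn_u P) (weakHarmonic hP)
  have hG := grad_ae P hu hae
  have hK : ∀ᵐ z, z ∈ P.Kᶜ := measure_eq_zero_iff_ae_notMem.1 (volume_K P)
  have hu' : ∀ᵐ z, P.u z = u z := by
    filter_upwards [hae, hK] with z hz hzK using hz hzK
  have henergy : ∀ c r, energy P.K u (ball c r) = weakEnergy P.K P.G (ball c r) := fun c r => by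
    rw [← weakEnergy_grad, weakEnergy, weakEnergy]
    congr 1
    refine lintegral_congr_ae (ae_restrict_of_ae ?_)
    filter_upwards [hG, hK] with z hz hzK
    rw [hz hzK]
  refine ⟨u, ⟨P.isClosed, hu, fun c r => henergy c r ▸ P.finite c r, hred, ?_⟩, hu'⟩
  intro c r hr L v hLv
  obtain ⟨hL, hv, ⟨C, hC, hCb, hdiff, hvu⟩, hsep⟩ := hLv
  by_cases htop : energy L v (ball c r) = ⊤
  · rw [htop]; exact le_top
  have hdir : dirichlet L v (ball c r) < ⊤ :=
    lt_of_le_of_lt le_self_add (lt_top_iff_ne_top.2 htop)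
  have hlen : μH[1] (L ∩ ball c r) < ⊤ :=
    lt_of_le_of_lt le_add_self (lt_top_iff_ne_top.2 htop)
  have hout : ∀ z, z ∉ L → z ∉ C → gradSq v z = gradSq u z := fun z hzL hzC => by
    have hzK : z ∉ P.K := fun h => hzL (hdiff.ge ⟨h, hzC⟩).1
    have : v =ᶠ[𝓝 z] u := by
      filter_upwards [(hC.isClosed.union P.isClosed).isOpen_compl.mem_nhds
        (show z ∈ (C ∪ P.K)ᶜ by simp [hzC, hzK])] with w hw
      exact hvu w hw
    simp [gradSq, this.fderiv_eq]
  have hfin : ∀ (c' : ℂ) (r' : ℝ), weakEnergy L (grad v) (ball c' r') < ⊤ := by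
    intro c' r'
    refine ENNReal.add_lt_top.2 ⟨?_, ?_⟩
    · simp only [enorm_grad_sq]
      have hs : ball c' r' \ L ⊆ (ball c r \ L) ∪ (ball c' r' \ (L ∪ C)) := fun z hz => by
        by_cases h : z ∈ C
        · exact Or.inl ⟨hCb h, hz.2⟩
        · exact Or.inr ⟨hz.1, by simp [hz.2, h]⟩
      refine lt_of_le_of_lt ((lintegral_mono_set hs).trans (lintegral_union_le _ _ _))
        (ENNReal.add_lt_top.2 ⟨hdir, ?_⟩)
      rw [setLIntegral_congr_fun (measurableSet_ball.diff (hL.union hC.isClosed).measurableSet)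
        fun z hz => by rw [hout z (fun h => hz.2 (Or.inl h)) (fun h => hz.2 (Or.inr h))]]
      refine lt_of_le_of_lt (lintegral_mono_set ?_)
        (lt_of_le_of_lt le_self_add ((henergy c' r').trans_lt (P.finite c' r')))
      intro z hz
      exact ⟨hz.1, fun h =>
        hz.2 ((em (z ∈ C)).elim Or.inr fun hc => Or.inl (hdiff.ge ⟨h, hc⟩).1)⟩
    · have hs : L ∩ ball c' r' ⊆ (L ∩ ball c r) ∪ (P.K ∩ ball c' r') := fun z hz => by
        by_cases h : z ∈ C
        · exact Or.inl ⟨hz.1, hCb h⟩
        · exact Or.inr ⟨(hdiff.le ⟨hz.1, h⟩).1, hz.2⟩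
      exact lt_of_le_of_lt ((measure_mono hs).trans (measure_union_le _ _))
        (ENNReal.add_lt_top.2 ⟨hlen, lt_of_le_of_lt le_add_self (P.finite c' r')⟩)
  let Q : Pair :=
    { K := L
      u := v
      G := grad v
      isClosed := hL
      memL2 := fun C' hC' hCU' => by
        have : IsFiniteMeasure (volume.restrict C') :=
          isFiniteMeasure_restrict.2 hC'.measure_ne_top
        have hcont : ContinuousOn v C' := hv.continuousOn.mono hCU'
        obtain ⟨B, hB⟩ := hC'.exists_bound_of_continuousOn hcont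
        exact MemLp.of_bound (hcont.aestronglyMeasurable hC'.measurableSet) B
          ((ae_restrict_iff' hC'.measurableSet).2 (Eventually.of_forall hB))
      grad_meas := (measurable_grad v).aestronglyMeasurable
      weakGrad := hasWeakGradOn_grad hL.isOpen_compl hv
      finite := hfin }
  have hQ : PairCompetes P Q c r := by
    refine ⟨⟨C, hC, hCb, hdiff, ?_⟩, hsep⟩
    refine (ae_restrict_iff' (hC.isClosed.union P.isClosed).isOpen_compl.measurableSet).2 ?_
    filter_upwards [hu'] with z hz hzC
    show v z = P.u z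
    rw [hz, hvu z hzC]
  have := hP c r hr Q hQ
  rw [henergy, ← weakEnergy_grad L v]
  exact this

end Vale.Agent.P128
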