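import Vale.Agent.P128.Defs

/-!
# P128: small shared facts
-/

open MeasureTheory Set Metric Filter
open InnerProductSpace
open scoped ENNReal Topology Real

noncomputable section

namespace Vale.Agent.P128

theorem volume_eq_zero_of_hausdorff_one_lt_top {S : Set ℂ} (h : μH[1] S < ⊤) : volume S = 0 := by
  have h2 : μH[2] S = 0 := by
    rcases Measure.hausdorffMeasure_zero_or_top (show (1 : ℝ) < 2 by norm_num) S with h' | h'
    · exact h'
    · exact absurd h' h.ne
  rw [← InnerProductSpace.euclideanHausdorffMeasure_eq_volume (V := ℂ),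
    Measure.euclideanHausdorffMeasure_def, Complex.finrank_real_complex, Measure.smul_apply]
  norm_num [h2]

theorem gradSq_nonneg (f : ℂ → ℝ) (z : ℂ) : 0 ≤ gradSq f z := by
  unfold gradSq; positivity

variable {K : Set ℂ} {u : ℂ → ℝ}

namespace IsGM

variable (h : IsGM K u)
include h

theorem isOpen_compl : IsOpen Kᶜ := h.isClosed.isOpen_compl

theorem length_lt_top (c : ℂ) (r : ℝ) : μH[1] (K ∩ ball c r) < ⊤ :=
  lt_of_le_of_lt le_add_self (h.finite c r)

theorem dirichlet_lt_top (c : ℂ) (r : ℝ) : dirichlet K u (ball c r) < ⊤ :=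
  lt_of_le_of_lt le_self_add (h.finite c r)

theorem length_lt_top_of_isBounded {S : Set ℂ} (hS : Bornology.IsBounded S) :
    μH[1] (K ∩ S) < ⊤ := by
  obtain ⟨r, hr⟩ := hS.subset_ball 0
  exact lt_of_le_of_lt (measure_mono (inter_subset_inter_right K hr)) (h.length_lt_top 0 r)

theorem volume_eq_zero : volume K = 0 := by
  have : K = ⋃ n : ℕ, K ∩ ball (0 : ℂ) n := by
    rw [← inter_iUnion, iUnion_ball_nat, inter_univ]
  rw [this]
  exact measure_iUnion_null fun n =>
    volume_eq_zero_of_hausdorff_one_lt_top (h.length_lt_top 0 n)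

theorem dense_compl : Dense Kᶜ := by
  rw [← interior_eq_empty_iff_dense_compl]
  by_contra hne
  exact (isOpen_interior.measure_pos volume (nonempty_iff_ne_empty.2 hne)).ne'
    (measure_mono_null interior_subset h.volume_eq_zero)

theorem contDiffOn (n : WithTop ℕ∞) : ContDiffOn ℝ n u Kᶜ := fun z hz =>
  ((HarmonicAt.analyticAt (h.harmonic z hz)).contDiffAt).contDiffWithinAt

theorem locallyLipschitzOn : LocallyLipschitzOn Kᶜ u := by
  intro z hz
  obtain ⟨c, t, ht, hl⟩ :=
    ((HarmonicAt.analyticAt (h.harmonic z hz)).contDiffAt (n := 1)).exists_lipschitzOnWith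
  exact ⟨c, t, nhdsWithin_le_nhds ht, hl⟩

theorem continuousOn : ContinuousOn u Kᶜ := h.harmonic.continuousOn

end IsGM

/-- With connected complement the separation condition is empty. -/
theorem OpenCase.keepsSeparation (h : OpenCase K u) (L : Set ℂ) (c : ℂ) (r : ℝ) :
    KeepsSeparation K L c r := by
  intro x y hx hy hs
  simp only [mem_union, not_or] at hx hy
  exact absurd (connectedComponentIn_eq
    ((h.conn.subset_connectedComponentIn (show x ∈ Kᶜ from hx.2) subset_rfl)
      (show y ∈ Kᶜ from hy.2))) hs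

end Vale.Agent.P128
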