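import Vale.Agent.P128.Spec

/-!
# P128 Part II: disconnected complement; the pieces as propositions

The `Gen…Spec`s are other names of the Part I statements, which are stated for `IsGM`.
-/

open MeasureTheory Set Metric Filter
open scoped ENNReal Topology Real

noncomputable section

namespace Vale.Agent.P128

/-- Comparison on a compact set, separation assumed. -/
abbrev GenReplaceSpec : Prop := ReplaceSpec

/-- Key theorem, general case. -/
abbrev GenKeySpec : Prop := KeySpec

/-- Sector competitors, general case. -/
abbrev GenConeSpec : Prop := ConeSpec

/-- Tip shift, general case. -/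
abbrev GenTipShiftSpec : Prop := TipShiftSpec

/-- Network competitors, general case. -/
abbrev GenNetworkSpec : Prop := NetworkSpec

/-- Components, general case. -/
abbrev GenComponentsSpec : Prop := ComponentsSpec

/-- Stream function, general case. -/
abbrev GenStreamSpec : Prop := StreamSpec

/-- Monotonicity, general case. -/
abbrev GenMonoSpec : Prop := MonoSpec

/-- Ends with `y → 0`, general case. -/
abbrev GenEndsSpec : Prop := EndsSpec

/-- Positive limits in the balanced case, general case. -/
abbrev GenTipValueSpec : Prop := TipValueSpec

/-- The part of `OneCompSpec` not using connectedness: several stream values are impossible and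
several components force `u` to be locally constant. -/
def GenManyCompSpec : Prop :=
  ∀ K u, IsGM K u → ¬ IsPreconnected K → ∀ z ∉ K, gradSq u z = 0

/-- II-a: complementary components are unbounded. -/
def NoBoundedSpec : Prop :=
  ∀ K u, IsGM K u → ∀ z ∉ K, ¬ Bornology.IsBounded (connectedComponentIn Kᶜ z)

/-- II-b: a disconnected complement forces `u` to be locally constant. -/
def SepFlatSpec : Prop :=
  ∀ K u, IsGM K u → ¬ IsPreconnected Kᶜ → ∀ z ∉ K, gradSq u z = 0

/-- II-c: the flat disconnected case. -/
def FlatGeometrySpec : Prop :=
  ∀ K u, IsGM K u → ¬ IsPreconnected Kᶜ → (∀ z ∉ K, gradSq u z = 0) →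
    IsLineSet K ∨ IsTripodSet K

/-- The disconnected case. -/
def DisconnectedSpec : Prop :=
  ∀ K u, IsGM K u → ¬ IsPreconnected Kᶜ →
    (∀ z ∉ K, gradSq u z = 0) ∧ (IsLineSet K ∨ IsTripodSet K)

theorem disconnected_of (hF : SepFlatSpec) (hG : FlatGeometrySpec) : DisconnectedSpec :=
  fun K u h hc => ⟨hF K u h hc, hG K u h hc (hF K u h hc)⟩

end Vale.Agent.P128
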