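import Vale.Agent.P128.Spec
import Vale.Agent.P128.Spec2
import Vale.Agent.P128.Basic

/-!
# P128, piece A: elementary competitors

* `genReplace`, `replace_spec`: comparison on a compact set (`ReplaceSpec`);
* `gen_cut`, `gen_test`: the cut and the Euler-Lagrange equation without connectedness;
* `cut_spec`: replace `u` by a constant on a bounded open set (`CutSpec`);
* `test_spec`: Euler-Lagrange equation, test functions may jump on `K` (`TestSpec`);
* `noFlat_spec`: the Dirichlet energy charges every point of `K` (`NoFlatSpec`).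
-/

open MeasureTheory Set Metric Filter
open scoped ENNReal NNReal Topology Real

noncomputable section

namespace Vale.Agent.P128

variable {K : Set ℂ} {u : ℂ → ℝ}

/-! ## Facts on `gradSq`, `gradInner` and the energy -/

theorem measurable_gradSq (f : ℂ → ℝ) : Measurable (gradSq f) := by
  unfold gradSq
  exact ((measurable_fderiv_apply_const ℝ f 1).pow_const 2).add
    ((measurable_fderiv_apply_const ℝ f Complex.I).pow_const 2)

theorem measurable_gradInner (f g : ℂ → ℝ) : Measurable (gradInner f g) := by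
  unfold gradInner
  exact ((measurable_fderiv_apply_const ℝ f 1).mul (measurable_fderiv_apply_const ℝ g 1)).add
    ((measurable_fderiv_apply_const ℝ f Complex.I).mul
      (measurable_fderiv_apply_const ℝ g Complex.I))

theorem gradSq_congr {f g : ℂ → ℝ} {z : ℂ} (h : f =ᶠ[𝓝 z] g) : gradSq f z = gradSq g z := by
  simp only [gradSq, h.fderiv_eq]

theorem gradSq_eq_zero_of_eventuallyEq_const {f : ℂ → ℝ} {z : ℂ} {c : ℝ}
    (h : f =ᶠ[𝓝 z] fun _ => c) : gradSq f z = 0 := by
  simp [gradSq, h.fderiv_eq]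

theorem abs_gradInner_le (f g : ℂ → ℝ) (z : ℂ) :
    |gradInner f g z| ≤ gradSq f z + gradSq g z := by
  simp only [gradInner, gradSq]
  rw [abs_le]
  constructor <;>
    nlinarith [sq_nonneg (fderiv ℝ f z 1 + fderiv ℝ g z 1),
      sq_nonneg (fderiv ℝ f z 1 - fderiv ℝ g z 1),
      sq_nonneg (fderiv ℝ f z Complex.I + fderiv ℝ g z Complex.I),
      sq_nonneg (fderiv ℝ f z Complex.I - fderiv ℝ g z Complex.I)]

theorem fderiv_eq_zero_of_gradSq_eq_zero {f : ℂ → ℝ} {z : ℂ} (h : gradSq f z = 0) :
    fderiv ℝ f z = 0 := by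
  unfold gradSq at h
  have h1 : fderiv ℝ f z 1 = 0 := by nlinarith [sq_nonneg (fderiv ℝ f z Complex.I)]
  have hI : fderiv ℝ f z Complex.I = 0 := by nlinarith [sq_nonneg (fderiv ℝ f z 1)]
  refine ContinuousLinearMap.ext fun w => ?_
  have hw : w = w.re • (1 : ℂ) + w.im • Complex.I := by
    simp [Complex.real_smul, Complex.re_add_im]
  rw [hw, map_add, map_smul, map_smul, h1, hI]
  simp

theorem energy_split (K : Set ℂ) (f : ℂ → ℝ) {S B : Set ℂ} (hS : MeasurableSet S)
    (hSB : S ⊆ B) : energy K f B = energy K f S + energy K f (B \ S) := by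
  have h1 : (B \ K) ∩ S = S \ K := by
    ext z
    constructor
    · rintro ⟨⟨-, hz⟩, hzS⟩; exact ⟨hzS, hz⟩
    · rintro ⟨hzS, hz⟩; exact ⟨⟨hSB hzS, hz⟩, hzS⟩
  have h2 : (B \ K) \ S = (B \ S) \ K := by
    ext z; simp only [Set.mem_sdiff]; tauto
  have h3 : (K ∩ B) ∩ S = K ∩ S := by rw [inter_assoc, inter_eq_right.2 hSB]
  have h4 : (K ∩ B) \ S = K ∩ (B \ S) := inter_sdiff_assoc K B S
  have hd : dirichlet K f B = dirichlet K f S + dirichlet K f (B \ S) := by
    simp only [dirichlet]
    rw [← lintegral_inter_add_sdiff _ (B \ K) hS, h1, h2]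
  have hm : μH[1] (K ∩ B) = μH[1] (K ∩ S) + μH[1] (K ∩ (B \ S)) := by
    rw [← measure_inter_add_sdiff (K ∩ B) hS, h3, h4]
  simp only [energy, hd, hm]
  ring

theorem IsGM.differentiableAt (h : IsGM K u) {z : ℂ} (hz : z ∉ K) : DifferentiableAt ℝ u z :=
  (((h.contDiffOn 1).differentiableOn one_ne_zero) z hz).differentiableAt
    (h.isOpen_compl.mem_nhds hz)

theorem IsGM.continuousOn_gradSq (h : IsGM K u) : ContinuousOn (gradSq u) Kᶜ := by
  have hc := (h.contDiffOn 1).continuousOn_fderiv_of_isOpen h.isOpen_compl le_rfl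
  unfold gradSq
  exact ((hc.clm_apply continuousOn_const).pow 2).add ((hc.clm_apply continuousOn_const).pow 2)

theorem IsGM.dirichlet_lt_top_of_isBounded (h : IsGM K u) {S : Set ℂ}
    (hS : Bornology.IsBounded S) : dirichlet K u S < ⊤ := by
  obtain ⟨r, hr⟩ := hS.subset_ball 0
  exact lt_of_le_of_lt (lintegral_mono_set (sdiff_subset_sdiff_left hr)) (h.dirichlet_lt_top 0 r)

theorem IsGM.integrableOn_gradSq (h : IsGM K u) {S : Set ℂ} (hS : Bornology.IsBounded S) :
    IntegrableOn (gradSq u) (S \ K) :=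
  ⟨(measurable_gradSq u).aestronglyMeasurable,
    (hasFiniteIntegral_iff_ofReal (ae_of_all _ (gradSq_nonneg u))).2
      (h.dirichlet_lt_top_of_isBounded hS)⟩

/-- Rademacher for functions which are locally Lipschitz on an open set. -/
theorem ae_differentiableAt_of_locallyLipschitzOn {U : Set ℂ} (hU : IsOpen U) {f : ℂ → ℝ}
    (hf : LocallyLipschitzOn U f) : ∀ᵐ z, z ∈ U → DifferentiableAt ℝ f z := by
  rw [ae_iff]
  refine measure_null_of_locally_null _ fun x hx => ?_
  simp only [mem_ofPred_eq, Classical.not_imp] at hx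
  obtain ⟨c, t, ht, hl⟩ := hf hx.1
  rw [hU.nhdsWithin_eq hx.1] at ht
  obtain ⟨W, hWt, hWo, hxW⟩ := _root_.mem_nhds_iff.1 ht
  refine ⟨{z | ¬(z ∈ U → DifferentiableAt ℝ f z)} ∩ W,
    inter_mem_nhdsWithin _ (hWo.mem_nhds hxW), ?_⟩
  have hae := (hl.mono hWt).ae_differentiableWithinAt_of_mem (μ := volume)
  rw [ae_iff] at hae
  refine measure_mono_null ?_ hae
  rintro z ⟨hz, hzW⟩ hcon
  exact hz fun _ => (hcon hzW).differentiableAt (hWo.mem_nhds hzW)

/-! ## S01a: comparison on a compact set -/

theorem genReplace : GenReplaceSpec := by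
  rintro K u h S L v hS hL hv hdiff heq ⟨R₀, hsep⟩
  obtain ⟨R, hR0, hR⟩ := hS.isBounded.subset_ball_lt (max R₀ 0) 0
  have hR1 : 0 < R := lt_of_le_of_lt (le_max_right _ _) hR0
  have hmin := h.minimal 0 R hR1 L v
    ⟨hL, hv, ⟨S, hS, hR, hdiff, heq⟩, hsep R ((le_max_left _ _).trans hR0.le)⟩
  have hout : energy L v (ball 0 R \ S) = energy K u (ball 0 R \ S) := by
    have h1 : (ball 0 R \ S) \ L = (ball 0 R \ S) \ K := by
      ext z
      have hz := Set.ext_iff.1 hdiff z
      simp only [Set.mem_sdiff] at hz ⊢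
      tauto
    have h2 : L ∩ (ball 0 R \ S) = K ∩ (ball 0 R \ S) := by
      ext z
      have hz := Set.ext_iff.1 hdiff z
      simp only [Set.mem_sdiff, mem_inter_iff] at hz ⊢
      tauto
    simp only [energy, dirichlet, h1, h2]
    congr 1
    refine setLIntegral_congr_fun
      ((measurableSet_ball.diff hS.measurableSet).diff h.isClosed.measurableSet) fun z hz => ?_
    have hmem : z ∈ (S ∪ K)ᶜ := by simp [hz.1.2, hz.2]
    have hev : v =ᶠ[𝓝 z] u := by
      filter_upwards [(hS.isClosed.union h.isClosed).isOpen_compl.mem_nhds hmem] with w hw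
      exact heq w hw
    simp only [gradSq_congr hev]
  rw [energy_split K u hS.measurableSet hR,
    energy_split L v hS.measurableSet hR, hout] at hmin
  exact (ENNReal.add_le_add_iff_right
    (lt_of_le_of_lt (by
      rw [energy_split K u hS.measurableSet hR]
      exact le_add_self) (h.finite 0 R)).ne).1 hmin

theorem replace_spec : ReplaceSpec := genReplace

/-! ## S01b: cut a bounded open set -/

/-- Cutting a bounded open set does not use connectedness of the complement. -/
theorem gen_cut (h : IsGM K u) {A : Set ℂ} (hA : IsOpen A) (hAb : Bornology.IsBounded A) :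
    energy K u A ≤ μH[1] (frontier A \ K) := by
  have hfr : frontier A = closure A \ A := hA.frontier_eq
  have hLclosed : IsClosed (K \ A ∪ frontier A) :=
    (h.isClosed.sdiff hA).union isClosed_frontier
  have hv : LocallyLipschitzOn (K \ A ∪ frontier A)ᶜ (indicator Aᶜ u) := by
    intro z hz
    by_cases hzA : z ∈ A
    · refine ⟨0, A, nhdsWithin_le_nhds (hA.mem_nhds hzA), fun x hx y hy => ?_⟩
      rw [indicator_of_notMem (by simpa using hx), indicator_of_notMem (by simpa using hy)]
      simp
    · have hzK : z ∉ K := fun hk => hz (Or.inl ⟨hk, hzA⟩)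
      have hzc : z ∉ closure A := fun hc => hz (Or.inr (hfr ▸ ⟨hc, hzA⟩))
      obtain ⟨c, t, ht, hl⟩ := h.locallyLipschitzOn hzK
      rw [h.isOpen_compl.nhdsWithin_eq hzK] at ht
      refine ⟨c, t ∩ (closure A)ᶜ,
        nhdsWithin_le_nhds (inter_mem ht (isClosed_closure.isOpen_compl.mem_nhds hzc)),
        fun x hx y hy => ?_⟩
      rw [indicator_of_mem (show x ∈ Aᶜ from fun hxA => hx.2 (subset_closure hxA)),
        indicator_of_mem (show y ∈ Aᶜ from fun hyA => hy.2 (subset_closure hyA))]
      exact hl hx.1 hy.1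
  have hsep : ∃ R₀ : ℝ, ∀ R, R₀ ≤ R → KeepsSeparation K (K \ A ∪ frontier A) 0 R := by
    obtain ⟨R₀, hR₀⟩ := hAb.closure.subset_ball 0
    refine ⟨R₀, fun R hR x y hx hy hs hL => hs ?_⟩
    simp only [mem_union, not_or] at hx hy
    have hxc : x ∉ closure A := fun hc => hx.1 (ball_subset_ball hR (hR₀ hc))
    have hmem : ∀ z : ℂ, z ∉ K → z ∉ closure A → z ∈ (K \ A ∪ frontier A)ᶜ :=
      fun z hzK hzc hz => hz.elim (fun hk => hzK hk.1) fun hf => hzc (frontier_subset_closure hf)
    set C := connectedComponentIn (K \ A ∪ frontier A)ᶜ x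
    have hCA : C ⊆ (closure A)ᶜ := by
      refine isPreconnected_connectedComponentIn.subset_right_of_subset_union hA
        isClosed_closure.isOpen_compl
        (disjoint_left.2 fun z hz hzc => hzc (subset_closure hz)) (fun z hz => ?_)
        ⟨x, mem_connectedComponentIn (hmem x hx.2 hxc), hxc⟩
      by_cases hzA : z ∈ A
      · exact Or.inl hzA
      · refine Or.inr fun hzc => connectedComponentIn_subset _ _ hz (Or.inr ?_)
        exact hfr ▸ ⟨hzc, hzA⟩
    have hCK : C ⊆ Kᶜ := fun z hz hzK => connectedComponentIn_subset _ _ hz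
      (Or.inl ⟨hzK, fun hzA => hCA hz (subset_closure hzA)⟩)
    have hyC : y ∈ C := by
      rw [show C = connectedComponentIn (K \ A ∪ frontier A)ᶜ y from hL]
      exact mem_connectedComponentIn (hmem y hy.2 fun hc => hy.1 (ball_subset_ball hR (hR₀ hc)))
    exact connectedComponentIn_eq (isPreconnected_connectedComponentIn.subset_connectedComponentIn
      (mem_connectedComponentIn (hmem x hx.2 hxc)) hCK hyC)
  have hmain := genReplace K u h (closure A) (K \ A ∪ frontier A) (indicator Aᶜ u)
    hAb.isCompact_closure hLclosed hv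
    (by
      ext z
      have hsub : z ∈ A → z ∈ closure A := fun hz => subset_closure hz
      simp only [hfr, Set.mem_sdiff, mem_union]
      tauto)
    (by
      intro z hz
      exact indicator_of_mem (show z ∈ Aᶜ from fun hzA => hz (Or.inl (subset_closure hzA))) u)
    hsep
  have hzero : dirichlet (K \ A ∪ frontier A) (indicator Aᶜ u) (closure A) = 0 := by
    rw [dirichlet, setLIntegral_congr_fun
      (isClosed_closure.measurableSet.diff hLclosed.measurableSet) (g := fun _ => 0) ?_]
    · simp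
    · intro z hz
      have hzA : z ∈ A := by
        by_contra hzA
        exact hz.2 (Or.inr (hfr ▸ ⟨hz.1, hzA⟩))
      have hev : indicator Aᶜ u =ᶠ[𝓝 z] fun _ => (0 : ℝ) := by
        filter_upwards [hA.mem_nhds hzA] with w hw
        exact indicator_of_notMem (by simpa using hw) u
      simp [gradSq_eq_zero_of_eventuallyEq_const hev]
  have hlen : (K \ A ∪ frontier A) ∩ closure A = frontier A := by
    ext z
    simp only [hfr, Set.mem_sdiff, mem_union, mem_inter_iff]
    tauto
  have hright : energy (K \ A ∪ frontier A) (indicator Aᶜ u) (closure A)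
      = μH[1] (frontier A \ K) + μH[1] (K ∩ frontier A) := by
    rw [energy, hzero, hlen, zero_add,
      ← measure_inter_add_sdiff (frontier A) h.isClosed.measurableSet, inter_comm, add_comm]
  have hleft : energy K u A + μH[1] (K ∩ frontier A) ≤ energy K u (closure A) := by
    have h1 : (K ∩ closure A) ∩ A = K ∩ A := by
      rw [inter_assoc, inter_eq_right.2 subset_closure]
    have h2 : (K ∩ closure A) \ A = K ∩ frontier A := by rw [inter_sdiff_assoc, hfr]
    have hm : μH[1] (K ∩ closure A) = μH[1] (K ∩ A) + μH[1] (K ∩ frontier A) := by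
      rw [← measure_inter_add_sdiff (K ∩ closure A) hA.measurableSet, h1, h2]
    simp only [energy, hm, ← add_assoc]
    gcongr
    exact lintegral_mono_set (sdiff_subset_sdiff_left subset_closure)
  have hfin : μH[1] (K ∩ frontier A) ≠ ⊤ :=
    (h.length_lt_top_of_isBounded (hAb.closure.subset frontier_subset_closure)).ne
  exact (ENNReal.add_le_add_iff_right hfin).1 (hleft.trans (hright ▸ hmain))

theorem cut_spec : CutSpec := fun _ _ h _ hA hAb => gen_cut h hA hAb

/-! ## S01c: the Euler-Lagrange equation -/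

/-- The integral form of the comparison of `u` with `u + t φ`. -/
theorem test_ineq (h : IsGM K u) {φ : ℂ → ℝ} (hφ : LocallyLipschitzOn Kᶜ φ)
    (hc : HasCompactSupport φ) (hiφ : IntegrableOn (gradSq φ) (tsupport φ \ K))
    (hi : IntegrableOn (gradInner u φ) (tsupport φ \ K)) (t : ℝ) :
    0 ≤ 2 * t * (∫ z in tsupport φ \ K, gradInner u φ z) +
      t ^ 2 * ∫ z in tsupport φ \ K, gradSq φ z := by
  set S := tsupport φ with hSdef
  have hS : IsCompact S := hc
  have hm : MeasurableSet (S \ K) := hS.measurableSet.diff h.isClosed.measurableSet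
  have hv : LocallyLipschitzOn Kᶜ (fun z => u z + t * φ z) := by
    intro z hz
    obtain ⟨c₁, t₁, ht₁, hl₁⟩ := h.locallyLipschitzOn hz
    obtain ⟨c₂, t₂, ht₂, hl₂⟩ := hφ hz
    refine ⟨c₁ + ‖t‖₊ * c₂, t₁ ∩ t₂, inter_mem ht₁ ht₂,
      LipschitzOnWith.of_dist_le_mul fun x hx y hy => ?_⟩
    have e1 := hl₁.dist_le_mul x hx.1 y hy.1
    have e2 := hl₂.dist_le_mul x hx.2 y hy.2
    simp only [NNReal.coe_add, NNReal.coe_mul, coe_nnnorm, Real.dist_eq, Real.norm_eq_abs]
      at e1 e2 ⊢
    calc |u x + t * φ x - (u y + t * φ y)|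
        = |(u x - u y) + t * (φ x - φ y)| := by congr 1; ring
      _ ≤ |u x - u y| + |t| * |φ x - φ y| := (abs_add_le _ _).trans (by rw [abs_mul])
      _ ≤ c₁ * dist x y + |t| * (c₂ * dist x y) := by gcongr
      _ = (c₁ + |t| * c₂) * dist x y := by ring
  have hmain := genReplace K u h S K (fun z => u z + t * φ z) hS h.isClosed hv rfl
    (by
      intro z hz
      simp [image_eq_zero_of_notMem_tsupport (fun hzS => hz (Or.inl hzS))])
    ⟨0, fun R _ x y _ _ hs => hs⟩
  have hcancel := (ENNReal.add_le_add_iff_right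
    (h.length_lt_top_of_isBounded hS.isBounded).ne).1 hmain
  have hiu : IntegrableOn (gradSq u) (S \ K) := h.integrableOn_gradSq hS.isBounded
  have hsum : IntegrableOn
      (fun z => gradSq u z + (2 * t * gradInner u φ z + t ^ 2 * gradSq φ z)) (S \ K) :=
    hiu.add ((hi.const_mul (2 * t)).add (hiφ.const_mul (t ^ 2)))
  have hae : ∀ᵐ z ∂volume.restrict (S \ K),
      gradSq (fun w => u w + t * φ w) z =
        gradSq u z + (2 * t * gradInner u φ z + t ^ 2 * gradSq φ z) := by
    rw [ae_restrict_iff' hm]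
    filter_upwards [ae_differentiableAt_of_locallyLipschitzOn h.isClosed.isOpen_compl hφ]
      with z hz hzS
    have hdu := h.differentiableAt hzS.2
    have hdφ := hz hzS.2
    simp only [gradSq, gradInner, fderiv_fun_add hdu (hdφ.const_mul t),
      fderiv_const_mul hdφ t, add_apply, FunLike.coe_smul, Pi.smul_apply,
      smul_eq_mul]
    ring
  have hnn : 0 ≤ᵐ[volume.restrict (S \ K)]
      fun z => gradSq u z + (2 * t * gradInner u φ z + t ^ 2 * gradSq φ z) := by
    filter_upwards [hae] with z hz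
    rw [Pi.zero_apply, ← hz]
    exact gradSq_nonneg _ _
  simp only [dirichlet] at hcancel
  rw [← ofReal_integral_eq_lintegral_ofReal hiu (ae_of_all _ (gradSq_nonneg u)),
    lintegral_congr_ae (hae.mono fun z hz => congrArg ENNReal.ofReal hz),
    ← ofReal_integral_eq_lintegral_ofReal hsum hnn,
    ENNReal.ofReal_le_ofReal_iff (integral_nonneg_of_ae hnn),
    integral_add (g := fun z => 2 * t * gradInner u φ z + t ^ 2 * gradSq φ z) hiu
      ((hi.const_mul (2 * t)).add (hiφ.const_mul (t ^ 2))),
    integral_add (hi.const_mul (2 * t)) (hiφ.const_mul (t ^ 2)),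
    integral_const_mul, integral_const_mul] at hcancel
  linarith

theorem gen_test (h : IsGM K u) {φ : ℂ → ℝ} (hφ : LocallyLipschitzOn Kᶜ φ)
    (hc : HasCompactSupport φ) (hfin : dirichlet K φ univ < ⊤) :
    IntegrableOn (gradInner u φ) Kᶜ ∧ ∫ z in Kᶜ, gradInner u φ z = 0 := by
  set S := tsupport φ with hSdef
  have hS : IsCompact S := hc
  have hiφ' : IntegrableOn (gradSq φ) Kᶜ := by
    refine ⟨(measurable_gradSq φ).aestronglyMeasurable,
      (hasFiniteIntegral_iff_ofReal (ae_of_all _ (gradSq_nonneg φ))).2 ?_⟩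
    simpa [dirichlet, ← compl_eq_univ_sdiff] using hfin
  have hiφ : IntegrableOn (gradSq φ) (S \ K) := hiφ'.mono_set fun z hz => hz.2
  have hi : IntegrableOn (gradInner u φ) (S \ K) :=
    Integrable.mono' ((h.integrableOn_gradSq hS.isBounded).add hiφ)
      (measurable_gradInner u φ).aestronglyMeasurable
      (ae_of_all _ fun z => abs_gradInner_le u φ z)
  have hzero : ∀ z ∈ Kᶜ \ (S \ K), gradInner u φ z = 0 := by
    intro z hz
    have hzS : z ∉ S := fun hzS => hz.2 ⟨hzS, hz.1⟩
    simp [gradInner, fderiv_of_notMem_tsupport ℝ hzS]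
  refine ⟨hi.of_forall_sdiff_eq_zero h.isClosed.measurableSet.compl hzero, ?_⟩
  rw [setIntegral_eq_of_subset_of_forall_sdiff_eq_zero h.isClosed.measurableSet.compl
    (fun z hz => hz.2) hzero]
  set I := ∫ z in S \ K, gradInner u φ z
  set J := ∫ z in S \ K, gradSq φ z
  have hJ : 0 ≤ J := setIntegral_nonneg (hS.measurableSet.diff h.isClosed.measurableSet)
    fun z _ => gradSq_nonneg φ z
  have key := test_ineq h hφ hc hiφ hi (-I / (J + 1))
  have hJ1 : 0 < J + 1 := by linarith
  have key2 : 0 ≤ (2 * (-I / (J + 1)) * I + (-I / (J + 1)) ^ 2 * J) * (J + 1) ^ 2 :=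
    mul_nonneg key (sq_nonneg _)
  have key3 : (2 * (-I / (J + 1)) * I + (-I / (J + 1)) ^ 2 * J) * (J + 1) ^ 2
      = -(I ^ 2 * (J + 2)) := by
    field_simp
    ring
  rw [key3] at key2
  have : I ^ 2 = 0 := by nlinarith [sq_nonneg I]
  exact (sq_eq_zero_iff).1 this

theorem test_spec : TestSpec := fun _ _ h _ hφ hc hfin => gen_test h hφ hc hfin

/-! ## S01d: the energy is not flat at a point of `K` -/

/-- If `D` vanishes on every disc around a point then `u` is locally constant. -/
theorem gradSq_eq_zero_of_dir (h : IsGM K u) (x : ℂ) (hcon : ∀ r : ℝ, 0 < r → dir K u x r ≤ 0) :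
    ∀ z ∈ Kᶜ, gradSq u z = 0 := by
  have hflat : ∀ r : ℝ, 0 < r → dirichlet K u (ball x r) = 0 := by
    intro r hr
    have hle : dir K u x r ≤ 0 := hcon r hr
    have h0 : dir K u x r = 0 := le_antisymm hle ENNReal.toReal_nonneg
    rcases (ENNReal.toReal_eq_zero_iff _).1 h0 with h1 | h1
    · exact h1
    · exact absurd h1 (h.dirichlet_lt_top x r).ne
  have hae : gradSq u =ᵐ[volume.restrict Kᶜ] 0 := by
    have hun : Kᶜ = ⋃ n : ℕ, ball x (n + 1 : ℕ) \ K := by
      ext z
      simp only [mem_compl_iff, mem_iUnion, Set.mem_sdiff, mem_ball]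
      refine ⟨fun hz => ?_, fun ⟨_, _, hz⟩ => hz⟩
      obtain ⟨n, hn⟩ := exists_nat_gt (dist z x)
      exact ⟨n, hn.trans (by exact_mod_cast Nat.lt_succ_self n), hz⟩
    rw [hun]
    refine (ae_restrict_iUnion_iff _ _).2 fun n => ?_
    have h0 := hflat ((n + 1 : ℕ) : ℝ) (by positivity)
    rw [dirichlet, lintegral_eq_zero_iff (measurable_gradSq u).ennreal_ofReal] at h0
    filter_upwards [h0] with z hz
    exact le_antisymm (ENNReal.ofReal_eq_zero.1 hz) (gradSq_nonneg u z)
  exact Measure.eqOn_open_of_ae_eq hae h.isClosed.isOpen_compl h.continuousOn_gradSq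
    continuousOn_const

theorem noFlat_spec : NoFlatSpec := by
  intro K u h x hx
  by_contra hcon
  have hgrad := gradSq_eq_zero_of_dir h.toIsGM x fun r hr => not_lt.1 fun hlt => hcon ⟨r, hr, hlt⟩
  obtain ⟨k, hk⟩ := h.isClosed.isOpen_compl.exists_is_const_of_fderiv_eq_zero h.conn
    ((h.contDiffOn 1).differentiableOn one_ne_zero)
    fun z hz => fderiv_eq_zero_of_gradSq_eq_zero (hgrad z hz)
  have hmain := replace_spec K u h.toIsGM (closedBall x 1) (K \ ball x 1) (fun _ => k)
    (isCompact_closedBall x 1) (h.isClosed.sdiff isOpen_ball)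
    (LocallyLipschitz.const k).locallyLipschitzOn
    (by
      ext z
      have hsub : z ∈ ball x 1 → z ∈ closedBall x 1 := fun hz => ball_subset_closedBall hz
      simp only [Set.mem_sdiff]
      tauto)
    (by
      intro z hz
      exact (hk z fun hzK => hz (Or.inr hzK)).symm)
    ⟨0, fun R _ => h.keepsSeparation _ 0 R⟩
  have hright : energy (K \ ball x 1) (fun _ => k) (closedBall x 1)
      = μH[1] ((K ∩ closedBall x 1) \ ball x 1) := by
    have hd : dirichlet (K \ ball x 1) (fun _ => k) (closedBall x 1) = 0 := by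
      simp [dirichlet, gradSq]
    rw [energy, hd, zero_add]
    congr 1
    ext z
    simp only [Set.mem_sdiff, mem_inter_iff]
    tauto
  have hleft : μH[1] (K ∩ ball x 1) + μH[1] ((K ∩ closedBall x 1) \ ball x 1)
      ≤ energy K u (closedBall x 1) := by
    rw [← inter_eq_right.2 (ball_subset_closedBall (x := x) (ε := 1)), ← inter_assoc,
      inter_eq_right.2 (ball_subset_closedBall (x := x) (ε := 1)),
      measure_inter_add_sdiff _ measurableSet_ball]
    exact le_add_self
  have hle := hleft.trans (hright ▸ hmain)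
  have hfin : μH[1] ((K ∩ closedBall x 1) \ ball x 1) ≠ ⊤ :=
    (lt_of_le_of_lt (measure_mono sdiff_subset)
      (h.length_lt_top_of_isBounded isBounded_closedBall)).ne
  have := (ENNReal.add_le_add_iff_right hfin).1 (hle.trans_eq (zero_add _).symm)
  exact absurd (nonpos_iff_eq_zero.1 this) (h.reduced x hx 1 one_pos).ne'

end Vale.Agent.P128
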