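import Vale.Agent.P128.Spec
import Vale.Agent.P128.Topo.Arcs

/-!
# P128: continua of finite length are connected by arcs

A shortest Lipschitz path between two points is injective, and the length of its image is its
length, so arclength is dominated by `μH[1]`.
-/

open MeasureTheory Set Metric Filter
open scoped ENNReal NNReal Topology

noncomputable section

namespace Vale.Agent.P128

variable {C : Set ℂ} {p q : ℂ}

/-- A connected set is at least as long as the distance of two of its points. -/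
theorem ofReal_dist_le_length {S : Set ℂ} (hS : IsPreconnected S) (hp : p ∈ S) (hq : q ∈ S) :
    ENNReal.ofReal (dist p q) ≤ μH[1] S := by
  refine le_trans ?_ ((Topo.length_le_of_isPreconnected hS hp hq (a := p)
    (R := dist p q) (dist_comm q p).ge).trans (measure_mono inter_subset_left))
  simp

/-- A compact connected set of finite length contains a Lipschitz path between any two points. -/
theorem exists_lipschitz_path (hC : IsCompact C) (hCc : IsPreconnected C) (hfin : μH[1] C < ⊤)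
    (hp : p ∈ C) (hq : q ∈ C) :
    ∃ (M : ℝ≥0) (γ : ℝ → ℂ), LipschitzWith M γ ∧ γ 0 = p ∧ γ 1 = q ∧ ∀ s, γ s ∈ C := by
  classical
  rcases eq_or_ne p q with rfl | hpq
  · exact ⟨0, fun _ => p, LipschitzWith.const _, rfl, rfl, fun _ => hp⟩
  set d := dist p q
  have hd : 0 < d := dist_pos.2 hpq
  set H := (μH[1] C).toReal with hH
  set δ : ℕ → ℝ := fun k => d / ((k : ℝ) + 1)
  have hδ0 : ∀ k, 0 < δ k := fun k => div_pos hd (Nat.cast_add_one_pos k)
  have hδle : ∀ k, δ k ≤ d := fun k =>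
    div_le_self hd.le (by linarith [(Nat.cast_nonneg k : (0 : ℝ) ≤ k)])
  have hδlim : Tendsto δ atTop (𝓝 0) := by
    simpa [δ, div_eq_mul_inv] using
      (tendsto_one_div_add_atTop_nhds_zero_nat (𝕜 := ℝ)).const_mul d
  choose m x hx0 hxS hxs hxq hxm hsep using fun k => Topo.exists_chain hCc hC hp hq (hδ0 k)
  have hmδ : ∀ k, ((m k : ℝ) + 1) * δ k ≤ 3 * H := by
    intro k
    have hball : ∀ i, ENNReal.ofReal (δ k / 3) ≤ μH[1] (C ∩ closedBall (x k i) (δ k / 3)) := by
      intro i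
      obtain ⟨z, hz, hzd⟩ : ∃ z ∈ C, δ k / 3 ≤ dist z (x k i) := by
        by_contra! hc
        linarith [hc p hp, hc q hq, dist_triangle_right p q (x k i), hδle k, hδ0 k]
      simpa using Topo.length_le_of_isPreconnected hCc (hxS k i) hz hzd
    have hdisj : (Finset.range (m k + 1) : Set ℕ).PairwiseDisjoint
        fun i => C ∩ closedBall (x k i) (δ k / 3) := by
      intro i hi j hj hij
      refine disjoint_left.2 fun z hzi hzj => ?_
      linarith [hsep k i (by simp at hi; omega) j (by simp at hj; omega) hij,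
        dist_triangle_left (x k i) (x k j) z, mem_closedBall.1 hzi.2, mem_closedBall.1 hzj.2,
        hδ0 k]
    have h1 : ((m k + 1 : ℕ) : ℝ≥0∞) * ENNReal.ofReal (δ k / 3) ≤ μH[1] C :=
      calc ((m k + 1 : ℕ) : ℝ≥0∞) * ENNReal.ofReal (δ k / 3)
          = ∑ _i ∈ Finset.range (m k + 1), ENNReal.ofReal (δ k / 3) := by
            rw [Finset.sum_const, Finset.card_range, nsmul_eq_mul]
        _ ≤ ∑ i ∈ Finset.range (m k + 1), μH[1] (C ∩ closedBall (x k i) (δ k / 3)) :=
            Finset.sum_le_sum fun i _ => hball i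
        _ = μH[1] (⋃ i ∈ Finset.range (m k + 1), C ∩ closedBall (x k i) (δ k / 3)) :=
            (measure_biUnion_finset hdisj fun i _ =>
              (hC.isClosed.inter isClosed_closedBall).measurableSet).symm
        _ ≤ μH[1] C := measure_mono (iUnion₂_subset fun i _ => inter_subset_left)
    rw [← ENNReal.ofReal_natCast, ← ENNReal.ofReal_mul (Nat.cast_nonneg _),
      ← ENNReal.ofReal_toReal hfin.ne, ENNReal.ofReal_le_ofReal_iff ENNReal.toReal_nonneg,
      Nat.cast_succ] at h1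
    linarith
  have hH0 : 0 ≤ H := ENNReal.toReal_nonneg
  have hstep : ∀ k i n, dist (x k i) (x k (i + n)) ≤ 2 * δ k * n := by
    intro k i n
    induction n with
    | zero => simp
    | succ n ih =>
      push_cast
      rw [← Nat.add_assoc]
      linarith [dist_triangle (x k i) (x k (i + n)) (x k (i + n + 1)), hxs k (i + n)]
  set f : ℕ → ℝ → ℂ := fun k s => x k ⌊s * m k⌋₊
  have hflip : ∀ k s s', dist (f k s) (f k s') ≤ 6 * H * |s - s'| + 2 * δ k := by
    intro k
    suffices ∀ s s', s ≤ s' → dist (f k s) (f k s') ≤ 6 * H * (s' - s) + 2 * δ k by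
      intro s s'
      rcases le_total s s' with h | h
      · rw [abs_sub_comm, abs_of_nonneg (sub_nonneg.2 h)]; exact this s s' h
      · rw [dist_comm, abs_of_nonneg (sub_nonneg.2 h)]; exact this s' s h
    intro s s' h
    obtain ⟨n, hn⟩ := Nat.exists_eq_add_of_le
      (Nat.floor_le_floor (mul_le_mul_of_nonneg_right h (Nat.cast_nonneg (m k))))
    have hn' : (n : ℝ) ≤ (s' - s) * m k + 1 := by
      have h2 := Nat.lt_floor_add_one (s * m k)
      have h4 : (⌊s' * m k⌋₊ : ℝ) = ⌊s * m k⌋₊ + n := by rw [hn]; push_cast; rfl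
      have := (Nat.cast_nonneg n : (0 : ℝ) ≤ n)
      have := (Nat.cast_nonneg ⌊s * m k⌋₊ : (0 : ℝ) ≤ _)
      rcases le_total 0 (s' * m k) with h5 | h5
      · nlinarith [Nat.floor_le h5]
      · rw [Nat.floor_of_nonpos h5] at h4
        push_cast at h4
        nlinarith [(Nat.cast_nonneg (m k) : (0 : ℝ) ≤ m k)]
    show dist (x k _) (x k _) ≤ _
    rw [hn]
    refine (hstep k _ n).trans ?_
    nlinarith [hδ0 k, mul_le_mul_of_nonneg_left (hmδ k) (sub_nonneg.2 h),
      mul_le_mul_of_nonneg_left hn' (hδ0 k).le, mul_nonneg (sub_nonneg.2 h) (hδ0 k).le]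
  set 𝒰 := Filter.hyperfilter ℕ
  have h𝒰 : (𝒰 : Filter ℕ) ≤ atTop := Nat.cofinite_eq_atTop ▸ hyperfilter_le_cofinite
  have hlim : ∀ s, ∃ y ∈ C, Tendsto (fun k => f k s) 𝒰 (𝓝 y) := fun s =>
    hC.ultrafilter_le_nhds (Ultrafilter.map (fun k => f k s) 𝒰)
      (le_principal_iff.2 (Filter.mem_map.2 (Filter.Eventually.of_forall fun k => hxS k _)))
  choose γ hγS hγ using hlim
  have hδ𝒰 : Tendsto δ 𝒰 (𝓝 0) := hδlim.mono_left h𝒰
  refine ⟨(6 * H).toNNReal, γ, LipschitzWith.of_dist_le_mul fun s s' => ?_, ?_, ?_, hγS⟩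
  · rw [Real.coe_toNNReal _ (by positivity), Real.dist_eq]
    refine le_of_tendsto_of_tendsto' ((hγ s).dist (hγ s')) ?_ fun k => hflip k s s'
    simpa using (hδ𝒰.const_mul 2).const_add (6 * H * |s - s'|)
  · refine tendsto_nhds_unique (hγ 0) ?_
    simp only [f, zero_mul, Nat.floor_zero, hx0]
    exact tendsto_const_nhds
  · refine tendsto_nhds_unique (hγ 1) (tendsto_iff_dist_tendsto_zero.2 ?_)
    refine squeeze_zero (fun _ => dist_nonneg) (fun k => ?_) hδ𝒰
    simpa [f] using hxq k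

/-- A shortest Lipschitz path exists. -/
theorem exists_min_path (hC : IsCompact C) (hCc : IsPreconnected C) (hfin : μH[1] C < ⊤)
    (hp : p ∈ C) (hq : q ∈ C) :
    ∃ (T : ℝ≥0) (γ : ℝ → ℂ), LipschitzWith T γ ∧ γ 0 = p ∧ γ 1 = q ∧ (∀ s, γ s ∈ C) ∧
      ∀ (M : ℝ≥0) (η : ℝ → ℂ), LipschitzWith M η → η 0 = p → η 1 = q → (∀ s, η s ∈ C) → T ≤ M := by
  obtain ⟨M, γ, hγ⟩ := exists_lipschitz_path hC hCc hfin hp hq
  set P : Set ℝ≥0 := {M | ∃ γ : ℝ → ℂ, LipschitzWith M γ ∧ γ 0 = p ∧ γ 1 = q ∧ ∀ s, γ s ∈ C}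
  have hPne : P.Nonempty := ⟨M, γ, hγ⟩
  obtain ⟨u, -, hu, huP⟩ := exists_seq_tendsto_sInf hPne (OrderBot.bddBelow P)
  choose g hgl hg0 hg1 hgC using huP
  set 𝒰 := Filter.hyperfilter ℕ
  have h𝒰 : (𝒰 : Filter ℕ) ≤ atTop := Nat.cofinite_eq_atTop ▸ hyperfilter_le_cofinite
  have hlim : ∀ s, ∃ y ∈ C, Tendsto (fun k => g k s) 𝒰 (𝓝 y) := fun s =>
    hC.ultrafilter_le_nhds (Ultrafilter.map (fun k => g k s) 𝒰)
      (le_principal_iff.2 (Filter.mem_map.2 (Filter.Eventually.of_forall fun k => hgC k _)))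
  choose η hηC hη using hlim
  refine ⟨sInf P, η, LipschitzWith.of_dist_le_mul fun s s' => ?_, ?_, ?_, hηC,
    fun M η' h1 h2 h3 h4 => csInf_le (OrderBot.bddBelow P) ⟨η', h1, h2, h3, h4⟩⟩
  · exact le_of_tendsto_of_tendsto' ((hη s).dist (hη s'))
      (((NNReal.tendsto_coe.2 hu).mul_const _).mono_left h𝒰) fun k => (hgl k).dist_le_mul s s'
  · exact tendsto_nhds_unique (hη 0) (by simp only [hg0]; exact tendsto_const_nhds)
  · exact tendsto_nhds_unique (hη 1) (by simp only [hg1]; exact tendsto_const_nhds)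

/-- S05a. -/
theorem continuum : ContinuumSpec := by
  classical
  intro C hC hCc hfin p hp q hq
  rcases eq_or_ne p q with rfl | hpq
  · refine ⟨fun _ => p, 0, le_rfl, (LipschitzWith.const p).weaken zero_le_one |>.lipschitzOnWith,
      fun a ha b hb _ => ?_, fun _ _ => hp, rfl, rfl, fun A _ => ?_⟩
    · simp only [Icc_self, mem_singleton_iff] at ha hb; rw [ha, hb]
    · exact le_trans (measure_mono inter_subset_left) (by simp)
  obtain ⟨T₀, γ₀, hl₀, h00, h01, hC₀, hmin⟩ := exists_min_path hC hCc.isPreconnected hfin hp hq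
  set T : ℝ := (T₀ : ℝ)
  have hT : 0 < T := by
    by_contra! h
    have := hl₀.dist_le_mul 0 1
    rw [h00, h01] at this
    have : dist p q ≤ 0 := this.trans (mul_nonpos_of_nonpos_of_nonneg h dist_nonneg)
    exact hpq (dist_le_zero.1 this)
  -- no shorter path
  have hshort : ∀ L : ℝ, ∀ hL : 0 ≤ L, ∀ η : ℝ → ℂ,
      (∀ s ∈ Icc 0 L, ∀ t ∈ Icc 0 L, dist (η s) (η t) ≤ |s - t|) → (∀ s ∈ Icc 0 L, η s ∈ C) →
      η 0 = p → η L = q → T ≤ L := by
    intro L hL η hl hm h0 h1
    refine (NNReal.coe_le_coe.2 (hmin L.toNNReal (fun s => η (projIcc 0 L hL (s * L)))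
      (LipschitzWith.of_dist_le_mul fun s t => ?_) (by simp [h0])
      (by simp [h1]) fun s => hm _ (Subtype.coe_prop _))).trans_eq (Real.coe_toNNReal L hL)
    refine (hl _ (Subtype.coe_prop _) _ (Subtype.coe_prop _)).trans
      ((abs_projIcc_sub_projIcc hL).trans_eq ?_)
    rw [← sub_mul, abs_mul, abs_of_nonneg hL, Real.coe_toNNReal L hL, Real.dist_eq, mul_comm]
  set γ : ℝ → ℂ := fun s => γ₀ (s / T)
  have hγ : LipschitzWith 1 γ := LipschitzWith.of_dist_le_mul fun s t => by
    refine (hl₀.dist_le_mul _ _).trans_eq ?_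
    rw [Real.dist_eq, Real.dist_eq, ← sub_div, abs_div, abs_of_pos hT, NNReal.coe_one, one_mul]
    exact mul_div_cancel₀ _ hT.ne'
  have hd : ∀ s t, dist (γ s) (γ t) ≤ |s - t| := fun s t => by
    simpa [Real.dist_eq] using hγ.dist_le_mul s t
  have hγ0 : γ 0 = p := by simp [γ, h00]
  have hγT : γ T = q := by simp [γ, h01, hT.ne']
  have hγC : ∀ s, γ s ∈ C := fun s => hC₀ _
  have hnocut : ∀ a b, 0 ≤ a → a < b → b ≤ T → γ a ≠ γ b := by
    intro a b ha hab hb e
    set η : ℝ → ℂ := fun s => if s ≤ a then γ s else γ (s + (b - a))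
    have := hshort (T - (b - a)) (by linarith) η ?_ ?_ ?_ ?_
    · linarith
    · have key : ∀ s t, s ≤ t → dist (η s) (η t) ≤ t - s := by
        intro s t hst
        simp only [η]
        split_ifs with h1 h2 h3
        · simpa [abs_sub_comm s t, abs_of_nonneg (sub_nonneg.2 hst)] using hd s t
        · have h4 := hd s a
          have h5 := hd b (t + (b - a))
          rw [abs_sub_comm, abs_of_nonneg (by linarith)] at h4 h5
          rw [← e] at h5
          linarith [dist_triangle (γ s) (γ a) (γ (t + (b - a)))]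
        · linarith
        · have h4 := hd (s + (b - a)) (t + (b - a))
          rw [abs_sub_comm, abs_of_nonneg (by linarith)] at h4
          linarith
      intro s _ t _
      rcases le_total s t with h | h
      · rw [abs_sub_comm, abs_of_nonneg (sub_nonneg.2 h)]; exact key s t h
      · rw [dist_comm, abs_of_nonneg (sub_nonneg.2 h)]; exact key t s h
    · intro s _; simp only [η]; split_ifs <;> exact hγC _
    · simp [η, ha, hγ0]
    · simp only [η]
      split_ifs with h
      · have hbT : b = T := le_antisymm hb (by linarith)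
        rw [show T - (b - a) = a by linarith, e, hbT, hγT]
      · rw [show T - (b - a) + (b - a) = T by ring, hγT]
  have hinj : InjOn γ (Icc 0 T) := fun a ha b hb e => by
    rcases lt_trichotomy a b with h | h | h
    · exact absurd e (hnocut a b ha.1 h hb.2)
    · exact h
    · exact absurd e.symm (hnocut b a hb.1 h ha.2)
  have hlen : ∀ B : Set ℝ, μH[1] (γ '' B) ≤ volume B := fun B => by
    refine (hγ.hausdorffMeasure_image_le zero_le_one B).trans_eq ?_
    rw [hausdorffMeasure_real]; simp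
  have hfinI : ∀ s t : ℝ, μH[1] (γ '' Icc s t) ≠ ⊤ := fun s t =>
    ne_top_of_le_ne_top (measure_Icc_lt_top (μ := volume)).ne (hlen _)
  set σ : ℝ → ℝ := fun t => (μH[1] (γ '' Icc 0 t)).toReal
  have hσ : ∀ s t, 0 ≤ s → s ≤ t → t ≤ T → dist (γ s) (γ t) ≤ σ t - σ s ∧ σ t - σ s ≤ t - s := by
    intro s t hs hst ht
    have hadd : μH[1] (γ '' Icc 0 t) = μH[1] (γ '' Icc 0 s) + μH[1] (γ '' Icc s t) := by
      have h0 : μH[1] (γ '' Icc 0 s ∩ γ '' Icc s t) = 0 := by
        rw [← hinj.image_inter (Icc_subset_Icc_right (hst.trans ht)) (Icc_subset_Icc hs ht)]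
        refine measure_mono_null (image_mono fun z hz => ?_) (by
          rw [image_singleton]
          exact @measure_singleton _ _ _ (Measure.nullSingletonClass_hausdorff ℂ zero_lt_one) (γ s))
        exact le_antisymm hz.1.2 hz.2.1
      rw [← measure_union_add_inter (γ '' Icc 0 s)
        ((isCompact_Icc.image hγ.continuous).measurableSet), h0, add_zero, ← image_union,
        Icc_union_Icc_eq_Icc hs hst]
    have h1 : σ t = σ s + (μH[1] (γ '' Icc s t)).toReal := by
      simp only [σ, hadd, ENNReal.toReal_add (hfinI 0 s) (hfinI s t)]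
    refine ⟨?_, ?_⟩
    · have := (ENNReal.ofReal_le_iff_le_toReal (hfinI s t)).1
        (ofReal_dist_le_length ((isPreconnected_Icc).image γ hγ.continuous.continuousOn)
          (mem_image_of_mem γ (left_mem_Icc.2 hst)) (mem_image_of_mem γ (right_mem_Icc.2 hst)))
      linarith
    · have := ENNReal.toReal_mono (measure_Icc_lt_top (μ := volume)).ne (hlen (Icc s t))
      rw [Real.volume_Icc, ENNReal.toReal_ofReal (sub_nonneg.2 hst)] at this
      linarith
  have hdσ : ∀ s ∈ Icc 0 T, ∀ t ∈ Icc 0 T,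
      dist (γ s) (γ t) ≤ |σ s - σ t| ∧ |σ s - σ t| ≤ |s - t| := by
    intro s hs t ht
    rcases le_total s t with h | h
    · obtain ⟨h1, h2⟩ := hσ s t hs.1 h ht.2
      rw [abs_sub_comm (σ s), abs_sub_comm s, abs_of_nonneg (dist_nonneg.trans h1),
        abs_of_nonneg (sub_nonneg.2 h)]
      exact ⟨h1, h2⟩
    · obtain ⟨h1, h2⟩ := hσ t s ht.1 h hs.2
      rw [dist_comm, abs_of_nonneg (dist_nonneg.trans h1), abs_of_nonneg (sub_nonneg.2 h)]
      exact ⟨h1, h2⟩
  have hσ0 : σ 0 = 0 := by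
    have := ENNReal.toReal_mono (measure_Icc_lt_top (μ := volume) (a := (0 : ℝ)) (b := 0)).ne (hlen (Icc (0:ℝ) 0))
    exact le_antisymm (by simpa [σ] using this) ENNReal.toReal_nonneg
  have hσc : ContinuousOn σ (Icc 0 T) := by
    refine (LipschitzOnWith.of_dist_le_mul (K := 1) fun s hs t ht => ?_).continuousOn
    simpa [Real.dist_eq] using (hdσ s hs t ht).2
  have htot : T ≤ σ T := by
    have hsurj : ∀ u ∈ Icc 0 (σ T), ∃ t ∈ Icc 0 T, σ t = u := by
      intro u hu
      obtain ⟨t, ht, e⟩ := intermediate_value_Icc hT.le hσc (show u ∈ Icc (σ 0) (σ T) by rwa [hσ0])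
      exact ⟨t, ht, e⟩
    set g := Function.invFunOn σ (Icc 0 T)
    have hg : ∀ u ∈ Icc 0 (σ T), g u ∈ Icc 0 T ∧ σ (g u) = u := fun u hu =>
      ⟨Function.invFunOn_mem (hsurj u hu), Function.invFunOn_eq (hsurj u hu)⟩
    have hsT : 0 ≤ σ T := ENNReal.toReal_nonneg
    refine hshort (σ T) hsT (γ ∘ g) (fun s hs t ht => ?_) (fun s _ => hγC _) ?_ ?_
    · simpa [(hg s hs).2, (hg t ht).2] using (hdσ _ (hg s hs).1 _ (hg t ht).1).1
    · have h := (hg 0 (left_mem_Icc.2 hsT))
      have := (hdσ _ h.1 0 (left_mem_Icc.2 hT.le)).1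
      rw [h.2, hσ0, sub_zero, abs_zero, hγ0] at this
      exact dist_le_zero.1 this
    · have h := (hg _ (right_mem_Icc.2 hsT))
      have := (hdσ _ h.1 T (right_mem_Icc.2 hT.le)).1
      rw [h.2, sub_self, abs_zero, hγT] at this
      exact dist_le_zero.1 this
  refine ⟨γ, T, hT.le, hγ.lipschitzOnWith, hinj, fun s _ => hγC s, hγ0, hγT, fun A hA => ?_⟩
  have hB : MeasurableSet (γ ⁻¹' A) := hγ.continuous.measurable hA
  have h1 : volume (Icc 0 T ∩ γ ⁻¹' A) + volume (Icc 0 T \ γ ⁻¹' A) ≤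
      μH[1] (C ∩ A) + volume (Icc 0 T \ γ ⁻¹' A) :=
    calc _ = ENNReal.ofReal T := by rw [measure_inter_add_sdiff _ hB, Real.volume_Icc, sub_zero]
      _ ≤ ENNReal.ofReal (σ T) := ENNReal.ofReal_le_ofReal htot
      _ = μH[1] (γ '' ((Icc 0 T ∩ γ ⁻¹' A) ∪ (Icc 0 T \ γ ⁻¹' A))) := by
          rw [inter_union_sdiff, ENNReal.ofReal_toReal (hfinI 0 T)]
      _ ≤ μH[1] (γ '' (Icc 0 T ∩ γ ⁻¹' A)) + μH[1] (γ '' (Icc 0 T \ γ ⁻¹' A)) := by
          rw [image_union]; exact measure_union_le _ _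
      _ ≤ _ := by
          refine add_le_add (measure_mono ?_) (hlen _)
          rintro _ ⟨s, hs, rfl⟩
          exact ⟨hγC s, hs.2⟩
  exact ENNReal.le_of_add_le_add_right
    (ne_top_of_le_ne_top (measure_Icc_lt_top (μ := volume)).ne (measure_mono sdiff_subset)) h1

end Vale.Agent.P128
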