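import Vale.Agent.P128.Basic
import Vale.Agent.P128.Continuum

/-!
# P128: structure of the components of the crack set

No compact piece gives unbounded components; linear growth of the length gives finitely many of
them, each open in `K` and connected by arcs.
-/

open MeasureTheory Set Metric Filter
open scoped ENNReal Topology Real

noncomputable section

namespace Vale.Agent.P128

variable {K : Set ℂ} {x : ℂ}

/-- Without compact pieces every component is unbounded. -/
theorem not_isBounded_component (hK : IsClosed K) (hno : NoPiece K) (hx : x ∈ K) :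
    ¬ Bornology.IsBounded (connectedComponentIn K x) := fun hb => by
  obtain ⟨C, hC, hsub, hCK, hCc⟩ := Topo.exists_compact_clopen_piece hK hx hb
  exact notMem_empty x (hno C hCK hC hCc ▸ hsub (mem_connectedComponentIn hx))

/-- S05b. -/
theorem components (hKey : KeySpec) (hGrowth : GrowthSpec) : ComponentsSpec := by
  intro K u hu
  have hK := hu.isClosed
  have hunb : ∀ p ∈ K, ¬ Bornology.IsBounded (connectedComponentIn K p) := fun p hp =>
    not_isBounded_component hK (hKey K u hu) hp
  have hgrow : ∀ w : ℂ, ∀ t : ℝ, 0 < t →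
      μH[1] (K ∩ closedBall w t) ≤ ENNReal.ofReal (4 * π * t) := by
    intro w t ht
    obtain ⟨hD, hH, hsum⟩ := (hGrowth K u hu w).1 (2 * t) (by linarith)
    refine le_trans (measure_mono (inter_subset_inter_right K
      (closedBall_subset_ball (by linarith : t < 2 * t)))) ?_
    rw [← ENNReal.ofReal_toReal (hu.length_lt_top w (2 * t)).ne]
    exact ENNReal.ofReal_le_ofReal (by simp only [len] at hsum; linarith)
  obtain ⟨F, hFK, -, -, hrep, hopen⟩ :=
    Topo.components_finite hK (by positivity : 0 ≤ 4 * π) (hgrow 0) hunb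
  have hfar : ∀ x : ℂ, ∀ R : ℝ, ∀ p ∈ K,
      ¬ connectedComponentIn K p ⊆ ball x R := fun x R p hp h =>
    hunb p hp (isBounded_ball.subset h)
  refine ⟨?_, hunb, fun p _ => Topo.isClosed_component hK p, ?_, ?_, ?_, ?_, ?_⟩
  · refine (F.finite_toSet.image fun p => connectedComponentIn K p).subset ?_
    rintro _ ⟨x, hx, rfl⟩
    obtain ⟨p, hp, e⟩ := hrep x hx
    exact ⟨p, hp, e.symm⟩
  · intro p hp
    obtain ⟨δ, hδ, h⟩ := Metric.isOpen_iff.1 (hopen p hp).isOpen_compl p
      fun h => h.2 (mem_connectedComponentIn hp)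
    exact ⟨δ, hδ, fun z hz => by_contra fun hne => h hz.2 ⟨hz.1, hne⟩⟩
  · intro p _ q hq
    obtain ⟨S, hSc, hS, hSK, hpS, hqS⟩ :=
      Topo.exists_compact_connected hK (by positivity : 0 ≤ 4 * π) hgrow hq
    have hfin : μH[1] S < ⊤ := by
      have := hu.length_lt_top_of_isBounded hSc.isBounded
      rwa [inter_eq_right.2 hSK] at this
    obtain ⟨γ, T, hγ⟩ := continuum S hSc ⟨⟨p, hpS⟩, hS⟩ hfin p hpS q hqS
    exact ⟨γ, T, hγ.nonneg, hγ.lip, hγ.inj, hγ.maps.mono_right hSK, hγ.source, hγ.target,
      fun A hA => (hγ.time A hA).trans (measure_mono (inter_subset_inter_left A hSK))⟩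
  · intro x hx r hr
    obtain ⟨z, hz, hzr⟩ := not_subset.1 (hfar x r x hx)
    obtain ⟨w, hw, hwr⟩ := isPreconnected_connectedComponentIn.intermediate_value
      (mem_connectedComponentIn hx) hz (f := fun z => dist z x) (by fun_prop)
      (show r ∈ Icc (dist x x) (dist z x) by
        simpa [dist_self, hr.le] using le_of_not_gt (mt mem_ball.2 hzr))
    exact Set.one_le_encard_iff_nonempty.2 ⟨w, connectedComponentIn_subset K x hw, hwr⟩
  · intro x r p hp
    have hA : p ∈ connectedComponentIn K p ∩ closedBall x r :=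
      ⟨mem_connectedComponentIn hp.1, hp.2⟩
    obtain ⟨q, hq, hqr⟩ := Topo.exists_dist_ge_mem_component isPreconnected_connectedComponentIn
      (Topo.isClosed_component hK p) hA (hfar x r p hp.1)
    refine ⟨q, mem_sphere.2 (le_antisymm (connectedComponentIn_subset _ p hq).2 hqr), ?_⟩
    exact connectedComponentIn_mono p
      (inter_subset_inter_left _ (connectedComponentIn_subset K p)) hq
  · intro x
    filter_upwards [eventually_gt_atTop (∑ p ∈ F, dist p x)] with r hr
    refine le_trans (encard_le_encard ?_) (encard_image_le (connectedComponentIn K) _)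
    rintro _ ⟨y, hy, rfl⟩
    obtain ⟨p, hp, e⟩ := hrep y hy
    obtain ⟨z, hz, hzr⟩ := not_subset.1 (hfar x r p (hFK hp))
    obtain ⟨w, hw, hwr⟩ := isPreconnected_connectedComponentIn.intermediate_value
      (mem_connectedComponentIn (hFK hp)) hz (f := fun z => dist z x) (by fun_prop)
      (show r ∈ Icc (dist p x) (dist z x) from
        ⟨(Finset.single_le_sum (f := fun p => dist p x) (fun _ _ => dist_nonneg) hp).trans hr.le,
          le_of_not_gt (mt mem_ball.2 hzr)⟩)
    exact ⟨w, ⟨connectedComponentIn_subset K p hw, hwr⟩, (connectedComponentIn_eq hw).symm.trans e.symm⟩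

end Vale.Agent.P128
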