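import Vale.Agent.P128.Cone.Arcs
import Vale.Agent.P128.Cone.Glue

/-!
# P128 piece K: sector competitors (`ConeSpec`, `TipShiftSpec`)
-/

open MeasureTheory Set Metric Filter
open scoped ENNReal Topology Real

noncomputable section

namespace Vale.Agent.P128.Cone

variable {K : Set ℂ} {u : ℂ → ℝ} {x : ℂ} {r : ℝ}

theorem contDiffAt_circle (h : IsGM K u) {θ : ℝ} (hp : circleMap x r θ ∉ K) :
    ContDiffAt ℝ 1 (fun s => u (circleMap x r s)) θ :=
  ((h.contDiffOn 1).contDiffAt (h.isClosed.isOpen_compl.mem_nhds hp)).comp θ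
    (contDiff_circleMap x r).contDiffAt

theorem hasDerivAt_circle (h : IsGM K u) {θ : ℝ} (hp : circleMap x r θ ∉ K) :
    HasDerivAt (fun s => u (circleMap x r s)) (r * dT u x r θ) θ := by
  have hu := (((h.contDiffOn 1).contDiffAt
    (h.isClosed.isOpen_compl.mem_nhds hp)).differentiableAt one_ne_zero).hasFDerivAt
  refine (hu.comp_hasDerivAt θ (hasDerivAt_circleMap x r θ)).congr_deriv ?_
  rw [dT, show circleMap 0 r θ * Complex.I = r • (Complex.exp (θ * Complex.I) * Complex.I) by
    rw [circleMap_eq_add, zero_add, Complex.real_smul]; ring, map_smul, smul_eq_mul]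

theorem intervalIntegrable_shift (hg : GoodRadius K u x r) (c a b : ℝ) :
    IntervalIntegrable (fun s => dT u x r (c + s) ^ 2) volume a b := by
  simpa using (hg.intT (c + a) (c + b)).comp_add_left c

theorem free_deriv (h : IsGM K u) (hg : GoodRadius K u x r) {c hh : ℝ} (h0 : 0 ≤ hh)
    (hfree : ∀ θ ∈ Ioo (c - hh) (c + hh), circleMap x r θ ∉ K) :
    ContDiffOn ℝ 1 (fun s => u (circleMap x r (c + s))) (Ioo (-hh) hh) ∧
    IntegrableOn (fun s => deriv (fun s => u (circleMap x r (c + s))) s ^ 2) (Ioo (-hh) hh) ∧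
    ∫ s in Ioo (-hh) hh, deriv (fun s => u (circleMap x r (c + s))) s ^ 2
      = r * tauArc u x r (c - hh) (c + hh) := by
  have hmem : ∀ s ∈ Ioo (-hh) hh, circleMap x r (c + s) ∉ K := fun s hs =>
    hfree (c + s) ⟨by linarith [hs.1], by linarith [hs.2]⟩
  have hd : ∀ s ∈ Ioo (-hh) hh,
      deriv (fun s => u (circleMap x r (c + s))) s ^ 2 = r ^ 2 * dT u x r (c + s) ^ 2 := by
    intro s hs
    rw [((hasDerivAt_circle h (hmem s hs)).comp_const_add c s).deriv]
    ring
  have hi : IntervalIntegrable (fun s => r ^ 2 * dT u x r (c + s) ^ 2) volume (-hh) hh :=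
    (intervalIntegrable_shift hg c _ _).const_mul _
  refine ⟨fun s hs => ?_, ?_, ?_⟩
  · exact ((contDiffAt_circle h (hmem s hs)).comp s
      (contDiffAt_const.add contDiffAt_id)).contDiffWithinAt
  · rw [intervalIntegrable_iff_integrableOn_Ioo_of_le (by linarith)] at hi
    exact hi.congr_fun (fun s hs => (hd s hs).symm) measurableSet_Ioo
  · rw [setIntegral_congr_fun measurableSet_Ioo hd, ← integral_Ioc_eq_integral_Ioo,
      ← intervalIntegral.integral_of_le (by linarith), intervalIntegral.integral_const_mul,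
      intervalIntegral.integral_comp_add_left (fun s => dT u x r s ^ 2), tauArc,
      intervalIntegral.integral_const_mul, ← sub_eq_add_neg]
    ring

/-- A free interval of the circle lies in one component of `Kᶜ`. -/
theorem component_arc {I : Set ℝ} (hI : IsPreconnected I) (hfree : ∀ θ ∈ I, circleMap x r θ ∉ K)
    {θ θ' : ℝ} (h1 : θ ∈ I) (h2 : θ' ∈ I) :
    connectedComponentIn Kᶜ (circleMap x r θ) = connectedComponentIn Kᶜ (circleMap x r θ') :=
  connectedComponentIn_eq ((hI.image (circleMap x r) (continuous_circleMap x r).continuousOn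
    ).subset_connectedComponentIn (mem_image_of_mem _ h1) (show circleMap x r '' I ⊆ Kᶜ from image_subset_iff.2 hfree)
      (mem_image_of_mem _ h2))

theorem angles_of_partition {t : ℕ → ℝ} {m : ℕ} (hp : IsPartition K x r t m) : Angles t m :=
  ⟨hp.1, hp.2.1, fun i hi => (hp.2.2 i hi).1.1⟩

/-- One exponent in every sector. -/
theorem cone_partition (hR : RepAt K u) (hW : WirtingerSpec) (h : IsGM K u)
    (hg : GoodRadius K u x r) {t : ℕ → ℝ} {m : ℕ} (hp : IsPartition K x r t m) :
    dir K u x r + len K x r ≤ r * ((∑ i ∈ Finset.range m,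
      (t (i + 1) - t i) / π * tauArc u x r (t i) (t (i + 1))) + m) := by
  have A := angles_of_partition hp
  have hr := hg.pos
  have hh0 : ∀ i ∈ Finset.range m, 0 < half t i := fun i hi => by
    have := A.step i (Finset.mem_range.1 hi); rw [half]; linarith
  have hfree : ∀ i ∈ Finset.range m, ∀ θ ∈ Ioo (mid t i - half t i) (mid t i + half t i),
      circleMap x r θ ∉ K := by
    intro i hi θ hθ
    refine (hp.2.2 i (Finset.mem_range.1 hi)).1.2.2 θ ?_
    simp only [mid, half] at hθ
    constructor <;> linarith [hθ.1, hθ.2]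
  have hex : ∀ i, ∃ f : ℂ → ℝ, i ∈ Finset.range m →
      ContDiffOn ℝ 1 f (sector x r (mid t i) 0 (half t i)) ∧
      (∀ z ∈ sector x r (mid t i) 0 (half t i), z ∈ sphere x r → z ∉ K ∧ f z = u z) ∧
      ∫⁻ z in ball x r ∩ sector x r (mid t i) 0 (half t i), ENNReal.ofReal (gradSq f z) ≤
        ENNReal.ofReal (r * ((t (i + 1) - t i) / π * tauArc u x r (t i) (t (i + 1)))) := by
    intro i
    by_cases hi : i ∈ Finset.range m
    swap
    · exact ⟨0, fun hh => absurd hh hi⟩
    obtain ⟨hF, hI, hint⟩ := free_deriv h hg (hh0 i hi).le (hfree i hi)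
    obtain ⟨mm, hmm⟩ := exists_sector_bound (x := x) (c := mid t i) hW hr
      (show |(0 : ℝ)| < 1 by simp) (hh0 i hi) hF hI
    refine ⟨_, fun _ => ⟨contDiffOn_sectorFn hr.ne' hF mm, fun z hz hzs => ?_, hmm.trans (le_of_eq ?_)⟩⟩
    · have e := eq_circleMap_of_sphere (c := mid t i) hr hzs
      rw [sectorFn_eq_of_sphere hr (by simp) _ _ hzs, mob_zero]
      have ha := abs_lt.1 (mem_sector_iff.1 hz).2
      exact ⟨e ▸ hfree i hi _ ⟨by linarith [ha.1], by linarith [ha.2]⟩, congrArg u e.symm⟩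
    · rw [hint, show mid t i - half t i = t i by rw [mid, half]; ring,
        show mid t i + half t i = t (i + 1) by rw [mid, half]; ring, half]
      congr 1
      ring
  choose f hf using hex
  have hτ : ∀ i ∈ Finset.range m,
      0 ≤ r * ((t (i + 1) - t i) / π * tauArc u x r (t i) (t (i + 1))) := by
    intro i hi
    have h1 := (A.step i (Finset.mem_range.1 hi)).le
    have h2 : 0 ≤ tauArc u x r (t i) (t (i + 1)) :=
      intervalIntegral.integral_nonneg h1 fun _ _ => by positivity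
    have := sub_nonneg.2 h1
    positivity
  refine (glue_bound hR h hg.fin (Finset.range m) (fun i => sector x r (mid t i) 0 (half t i)) f
    (star x r t m) (ell := r * m)
    (E := ∑ i ∈ Finset.range m, r * ((t (i + 1) - t i) / π * tauArc u x r (t i) (t (i + 1))))
    (by positivity) (Finset.sum_nonneg hτ) isClosed_star (star_subset hr.le) (hausdorff_star hr.le)
    (fun _ _ => isOpen_sector) (fun i hi => (hf i hi).1)
    (fun i hi j hj hij => sector_disjoint hr A (Finset.mem_range.1 hi) (Finset.mem_range.1 hj) hij)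
    (fun z hz hzS => exists_sector hr A hz hzS)
    (fun i hi z hz hzs _ => (hf i hi).2.1 z hz hzs) ?_ ?_).trans (le_of_eq ?_)
  · intro i hi y hy z hz hys hzs _ _
    rw [eq_circleMap_of_sphere (c := mid t i) hr hys, eq_circleMap_of_sphere (c := mid t i) hr hzs]
    have ha := abs_lt.1 (mem_sector_iff.1 hy).2
    have hb := abs_lt.1 (mem_sector_iff.1 hz).2
    exact component_arc isPreconnected_Ioo (hfree i hi)
      ⟨by linarith [ha.1], by linarith [ha.2]⟩ ⟨by linarith [hb.1], by linarith [hb.2]⟩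
  · rw [ENNReal.ofReal_sum_of_nonneg hτ]
    exact Finset.sum_le_sum fun i hi => (hf i hi).2.2
  · rw [← Finset.mul_sum]; ring

/-- A cut off of width `ε` before `β`. -/
def cutoff (β ε θ : ℝ) : ℝ := max 0 (min 1 ((β - θ) / ε))

/-- One segment and a cap. -/
theorem cone_cap (hR : RepAt K u) (hW : WirtingerSpec) (h : IsGM K u)
    (hg : GoodRadius K u x r) {a b : ℝ} (hab : IsFreeArc K x r a b) :
    dir K u x r + len K x r ≤ 2 * r * tauArc u x r a b + r + r * (2 * π - (b - a)) := by
  obtain ⟨hlt, hle, hfree⟩ := hab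
  have hr := hg.pos
  refine le_of_forall_pos_le_add fun e he => ?_
  obtain ⟨ε, hε, hε1, hε2⟩ : ∃ ε > 0, 2 * ε < b - a ∧ r * (2 * ε) ≤ e := by
    refine ⟨min ((b - a) / 4) (e / (2 * r)), lt_min (by linarith) (by positivity), ?_, ?_⟩
    · linarith [min_le_left ((b - a) / 4) (e / (2 * r))]
    · calc r * (2 * min ((b - a) / 4) (e / (2 * r))) ≤ r * (2 * (e / (2 * r))) := by
            gcongr; exact min_le_right _ _
        _ = e := by field_simp
  set c := a + π with hc
  set β := b - ε with hβ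
  set s₀ := (a + (β - ε)) / 2 - c with hs₀
  set G : ℝ → ℝ := fun s => cutoff β ε (c + s) * (r * dT u x r (c + s)) with hG
  set F : ℝ → ℝ := fun s => u (circleMap x r (c + s₀)) + ∫ q in s₀..s, G q with hF
  have hs₀m : s₀ ∈ Ioo (-π) π := by
    simp only [hs₀, hc, hβ]; constructor <;> linarith
  have hGc : ContinuousOn G (Ioo (-π) π) := by
    intro s hs
    refine ContinuousAt.continuousWithinAt ?_
    by_cases hcase : c + s < b
    · have hp : circleMap x r (c + s) ∉ K :=
        hfree _ ⟨by rw [hc]; linarith [hs.1], hcase⟩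
      have hdT : ContinuousAt (fun q => dT u x r (c + q)) s := by
        unfold dT
        have h1 := (((h.contDiffOn 1).contDiffAt
          (h.isClosed.isOpen_compl.mem_nhds hp)).continuousAt_fderiv one_ne_zero)
        exact (h1.comp' (f := fun q => circleMap x r (c + q)) (by fun_prop)).clm_apply (by fun_prop)
      simp only [hG, cutoff]
      exact (Continuous.continuousAt (by fun_prop)).mul (continuousAt_const.mul hdT)
    · have hev : G =ᶠ[𝓝 s] fun _ => 0 := by
        filter_upwards [eventually_gt_nhds (show β - c < s by rw [hβ]; linarith)] with q hq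
        have : (β - (c + q)) / ε ≤ 0 := div_nonpos_of_nonpos_of_nonneg (by linarith) hε.le
        simp [hG, cutoff, this]
      exact continuousAt_const.congr hev.symm
  have hcut : ∀ θ, |cutoff β ε θ| ≤ 1 := fun θ => by
    rw [cutoff, abs_of_nonneg (le_max_left _ _)]; exact max_le zero_le_one (min_le_left _ _)
  have hG2 : ∀ s, G s ^ 2 ≤ r ^ 2 * dT u x r (c + s) ^ 2 := fun s => by
    have h1 : cutoff β ε (c + s) ^ 2 ≤ 1 := by
      rw [← sq_abs]; nlinarith [hcut (c + s), abs_nonneg (cutoff β ε (c + s))]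
    calc G s ^ 2 = cutoff β ε (c + s) ^ 2 * (r * dT u x r (c + s)) ^ 2 := mul_pow _ _ _
      _ ≤ 1 * (r * dT u x r (c + s)) ^ 2 := by gcongr
      _ = _ := by ring
  have hFd : ∀ s ∈ Ioo (-π) π, HasDerivAt F (G s) s := by
    intro s hs
    have hsub : uIcc s₀ s ⊆ Ioo (-π) π := ordConnected_Ioo.uIcc_subset hs₀m hs
    exact (intervalIntegral.integral_hasDerivAt_right ((hGc.mono hsub).intervalIntegrable)
      (hGc.stronglyMeasurableAtFilter isOpen_Ioo s hs)
      (hGc.continuousAt (isOpen_Ioo.mem_nhds hs))).const_add _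
  have hFC : ContDiffOn ℝ 1 F (Ioo (-π) π) := by
    rw [show (1 : WithTop ℕ∞) = 0 + 1 from (zero_add 1).symm,
      contDiffOn_succ_iff_deriv_of_isOpen isOpen_Ioo]
    refine ⟨fun s hs => (hFd s hs).differentiableAt.differentiableWithinAt, by simp, ?_⟩
    rw [contDiffOn_zero]
    exact hGc.congr fun s hs => (hFd s hs).deriv
  have hmaj : IntegrableOn (fun s => r ^ 2 * dT u x r (c + s) ^ 2) (Ioo (-π) π) := by
    have hi : IntervalIntegrable (fun s => r ^ 2 * dT u x r (c + s) ^ 2) volume (-π) π :=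
      (intervalIntegrable_shift hg c _ _).const_mul _
    rwa [intervalIntegrable_iff_integrableOn_Ioo_of_le (by linarith [Real.pi_pos])] at hi
  have hI : IntegrableOn (fun s => deriv F s ^ 2) (Ioo (-π) π) := by
    refine hmaj.mono' ((measurable_deriv F).pow_const 2).aestronglyMeasurable ?_
    filter_upwards [ae_restrict_mem measurableSet_Ioo] with s hs
    rw [Real.norm_eq_abs, abs_of_nonneg (sq_nonneg _), (hFd s hs).deriv]
    exact hG2 s
  have hint : ∫ s in Ioo (-π) π, deriv F s ^ 2 ≤ r * tauArc u x r a b := by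
    have hsub : Ioo (-π) (b - c) ⊆ Ioo (-π) π := Ioo_subset_Ioo_right (by rw [hc]; linarith)
    rw [setIntegral_eq_of_subset_of_forall_sdiff_eq_zero measurableSet_Ioo hsub fun s hs => ?_]
    · have e1 : ∫ s in Ioo (-π) (b - c), r ^ 2 * dT u x r (c + s) ^ 2 = r * tauArc u x r a b := by
        rw [← integral_Ioc_eq_integral_Ioo, ← intervalIntegral.integral_of_le
          (by rw [hc]; linarith), intervalIntegral.integral_const_mul,
          intervalIntegral.integral_comp_add_left (fun s => dT u x r s ^ 2), tauArc,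
          intervalIntegral.integral_const_mul, show c + -π = a by rw [hc]; ring,
          show c + (b - c) = b by ring]
        ring
      refine (setIntegral_mono_on (hI.mono_set hsub) (hmaj.mono_set hsub) measurableSet_Ioo
        fun s hs => ?_).trans e1.le
      rw [(hFd s (hsub hs)).deriv]
      exact hG2 s
    · have hs' : b - c ≤ s := not_lt.1 fun hh => hs.2 ⟨hs.1.1, hh⟩
      have : (β - (c + s)) / ε ≤ 0 :=
        div_nonpos_of_nonpos_of_nonneg (by rw [hβ]; linarith) hε.le
      simp [(hFd s hs.1).deriv, hG, cutoff, this]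
  have heqF : ∀ s ∈ Ioo (-π) π, c + s < β - ε → F s = u (circleMap x r (c + s)) := by
    intro s hs hsb
    have hsub : uIcc s₀ s ⊆ Ioo (-π) π := ordConnected_Ioo.uIcc_subset hs₀m hs
    have hle' : ∀ q ∈ uIcc s₀ s, c + q ≤ β - ε := by
      intro q hq
      rcases le_total s₀ s with hh | hh
      · rw [uIcc_of_le hh] at hq; linarith [hq.2]
      · rw [uIcc_of_ge hh] at hq
        have : c + s₀ ≤ β - ε := by rw [hs₀, hβ]; linarith
        linarith [hq.2]
    have hd : ∀ q ∈ uIcc s₀ s, HasDerivAt (fun q => u (circleMap x r (c + q))) (G q) q := by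
      intro q hq
      have hp : circleMap x r (c + q) ∉ K :=
        hfree _ ⟨by rw [hc]; linarith [(hsub hq).1], by linarith [hle' q hq, hβ]⟩
      refine ((hasDerivAt_circle h hp).comp_const_add c q).congr_deriv ?_
      have h1 : 1 ≤ (β - (c + q)) / ε := by rw [le_div_iff₀ hε]; linarith [hle' q hq]
      simp [hG, cutoff, h1]
    simp only [hF]
    rw [intervalIntegral.integral_eq_sub_of_hasDerivAt hd ((hGc.mono hsub).intervalIntegrable)]
    ring
  obtain ⟨mm, hmm⟩ := exists_sector_bound (x := x) (c := c) hW hr (show |(0 : ℝ)| < 1 by simp)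
    Real.pi_pos hFC hI
  set t : ℕ → ℝ := fun i => a + i * (2 * π) with ht
  have A : Angles t 1 := ⟨one_pos, by simp [ht], fun i hi => by
    simp [ht, Nat.lt_one_iff.1 hi, Real.pi_pos]⟩
  have hmid : mid t 0 = c := by simp [mid, ht, hc]; ring
  have hhalf : half t 0 = π := by simp [half, ht]
  have hα : 0 ≤ a + 2 * π - (β - ε) := by rw [hβ]; linarith
  have hτ : 0 ≤ tauArc u x r a b :=
    intervalIntegral.integral_nonneg hlt.le fun _ _ => by positivity
  have hbound := glue_bound hR h hg.fin ({0} : Finset ℕ) (fun _ => sector x r c 0 π)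
    (fun _ => sectorFn x r c 0 π F mm) (star x r t 1 ∪ circleMap x r '' Icc (β - ε) (a + 2 * π))
    (ell := r + r * (a + 2 * π - (β - ε))) (E := 2 * r * tauArc u x r a b)
    (by positivity) (by positivity)
    (isClosed_star.union ((isCompact_Icc.image (continuous_circleMap x r)).isClosed))
    (union_subset (star_subset hr.le)
      (image_subset_iff.2 fun θ _ => sphere_subset_closedBall (circleMap_mem_sphere x hr.le θ)))
    ?_ (fun _ _ => isOpen_sector) (fun _ _ => contDiffOn_sectorFn hr.ne' hFC mm)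
    (fun i hi j hj hij => absurd
      ((Finset.mem_singleton.1 hi).trans (Finset.mem_singleton.1 hj).symm) hij) ?_ ?_ ?_ ?_
  · refine hbound.trans ?_
    rw [hβ]
    nlinarith [hε2]
  · refine (measure_union_le _ _).trans ?_
    rw [ENNReal.ofReal_add hr.le (by positivity)]
    refine add_le_add ((hausdorff_star hr.le).trans (by simp)) ?_
    refine ((lipschitzWith_circleMap x r).hausdorffMeasure_image_le (zero_le_one' ℝ) _).trans ?_
    rw [hausdorffMeasure_real, Real.volume_Icc, ENNReal.rpow_one, ENNReal.ofReal_mul hr.le]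
    simp [Real.nnabs_of_nonneg hr.le, ENNReal.ofReal]
  · intro z hz hzS
    obtain ⟨i, hi, hzi⟩ := exists_sector hr A hz fun hh => hzS (Or.inl hh)
    rw [Finset.mem_range, Nat.lt_one_iff] at hi
    subst hi
    rw [hmid, hhalf] at hzi
    exact ⟨0, Finset.mem_singleton_self 0, hzi⟩
  · intro i _ z hz hzs hzS
    have e' := eq_circleMap_of_sphere (c := c) hr hzs
    rw [sectorFn_eq_of_sphere hr (by simp) _ _ hzs, mob_zero]
    have ha := abs_lt.1 (mem_sector_iff.1 hz).2
    have hlt' : c + (nrm x r c z).arg < β - ε := by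
      by_contra hh
      refine hzS (Or.inr ⟨c + (nrm x r c z).arg, ⟨not_lt.1 hh, ?_⟩, e'.symm⟩)
      rw [hc]; linarith [ha.2]
    refine ⟨e' ▸ hfree _ ⟨by rw [hc]; linarith [ha.1], by linarith [hβ]⟩, ?_⟩
    rw [heqF _ ⟨ha.1, ha.2⟩ hlt', ← e']
  · intro i _ y hy z hz hys hzs hyS hzS
    have key : ∀ q ∈ sector x r c 0 π, q ∈ sphere x r →
        q ∉ star x r t 1 ∪ circleMap x r '' Icc (β - ε) (a + 2 * π) →
        c + (nrm x r c q).arg ∈ Ioo a b := by
      intro q hq hqs hqS
      have ha := abs_lt.1 (mem_sector_iff.1 hq).2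
      refine ⟨by rw [hc]; linarith [ha.1], ?_⟩
      by_contra hh
      refine hqS (Or.inr ⟨c + (nrm x r c q).arg, ⟨?_, ?_⟩, (eq_circleMap_of_sphere hr hqs).symm⟩)
      · rw [hβ]; linarith [not_lt.1 hh]
      · rw [hc]; linarith [ha.2]
    rw [eq_circleMap_of_sphere (c := c) hr hys, eq_circleMap_of_sphere (c := c) hr hzs]
    exact component_arc isPreconnected_Ioo hfree (key y hy hys hyS) (key z hz hzs hzS)
  · rw [Finset.sum_singleton]
    refine hmm.trans (ENNReal.ofReal_le_ofReal ?_)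
    rw [mul_div_cancel_right₀ _ Real.pi_ne_zero]
    linarith

/-- The angle map of the disc automorphism. -/
def ang (δ θ : ℝ) : ℝ := (mob δ (Complex.exp (θ * Complex.I))).arg

section Ang

variable {δ : ℝ}

theorem norm_exp_I (θ : ℝ) : ‖Complex.exp (θ * Complex.I)‖ = 1 :=
  Complex.norm_exp_ofReal_mul_I θ

theorem mob_exp_mem_slit (hδ : |δ| < 1) {θ : ℝ} (hθ : θ ∈ Ioo (-π) π) :
    mob δ (Complex.exp (θ * Complex.I)) ∈ Complex.slitPlane := by
  set w := Complex.exp (θ * Complex.I) with hw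
  have hd := den_ne_of_le_one hδ (norm_exp_I θ).le
  have hn := norm_mob_eq_one hδ (norm_exp_I θ)
  rw [Complex.mem_slitPlane_iff]
  by_contra hh
  obtain ⟨h1, h2⟩ := not_or.1 hh
  push Not at h1 h2
  have him : (mob δ w).im = 0 := h2
  have hre : (mob δ w).re = -1 := by
    have := Complex.sq_norm (mob δ w)
    rw [hn, Complex.normSq_apply, him] at this
    nlinarith
  have e : mob δ w = -1 := Complex.ext (by simpa using hre) (by simpa using him)
  have hδ1 : (1 : ℂ) - δ ≠ 0 := by
    have : (1 : ℝ) - δ ≠ 0 := by linarith [(abs_lt.1 hδ).2]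
    exact_mod_cast this
  have hwe : w = -1 := by
    rw [mob, div_eq_iff hd] at e
    refine mul_left_cancel₀ hδ1 ?_
    linear_combination e
  have := arg_exp_I (t := θ) ⟨hθ.1, hθ.2.le⟩
  rw [← hw, hwe, Complex.arg_neg_one] at this
  exact hθ.2.ne this.symm

theorem ang_mem (hδ : |δ| < 1) {θ : ℝ} (hθ : θ ∈ Ioo (-π) π) : ang δ θ ∈ Ioo (-π) π :=
  ⟨Complex.neg_pi_lt_arg _, (Complex.arg_le_pi _).lt_of_ne
    (Complex.slitPlane_arg_ne_pi (mob_exp_mem_slit hδ hθ))⟩

theorem exp_ang (hδ : |δ| < 1) (θ : ℝ) :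
    Complex.exp (ang δ θ * Complex.I) = mob δ (Complex.exp (θ * Complex.I)) := by
  have := Complex.norm_mul_exp_arg_mul_I (mob δ (Complex.exp (θ * Complex.I)))
  rw [norm_mob_eq_one hδ (norm_exp_I θ), Complex.ofReal_one, one_mul] at this
  exact this

theorem mob_neg_mob (hδ : |δ| < 1) {w : ℂ} (hw : 1 - (δ : ℂ) * w ≠ 0) :
    mob (-δ) (mob δ w) = w := by
  have h2 : (1 : ℂ) - (δ : ℂ) ^ 2 ≠ 0 := by
    have : (1 : ℝ) - δ ^ 2 ≠ 0 := by nlinarith [(sq_lt_one_iff_abs_lt_one δ).2 hδ]
    exact_mod_cast this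
  simp only [mob, Complex.ofReal_neg, neg_mul, sub_neg_eq_add]
  rw [div_add' _ _ _ hw, mul_div_assoc', one_add_div hw, div_div_div_cancel_right₀ hw,
    div_eq_iff ?_]
  · ring
  · rw [show (1 : ℂ) - δ * w + δ * (w - δ) = 1 - (δ : ℂ) ^ 2 by ring]; exact h2

theorem ang_neg_ang (hδ : |δ| < 1) {θ : ℝ} (hθ : θ ∈ Ioo (-π) π) : ang (-δ) (ang δ θ) = θ := by
  rw [ang, exp_ang hδ θ, mob_neg_mob hδ (den_ne_of_le_one hδ (norm_exp_I θ).le),
    arg_exp_I ⟨hθ.1, hθ.2.le⟩]

theorem hasDerivAt_ang (hδ : |δ| < 1) {θ : ℝ} (hθ : θ ∈ Ioo (-π) π) :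
    HasDerivAt (ang δ) ((1 - δ ^ 2) / (1 - 2 * δ * Real.cos θ + δ ^ 2)) θ := by
  set w := Complex.exp (θ * Complex.I) with hw
  have hd := den_ne_of_le_one hδ (norm_exp_I θ).le
  have h1 : HasDerivAt (fun q : ℝ => Complex.exp (q * Complex.I)) (w * Complex.I) θ := by
    simpa using ((hasDerivAt_id θ).ofReal_comp.mul_const Complex.I).cexp
  have h3 := (HasDerivAt.comp θ (hasDerivAt_mob hd) h1).clog_real (mob_exp_mem_slit hδ hθ)
  have h4 := Complex.imCLM.hasFDerivAt.comp_hasDerivAt θ h3
  have hfun : ang δ = fun q : ℝ => Complex.imCLM (Complex.log (mob δ (Complex.exp (q * Complex.I)))) := by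
    funext q; simp [ang, Complex.log_im]
  rw [hfun]
  refine h4.congr_deriv ?_
  have hwd : w - (δ : ℂ) ≠ 0 := by
    intro e
    have := norm_exp_I θ
    rw [← hw, sub_eq_zero.1 e, Complex.norm_real, Real.norm_eq_abs] at this
    linarith
  have hconj : w * ((Real.cos θ : ℝ) * 2 : ℂ) = w ^ 2 + 1 := by
    rw [hw, Complex.exp_mul_I, Complex.ofReal_cos]
    linear_combination -(Complex.sin (θ : ℂ) ^ 2) * Complex.I_sq +
      Complex.cos_sq_add_sin_sq (θ : ℂ)
  have hne : (1 : ℝ) - 2 * δ * Real.cos θ + δ ^ 2 ≠ 0 := by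
    have h5 : 2 * δ * Real.cos θ ≤ 2 * |δ| := by
      have := abs_mul (2 * δ) (Real.cos θ)
      have h6 := le_abs_self (2 * δ * Real.cos θ)
      rw [this, abs_mul, abs_two] at h6
      nlinarith [Real.abs_cos_le_one θ, abs_nonneg δ, abs_nonneg (Real.cos θ)]
    nlinarith [sq_abs δ, abs_nonneg δ, sq_nonneg (1 - |δ|)]
  rw [Complex.imCLM_apply, Function.comp_apply, mob]
  have hne' : ((1 - 2 * δ * Real.cos θ + δ ^ 2 : ℝ) : ℂ) ≠ 0 := Complex.ofReal_ne_zero.2 hne
  have key : ((1 - δ ^ 2 : ℝ) : ℂ) / (1 - (δ : ℂ) * w) ^ 2 * (w * Complex.I) /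
      ((w - δ) / (1 - δ * w)) =
      ((1 - δ ^ 2) / (1 - 2 * δ * Real.cos θ + δ ^ 2) : ℝ) * Complex.I := by
    have hDE : (1 - (δ : ℂ) * w) * (w - δ) =
        w * ((1 - 2 * δ * Real.cos θ + δ ^ 2 : ℝ) : ℂ) := by
      push_cast
      push_cast at hconj
      linear_combination (δ : ℂ) * hconj
    rw [Complex.ofReal_div, div_mul_eq_mul_div, div_mul_eq_mul_div, div_div_div_eq,
      div_eq_div_iff (mul_ne_zero (pow_ne_zero _ hd) hwd) hne']
    linear_combination -(((1 - δ ^ 2 : ℝ) : ℂ) * Complex.I * (1 - (δ : ℂ) * w)) * hDE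
  rw [hw] at key
  rw [key]
  simp only [Complex.mul_im, Complex.ofReal_re, Complex.ofReal_im, Complex.I_re, Complex.I_im]
  ring

end Ang

/-- Shifted tip. -/
theorem tip_shift (hR : RepAt K u) (hW : WirtingerSpec) (h : IsGM K u)
    (hg : GoodRadius K u x r) {t : ℕ → ℝ} (hp : IsPartition K x r t 1) {δ : ℝ} (hδ : |δ| < 1) :
    dir K u x r + len K x r ≤ r * (1 + δ) +
      2 * r * ∫ θ in (t 0)..(t 0 + 2 * π), r * dT u x r θ ^ 2 *
          ((1 - 2 * δ * Real.cos (θ - (t 0 + π)) + δ ^ 2) / (1 - δ ^ 2)) := by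
  have hr := hg.pos
  set c := t 0 + π with hc
  have hπ := Real.pi_pos
  have hfree : ∀ θ ∈ Ioo (t 0) (t 0 + 2 * π), circleMap x r θ ∉ K := by
    intro θ hθ
    refine (hp.2.2 0 one_pos).1.2.2 θ ?_
    rw [zero_add, hp.2.1]; exact hθ
  have hg0 : ∀ s ∈ Ioo (-π) π, circleMap x r (c + s) ∉ K := fun s hs =>
    hfree _ ⟨by rw [hc]; linarith [hs.1], by rw [hc]; linarith [hs.2]⟩
  set g : ℝ → ℝ := fun s => u (circleMap x r (c + s)) with hgdef
  set F : ℝ → ℝ := g ∘ ang (-δ) with hF
  have hδ' : |-δ| < 1 := by rwa [abs_neg]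
  have hd2 : (0 : ℝ) < 1 - δ ^ 2 := by nlinarith [(sq_lt_one_iff_abs_lt_one δ).2 hδ]
  have hden : ∀ θ : ℝ, 0 < 1 - 2 * δ * Real.cos θ + δ ^ 2 := by
    intro θ
    rcases le_or_gt 0 δ with hs | hs
    · nlinarith [Real.cos_le_one θ, (abs_lt.1 hδ).2]
    · nlinarith [Real.neg_one_le_cos θ, (abs_lt.1 hδ).1]
  have hgd : ∀ s ∈ Ioo (-π) π, HasDerivAt g (r * dT u x r (c + s)) s := fun s hs =>
    (hasDerivAt_circle h (hg0 s hs)).comp_const_add c s
  have hangC : ContDiffOn ℝ 1 (ang (-δ)) (Ioo (-π) π) := by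
    intro s hs
    refine ContDiffAt.contDiffWithinAt ?_
    have han : AnalyticAt ℂ (fun q : ℂ => Complex.log (mob (-δ) (Complex.exp (q * Complex.I)))) s := by
      have hd := den_ne_of_le_one hδ' (norm_exp_I s).le
      refine AnalyticAt.clog ?_ (mob_exp_mem_slit hδ' hs)
      unfold mob
      exact ((by fun_prop : AnalyticAt ℂ
        (fun q : ℂ => Complex.exp (q * Complex.I) - ((-δ : ℝ) : ℂ)) s)).div (by fun_prop) hd
    have := Complex.imCLM.contDiff.contDiffAt.comp s
      ((han.contDiffAt.restrict_scalars ℝ).comp s Complex.ofRealCLM.contDiff.contDiffAt (n := 1))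
    unfold ang
    simpa [Function.comp_def, Complex.log_im] using this
  have hFC : ContDiffOn ℝ 1 F (Ioo (-π) π) := by
    have hgC : ContDiffOn ℝ 1 g (Ioo (-π) π) := fun s hs =>
      ((contDiffAt_circle h (hg0 s hs)).comp s
        (contDiffAt_const.add contDiffAt_id)).contDiffWithinAt
    exact hgC.comp hangC fun s hs => ang_mem hδ' hs
  have himg : ang δ '' Ioo (-π) π = Ioo (-π) π := by
    refine Subset.antisymm (image_subset_iff.2 fun θ hθ => ang_mem hδ hθ) fun s hs => ?_
    exact ⟨ang (-δ) s, ang_mem hδ' hs, by simpa using ang_neg_ang hδ' hs⟩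
  have hinj : InjOn (ang δ) (Ioo (-π) π) := fun a ha b hb e => by
    rw [← ang_neg_ang hδ ha, e, ang_neg_ang hδ hb]
  set wgt : ℝ → ℝ := fun θ => (1 - 2 * δ * Real.cos θ + δ ^ 2) / (1 - δ ^ 2) with hwgt
  have hkey : ∀ θ ∈ Ioo (-π) π,
      |(1 - δ ^ 2) / (1 - 2 * δ * Real.cos θ + δ ^ 2)| • (fun s => deriv F s ^ 2) (ang δ θ)
        = r ^ 2 * dT u x r (c + θ) ^ 2 * wgt θ := by
    intro θ hθ
    have h1 : HasDerivAt (F ∘ ang δ)
        (deriv F (ang δ θ) * ((1 - δ ^ 2) / (1 - 2 * δ * Real.cos θ + δ ^ 2))) θ :=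
      ((hFC.contDiffAt (isOpen_Ioo.mem_nhds (ang_mem hδ hθ))).differentiableAt
        one_ne_zero).hasDerivAt.comp θ (hasDerivAt_ang hδ hθ)
    have h2 : F ∘ ang δ =ᶠ[𝓝 θ] g := by
      filter_upwards [isOpen_Ioo.mem_nhds hθ] with q hq
      simp [hF, ang_neg_ang hδ hq]
    have h3 := (h1.congr_of_eventuallyEq h2.symm).unique (hgd θ hθ)
    have hD : deriv F (ang δ θ) =
        r * dT u x r (c + θ) * ((1 - 2 * δ * Real.cos θ + δ ^ 2) / (1 - δ ^ 2)) := by
      rw [← h3, mul_assoc, div_mul_div_cancel₀ (hden θ).ne', div_self hd2.ne', mul_one]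
    rw [smul_eq_mul, abs_of_pos (div_pos hd2 (hden θ))]
    simp only [hD, hwgt]
    have := hden θ
    field_simp
  have hwi : IntervalIntegrable (fun θ => r ^ 2 * dT u x r (c + θ) ^ 2 * wgt θ) volume (-π) π :=
    ((intervalIntegrable_shift hg c _ _).const_mul _).mul_continuousOn
      (by simp only [hwgt]; fun_prop)
  have hI : IntegrableOn (fun s => deriv F s ^ 2) (Ioo (-π) π) := by
    rw [← himg, integrableOn_image_iff_integrableOn_abs_deriv_smul measurableSet_Ioo
      (fun θ hθ => (hasDerivAt_ang hδ hθ).hasDerivWithinAt) hinj]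
    rw [intervalIntegrable_iff_integrableOn_Ioo_of_le (by linarith)] at hwi
    exact hwi.congr_fun (fun θ hθ => (hkey θ hθ).symm) measurableSet_Ioo
  have hint : ∫ s in Ioo (-π) π, deriv F s ^ 2 = r * ∫ θ in (t 0)..(t 0 + 2 * π),
      r * dT u x r θ ^ 2 * ((1 - 2 * δ * Real.cos (θ - c) + δ ^ 2) / (1 - δ ^ 2)) := by
    conv_lhs => rw [← himg]
    rw [integral_image_eq_integral_abs_deriv_smul measurableSet_Ioo
      (fun θ hθ => (hasDerivAt_ang hδ hθ).hasDerivWithinAt) hinj,
      setIntegral_congr_fun measurableSet_Ioo hkey, ← integral_Ioc_eq_integral_Ioo,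
      ← intervalIntegral.integral_of_le (by linarith), ← intervalIntegral.integral_const_mul,
      show t 0 = c + -π by rw [hc]; ring, show c + -π + 2 * π = c + π by ring,
      ← intervalIntegral.integral_comp_add_left]
    refine intervalIntegral.integral_congr fun θ _ => ?_
    simp only [hwgt, add_sub_cancel_left]
    ring
  obtain ⟨mm, hmm⟩ := exists_sector_bound (x := x) (c := c) hW hr hδ Real.pi_pos hFC hI
  set e₀ : ℂ := (r : ℂ) * Complex.exp (c * Complex.I) with he₀
  have he₀n : ‖e₀‖ = r := by rw [he₀, norm_mul, norm_exp_I, mul_one]; simp [abs_of_pos hr]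
  set Sg := segment ℝ (x - e₀) (x + (δ : ℂ) * e₀) with hSg
  have hE : 0 ≤ 2 * ∫ s in Ioo (-π) π, deriv F s ^ 2 :=
    mul_nonneg zero_le_two (setIntegral_nonneg measurableSet_Ioo fun _ _ => sq_nonneg _)
  have hbound := glue_bound hR h hg.fin ({0} : Finset ℕ) (fun _ => sector x r c δ π)
    (fun _ => sectorFn x r c δ π F mm) Sg (ell := r * (1 + δ))
    (E := 2 * ∫ s in Ioo (-π) π, deriv F s ^ 2)
    (mul_nonneg hr.le (by linarith [(abs_lt.1 hδ).1])) hE
    ?_ ?_ ?_ (fun _ _ => isOpen_sector) (fun _ _ => contDiffOn_sectorFn hr.ne' hFC mm)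
    (fun i hi j hj hij => absurd
      ((Finset.mem_singleton.1 hi).trans (Finset.mem_singleton.1 hj).symm) hij) ?_ ?_ ?_ ?_
  · refine hbound.trans (le_of_eq ?_)
    rw [hint]; ring
  · rw [hSg, segment_eq_image_lineMap]
    exact (isCompact_Icc.image AffineMap.lineMap_continuous).isClosed
  · refine (convex_closedBall x r).segment_subset ?_ ?_
    · rw [mem_closedBall_iff_norm]; simp [he₀n]
    · rw [mem_closedBall_iff_norm]
      simp only [add_sub_cancel_left, norm_mul, he₀n, Complex.norm_real, Real.norm_eq_abs]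
      exact mul_le_of_le_one_left hr.le hδ.le
  · rw [hSg, hausdorffMeasure_segment, edist_dist, dist_eq_norm,
      show x - e₀ - (x + (δ : ℂ) * e₀) = -(((1 + δ : ℝ) : ℂ) * e₀) by push_cast; ring, norm_neg,
      norm_mul, he₀n, Complex.norm_real, Real.norm_eq_abs,
      abs_of_nonneg (show (0 : ℝ) ≤ 1 + δ by linarith [(abs_lt.1 hδ).1]), mul_comm]
  · intro z hz hzS
    refine ⟨0, Finset.mem_singleton_self 0, ?_⟩
    set w := nrm x r c z with hw
    have hwn : ‖w‖ ≤ 1 := by
      rw [hw, norm_nrm hr, div_le_one hr]; exact mem_closedBall_iff_norm.1 hz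
    have hd := den_ne_of_le_one hδ hwn
    have hslit : mob δ w ∈ Complex.slitPlane := by
      rw [Complex.mem_slitPlane_iff, im_mob]
      by_contra hh
      obtain ⟨h1, h2⟩ := not_or.1 hh
      push Not at h1 h2
      have hn2 : ‖1 - (δ : ℂ) * w‖ ^ 2 ≠ 0 := pow_ne_zero _ (norm_ne_zero_iff.2 hd)
      have him : w.im = 0 := by
        rcases mul_eq_zero.1 ((div_eq_zero_iff.1 h2).resolve_right hn2) with hh' | hh'
        · exact hh'
        · exact absurd hh' hd2.ne'
      have hwre : w = (w.re : ℂ) := Complex.ext rfl (by simpa using him)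
      have hab := (Complex.abs_re_le_norm w).trans hwn
      have hpos : 0 < 1 - δ * w.re := by
        have := abs_mul δ w.re
        nlinarith [le_abs_self (δ * w.re), abs_nonneg δ, abs_nonneg w.re]
      have hle' : w.re ≤ δ := by
        by_contra hgt
        rw [hwre] at h1
        have hmre : (mob δ (w.re : ℂ)).re = (w.re - δ) / (1 - δ * w.re) := by
          simp only [mob]; norm_cast
        rw [hmre] at h1
        exact absurd h1 (not_le.2 (div_pos (by linarith [not_le.1 hgt]) hpos))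
      refine hzS ?_
      have hδ1 : 0 < 1 + δ := by linarith [(abs_lt.1 hδ).1]
      rw [hSg, segment_eq_image_lineMap]
      refine ⟨(w.re + 1) / (1 + δ), ⟨div_nonneg (by linarith [(abs_le.1 hab).1]) hδ1.le,
        (div_le_one hδ1).2 (by linarith)⟩, ?_⟩
      conv_rhs => rw [eq_add_nrm (x := x) (c := c) hr.ne' z, ← hw, hwre, ← he₀]
      rw [AffineMap.lineMap_apply_module', Complex.real_smul]
      have : ((1 + δ : ℝ) : ℂ) ≠ 0 := Complex.ofReal_ne_zero.2 hδ1.ne'
      push_cast at this ⊢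
      field_simp
      ring
    exact ⟨hd, hslit, abs_lt.2 ⟨Complex.neg_pi_lt_arg _,
      (Complex.arg_le_pi _).lt_of_ne (Complex.slitPlane_arg_ne_pi hslit)⟩⟩
  · intro i _ z hz hzs _
    set w := nrm x r c z with hw
    have hwn : ‖w‖ = 1 := by
      rw [hw, norm_nrm hr, mem_sphere_iff_norm.1 hzs, div_self hr.ne']
    have hsm : (mob δ w).arg ∈ Ioo (-π) π := abs_lt.1 hz.2.2
    have hwexp : Complex.exp (w.arg * Complex.I) = w := by
      have := Complex.norm_mul_exp_arg_mul_I w
      rwa [hwn, Complex.ofReal_one, one_mul] at this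
    have hq : ang (-δ) (mob δ w).arg = w.arg := by
      have hn := norm_mob_eq_one hδ hwn
      have h5 : Complex.exp ((mob δ w).arg * Complex.I) = mob δ w := by
        have := Complex.norm_mul_exp_arg_mul_I (mob δ w)
        rwa [hn, Complex.ofReal_one, one_mul] at this
      rw [ang, h5, mob_neg_mob hδ hz.1]
    have hwm : w.arg ∈ Ioo (-π) π := hq ▸ ang_mem hδ' hsm
    have e := eq_circleMap_of_sphere (c := c) hr hzs
    rw [← hw] at e
    rw [sectorFn_eq_of_sphere hr hδ _ _ hzs, ← hw]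
    exact ⟨e ▸ hg0 _ hwm, by simp only [hF, hgdef, Function.comp_apply, hq]; rw [← e]⟩
  · intro i _ y hy z hz hys hzs _ _
    have key : ∀ q ∈ sector x r c δ π, q ∈ sphere x r → (nrm x r c q).arg ∈ Ioo (-π) π := by
      intro q hq hqs
      have hwn : ‖nrm x r c q‖ = 1 := by
        rw [norm_nrm hr, mem_sphere_iff_norm.1 hqs, div_self hr.ne']
      have hn := norm_mob_eq_one hδ hwn
      have h5 : Complex.exp ((mob δ (nrm x r c q)).arg * Complex.I) = mob δ (nrm x r c q) := by
        have := Complex.norm_mul_exp_arg_mul_I (mob δ (nrm x r c q))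
        rwa [hn, Complex.ofReal_one, one_mul] at this
      have he : ang (-δ) (mob δ (nrm x r c q)).arg = (nrm x r c q).arg := by
        rw [ang, h5, mob_neg_mob hδ hq.1]
      exact he ▸ ang_mem hδ' (abs_lt.1 hq.2.2)
    rw [eq_circleMap_of_sphere (c := c) hr hys, eq_circleMap_of_sphere (c := c) hr hzs]
    exact component_arc (x := x) (r := r) (isPreconnected_Ioo (a := c - π) (b := c + π))
      (fun θ hθ => by
        have := hg0 (θ - c) ⟨by linarith [hθ.1], by linarith [hθ.2]⟩
        rwa [add_sub_cancel] at this)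
      ⟨by linarith [(key y hy hys).1], by linarith [(key y hy hys).2]⟩
      ⟨by linarith [(key z hz hzs).1], by linarith [(key z hz hzs).2]⟩
  · rw [Finset.sum_singleton]
    refine hmm.trans (ENNReal.ofReal_le_ofReal ?_)
    rw [mul_div_cancel_right₀ _ Real.pi_ne_zero]

end Vale.Agent.P128.Cone

namespace Vale.Agent.P128

theorem genCone (hReplace : GenReplaceSpec) (hWirtinger : WirtingerSpec) : GenConeSpec :=
  fun _ _ h _ _ hg =>
    ⟨fun _ _ hab => Cone.cone_cap (Cone.repAt_of_genReplace hReplace h) hWirtinger h hg hab,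
      fun _ _ hp => Cone.cone_partition (Cone.repAt_of_genReplace hReplace h) hWirtinger h hg hp⟩

theorem genTipShift (hReplace : GenReplaceSpec) (hWirtinger : WirtingerSpec) : GenTipShiftSpec :=
  fun _ _ h _ _ hg _ hp _ hδ =>
    Cone.tip_shift (Cone.repAt_of_genReplace hReplace h) hWirtinger h hg hp hδ

theorem cone (hReplace : ReplaceSpec) (hWirtinger : WirtingerSpec) : ConeSpec :=
  genCone hReplace hWirtinger

theorem tipShift (hReplace : ReplaceSpec) (hWirtinger : WirtingerSpec) : TipShiftSpec :=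
  genTipShift hReplace hWirtinger

end Vale.Agent.P128
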