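import Vale.Agent.P128.Ends.Density
import Vale.Agent.P128.Ends.Tubes

/-!
# P128, piece M: ends with `y → 0`

The length density is two or three and most circles carry a nearly regular star.  Near infinity the
crack splits into tubes each of which meets every circle; near the centre two of the tubes give two
branches.
-/

open MeasureTheory Set Metric Filter
open scoped ENNReal Topology Real

noncomputable section

namespace Vale.Agent.P128

namespace Ends

variable {K : Set ℂ} {u : ℂ → ℝ} {x : ℂ} {n : ℕ} {l : Filter ℝ}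

/-- Good radii lie in every short window. -/
theorem eventually_window (hP : PartitionSpec) (hl : IsEnd l) (hn : n = 2 ∨ n = 3)
    (hlen : Tendsto (fun r => len K x r / r) l (𝓝 (n : ℝ)))
    (hreg : ∀ ε > 0, Most l (fun r => GoodRadius K u x r ∧ cnt K x r = (n : ℕ∞) ∧
      tauC u x r ≤ ε ∧ ∀ t m, IsPartition K x r t m → IsRegularStar ε t m)) :
    ∀ᶠ R in l, ∃ r, R ≤ r ∧ r ≤ (1 + 1 / 1000) * R ∧ Nice K x n r := by
  have hev : ∀ᶠ r in l, 0 < r ∧ len K x r ≤ ((n : ℝ) + 1 / 1000) * r ∧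
      ((n : ℝ) - 1 / 1000) * r ≤ len K x r := by
    filter_upwards [hl.eventually_pos, hlen.eventually (Ioo_mem_nhds
      (show (n : ℝ) - 1 / 1000 < n by linarith) (show (n : ℝ) < n + 1 / 1000 by linarith))]
      with r h0 hr
    exact ⟨h0, (div_le_iff₀ h0).1 hr.2.le, (le_div_iff₀ h0).1 hr.1.le⟩
  filter_upwards [(((hreg (1 / 1000) (by norm_num)).and_of (Most.of_eventually hl hev)
    hl.eventually_pos)).exists_window hl (show (0 : ℝ) < 1 / 1000 by norm_num)] with R hR
  obtain ⟨r, h1, h2, ⟨hg, hc, -, hst⟩, -, hu, hd⟩ := hR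
  exact ⟨r, h1, h2, nice_of_regular hP hn hg hc hst hu hd⟩

/-- Near infinity every circle is met at least `n` times. -/
theorem eventually_le_cnt (hP : PartitionSpec) (h : IsGM K u) (hC : CompStructure K) (hx : x ∈ K)
    (hn : n = 2 ∨ n = 3) (hlen : Tendsto (fun r => len K x r / r) atTop (𝓝 (n : ℝ)))
    (hreg : ∀ ε > 0, Most atTop (fun r => GoodRadius K u x r ∧ cnt K x r = (n : ℕ∞) ∧
      tauC u x r ≤ ε ∧ ∀ t m, IsPartition K x r t m → IsRegularStar ε t m)) :
    ∀ᶠ r in atTop, (n : ℕ∞) ≤ cnt K x r := by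
  classical
  have hwin := eventually_window hP (Or.inl rfl) hn hlen hreg
  have hball : ∀ᶠ R : ℝ in atTop, ∀ C ∈ comps K, (C ∩ ball x R).Nonempty := by
    refine (hC.finite.eventually_all).2 fun C hCm => ?_
    obtain ⟨p, hp, rfl⟩ := hCm
    filter_upwards [eventually_gt_atTop (dist p x)] with R hR
    exact ⟨p, mem_connectedComponentIn hp, mem_ball.2 hR⟩
  obtain ⟨A, hA⟩ := eventually_atTop.1 (hwin.and (hball.and (eventually_gt_atTop (0 : ℝ))))
  have hA0 : 0 < A := (hA A le_rfl).2.2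
  set q : ℝ := (1 + 1 / 1000) ^ 2 with hq
  have hq1 : 1 < q := by norm_num [hq]
  have hR : ∀ i : ℕ, A ≤ A * q ^ i := fun i => le_mul_of_one_le_right hA0.le (one_le_pow₀ hq1.le)
  choose r hr1 hr2 hr3 using fun i : ℕ => (hA _ (hR i)).1
  have hP2 : ∀ i, Pair2 K x n (r i) (r (i + 1)) := by
    intro i
    have hpos : 0 < A * q ^ i := hA0.trans_le (hR i)
    have e : A * q ^ (i + 1) = A * q ^ i * q := by ring
    have h1 := hr1 (i + 1)
    have h2 := hr2 (i + 1)
    have h3 := hr1 i
    have h4 := hr2 i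
    rw [e] at h1 h2
    generalize A * q ^ i = Q at h1 h2 h3 h4 hpos
    have hqv : q = 1002001 / 1000000 := by norm_num [hq]
    rw [hqv] at h1 h2
    exact ⟨hr3 i, hr3 (i + 1), by linarith, by linarith⟩
  have htop : Tendsto r atTop atTop :=
    tendsto_atTop_mono hr1 ((tendsto_pow_atTop_atTop_of_one_lt hq1).const_mul_atTop hA0)
  obtain ⟨v, c⟩ := exists_chain_up h hC hx hn hP2 htop
  set T := tube K x n r (fun i => r (i + 1)) v
  filter_upwards [eventually_ge_atTop (r 0)] with s hs
  have hmeet : ∀ j < n, ∃ p ∈ T j, dist p x = s := by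
    intro j hj
    by_contra hcon
    simp only [not_exists, not_and] at hcon
    set S := T j ∩ {p | s ≤ dist p x}
    have hTc : ∀ k, IsClosed (T k) := fun k =>
      c.isClosed_tube hA0 (fun i => (hR i).trans (hr1 i)) k
    have hSc : IsClosed S := (hTc j).inter (isClosed_le continuous_const (by fun_prop))
    set W := (K ∩ closedBall x s) ∪ ⋃ k ∈ (Finset.range n).erase j, T k
    have hWc : IsClosed W := (h.isClosed.inter isClosed_closedBall).union
      (((Finset.range n).erase j).finite_toSet.isClosed_biUnion fun k _ => hTc k)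
    have hcov : K ⊆ S ∪ W := by
      intro p hp
      rcases le_or_gt (dist p x) s with hle | hgt
      · exact Or.inr (Or.inl ⟨hp, hle⟩)
      obtain ⟨k, hk, hpk⟩ := c.exists_tube hp (show dist p x ∈ Ici (r 0) from hs.trans hgt.le)
      by_cases hkj : k = j
      · exact Or.inl ⟨hkj ▸ hpk, hgt.le⟩
      · exact Or.inr (Or.inr (mem_iUnion₂.2
          ⟨k, Finset.mem_erase.2 ⟨hkj, Finset.mem_range.2 hk⟩, hpk⟩))
    have hdisj : ∀ p, p ∈ S → p ∉ W := by
      rintro p ⟨hpT, hps⟩ (hpW | hpW)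
      · exact hcon p hpT (le_antisymm (mem_closedBall.1 hpW.2) hps)
      · obtain ⟨k, hk, hpk⟩ := mem_iUnion₂.1 hpW
        rw [Finset.mem_erase, Finset.mem_range] at hk
        exact c.disjoint hj hk.2 (Ne.symm hk.1) hpT hpk
    obtain ⟨i, hi⟩ := (htop.eventually (eventually_ge_atTop s)).exists
    obtain ⟨p, hp, hpd⟩ := c.hit i j
    have hpS : p ∈ S := ⟨hp, by show s ≤ dist p x; rw [hpd]; exact hi⟩
    have hpK : p ∈ K := tube_subset j hp
    obtain ⟨z, hzc, hzb⟩ := (hA A le_rfl).2.1 _ ⟨p, hpK, rfl⟩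
    have hAr : A ≤ r 0 := (hR 0).trans (hr1 0)
    have hzW : z ∈ W :=
      Or.inl ⟨connectedComponentIn_subset _ _ hzc, (mem_ball.1 hzb).le.trans (hAr.trans hs)⟩
    obtain ⟨y, -, hyS, hyW⟩ := isPreconnected_closed_iff.1
      (isPreconnected_connectedComponentIn (F := K) (x := p)) S W hSc hWc
      ((connectedComponentIn_subset K p).trans hcov)
      ⟨p, mem_connectedComponentIn hpK, hpS⟩ ⟨z, hzc, hzW⟩
    exact hdisj y hyS hyW
  choose! g hg hgs using hmeet
  have hinj : InjOn g (Finset.range n) := by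
    intro i hi j hj e
    simp only [Finset.coe_range, mem_Iio] at hi hj
    by_contra hij
    exact c.disjoint hi hj hij (hg i hi) (e ▸ hg j hj)
  calc (n : ℕ∞) = (((Finset.range n).image g : Finset ℂ) : Set ℂ).encard := by
        rw [encard_coe_eq_coe_finsetCard, Finset.card_image_of_injOn hinj, Finset.card_range]
    _ ≤ cnt K x s := by
        refine encard_le_encard ?_
        intro p hp
        simp only [Finset.coe_image, mem_image, Finset.coe_range, mem_Iio] at hp
        obtain ⟨j, hj, rfl⟩ := hp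
        exact ⟨tube_subset j (hg j hj), mem_sphere.2 (hgs j hj)⟩

/-- In two closed sets meeting at most at one point a connected set has connected traces. -/
theorem preconnected_trace {A B G : Set ℂ} (hA : IsClosed A) (hB : IsClosed B) (hG : IsClosed G)
    (hGc : IsPreconnected G) (hsub : G ⊆ A ∪ B) {x : ℂ} (hAB : ∀ p ∈ G, p ∈ A → p ∈ B → p = x) :
    IsPreconnected (G ∩ A) := by
  rw [isPreconnected_closed_iff]
  intro t t' ht ht' hcov hne hne'
  by_contra hemp
  rw [not_nonempty_iff_eq_empty, eq_empty_iff_forall_notMem] at hemp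
  have key : ∀ t t' : Set ℂ, IsClosed t → IsClosed t' → G ∩ A ⊆ t ∪ t' →
      (∀ p ∈ G ∩ A, p ∈ t → p ∉ t') → (G ∩ A ∩ t').Nonempty → (G ∩ A ∩ t).Nonempty →
      ¬ (x ∈ G ∧ x ∈ A ∧ x ∈ B ∧ x ∈ t') → False := by
    intro t t' ht ht' hcov hd hne' hne hx
    obtain ⟨y, hyG, hy1, hy2⟩ := isPreconnected_closed_iff.1 hGc ((G ∩ A ∩ t) ∪ (G ∩ B))
      (G ∩ A ∩ t') (((hG.inter hA).inter ht).union (hG.inter hB)) ((hG.inter hA).inter ht')
      (by
        intro p hp
        rcases hsub hp with hpA | hpB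
        · rcases hcov ⟨hp, hpA⟩ with h1 | h1
          · exact Or.inl (Or.inl ⟨⟨hp, hpA⟩, h1⟩)
          · exact Or.inr ⟨⟨hp, hpA⟩, h1⟩
        · exact Or.inl (Or.inr ⟨hp, hpB⟩))
      (by obtain ⟨p, hp⟩ := hne; exact ⟨p, hp.1.1, Or.inl hp⟩)
      (by obtain ⟨p, hp⟩ := hne'; exact ⟨p, hp.1.1, hp⟩)
    rcases hy1 with hy1 | hy1
    · exact hd y hy1.1 hy1.2 hy2.2
    · have := hAB y hyG hy2.1.2 hy1.2
      subst this
      exact hx ⟨hyG, hy2.1.2, hy1.2, hy2.2⟩
  by_cases hxt : x ∈ G ∧ x ∈ A ∧ x ∈ B ∧ x ∈ t'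
  · refine key t' t ht' ht (hcov.trans (union_comm _ _).subset)
      (fun p hp h1 h2 => hemp p ⟨hp, h2, h1⟩) hne hne' fun hh => ?_
    exact hemp x ⟨⟨hh.1, hh.2.1⟩, hh.2.2.2, hxt.2.2.2⟩
  · exact key t t' ht ht' hcov (fun p hp h1 h2 => hemp p ⟨hp, h1, h2⟩) hne' hne hxt

/-- A point whose component avoids a closed set has a clopen neighbourhood avoiding it. -/
theorem exists_clopen_avoiding {X : Set ℂ} (hX : IsCompact X) (hx : x ∈ X) {F : Set ℂ}
    (hF : IsClosed F) (hxF : ∀ p ∈ connectedComponentIn X x, p ∉ F) :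
    ∃ C : Set ℂ, IsClosed C ∧ IsClosed (X \ C) ∧ C ⊆ X ∧ x ∈ C ∧ ∀ p ∈ C, p ∉ F := by
  have : CompactSpace X := isCompact_iff_compactSpace.1 hX
  set a : X := ⟨x, hx⟩
  set F₀ : Set X := Subtype.val ⁻¹' F
  have hdis : F₀ ∩ ⋂ s : { s : Set X // IsClopen s ∧ a ∈ s }, (s : Set X) = ∅ := by
    rw [← connectedComponent_eq_iInter_isClopen, eq_empty_iff_forall_notMem]
    rintro z ⟨hz, hz'⟩
    refine hxF z ?_ hz
    exact ((isPreconnected_connectedComponent).image _ continuous_subtype_val.continuousOn)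
      |>.subset_connectedComponentIn ⟨a, mem_connectedComponent, rfl⟩
        (by rintro _ ⟨w, -, rfl⟩; exact w.2) ⟨z, hz', rfl⟩
  obtain ⟨t, ht⟩ := ((hF.preimage continuous_subtype_val).isCompact).elim_finite_subfamily_closed
    (fun s : { s : Set X // IsClopen s ∧ a ∈ s } => (s : Set X)) (fun s => s.2.1.1) hdis
  set Z : Set X := ⋂ s ∈ t, (s : Set X)
  have hZc : IsClopen Z := isClopen_biInter_finset fun s _ => s.2.1
  refine ⟨Subtype.val '' Z, hX.isClosed.isClosedMap_subtype_val _ hZc.1, ?_,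
    by rintro _ ⟨w, -, rfl⟩; exact w.2, ⟨a, mem_iInter₂.2 fun s _ => s.2.2, rfl⟩, ?_⟩
  · rw [show X \ Subtype.val '' Z = Subtype.val '' Zᶜ by
      rw [image_compl_eq_range_sdiff_image Subtype.val_injective, Subtype.range_coe]]
    exact hX.isClosed.isClosedMap_subtype_val _ hZc.compl.1
  · rintro _ ⟨w, hw, rfl⟩ hwF
    exact (eq_empty_iff_forall_notMem.1 ht w) ⟨hwF, hw⟩

/-- Near the centre there are two branches. -/
theorem twoBranches (hP : PartitionSpec) (h : IsGM K u) (hC : CompStructure K) (hx : x ∈ K)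
    (hn : n = 2 ∨ n = 3) (hlen : Tendsto (fun r => len K x r / r) (𝓝[>] 0) (𝓝 (n : ℝ)))
    (hreg : ∀ ε > 0, Most (𝓝[>] 0) (fun r => GoodRadius K u x r ∧ cnt K x r = (n : ℕ∞) ∧
      tauC u x r ≤ ε ∧ ∀ t m, IsPartition K x r t m → IsRegularStar ε t m)) :
    TwoBranches K x := by
  classical
  have hwin := eventually_window hP (Or.inr rfl) hn hlen hreg
  obtain ⟨B, hB, hsub⟩ := mem_nhdsGT_iff_exists_Ioo_subset.1 hwin
  have hB0 : (0 : ℝ) < B := hB
  set q : ℝ := (1 + 1 / 1000) ^ 2 with hq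
  have hq1 : 1 < q := by norm_num [hq]
  have hRmem : ∀ i : ℕ, B / 2 / q ^ i ∈ Ioo 0 B := fun i => by
    refine ⟨by positivity, lt_of_le_of_lt (div_le_self (by linarith) (one_le_pow₀ hq1.le)) ?_⟩
    linarith
  choose r hr1 hr2 hr3 using fun i : ℕ => hsub (hRmem i)
  have hP2 : ∀ i, Pair2 K x n (r (i + 1)) (r i) := by
    intro i
    have hpos : 0 < B / 2 / q ^ (i + 1) := (hRmem _).1
    have e : B / 2 / q ^ i = B / 2 / q ^ (i + 1) * q := by
      rw [pow_succ]; field_simp
    have h1 := hr1 i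
    have h2 := hr2 i
    have h3 := hr1 (i + 1)
    have h4 := hr2 (i + 1)
    rw [e] at h1 h2
    generalize B / 2 / q ^ (i + 1) = Q at h1 h2 h3 h4 hpos
    have hqv : q = 1002001 / 1000000 := by norm_num [hq]
    rw [hqv] at h1 h2
    exact ⟨hr3 (i + 1), hr3 i, by linarith, by linarith⟩
  have hzero : Tendsto r atTop (𝓝 0) := by
    refine squeeze_zero (fun i => (hr3 i).pos.le) hr2 ?_
    have : Tendsto (fun i : ℕ => B / 2 / q ^ i) atTop (𝓝 0) :=
      (tendsto_pow_atTop_atTop_of_one_lt hq1).const_div_atTop _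
    simpa using this.const_mul (1 + 1 / 1000 : ℝ)
  obtain ⟨v, c⟩ := exists_chain_down h hC hx hn hP2 hzero
  set T := tube K x n (fun i => r (i + 1)) r v
  have hn0 := c.npos
  set X : ℕ → Set ℂ := fun j => T j ∪ {x}
  have hball : ∀ j, X j ⊆ K ∩ closedBall x (r 0) := by
    intro j p hp
    rcases hp with ⟨hpK, i, hi', -⟩ | rfl
    · refine ⟨hpK, mem_closedBall.2 (hi'.2.trans ?_)⟩
      exact (strictAnti_nat_of_succ_lt fun i => (hP2 i).lt).antitone (Nat.zero_le i)
    · exact ⟨hx, mem_closedBall_self (hr3 0).pos.le⟩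
  have hXc : ∀ j, IsCompact (X j) := fun j =>
    ((isCompact_closedBall x (r 0)).inter_left h.isClosed).of_isClosed_subset
      (c.isClosed_insert j) (hball j)
  have hXdisj : ∀ j < n, ∀ k < n, j ≠ k → ∀ p, p ∈ X j → p ∈ X k → p = x := by
    intro j hj k hk hjk p hpj hpk
    rcases hpj with hpj | hpj
    · rcases hpk with hpk | hpk
      · exact absurd hpk (c.disjoint hj hk hjk hpj)
      · exact hpk
    · exact hpj
  have hnontriv : ∀ j < n, (connectedComponentIn (X j) x).Nontrivial := by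
    intro j hj
    by_contra htriv
    rw [not_nontrivial_iff] at htriv
    have hxX : x ∈ X j := Or.inr rfl
    obtain ⟨C, hCcl, hCo, hCX, hxC, hCF⟩ := exists_clopen_avoiding (hXc j) hxX
      (isClosed_sphere (x := x) (ε := r 0)) fun p hp hps => by
        have := htriv hp (mem_connectedComponentIn hxX)
        rw [this, mem_sphere, dist_self] at hps
        exact (hr3 0).pos.ne hps
    -- a point of the tube close to the centre lies in `C`
    obtain ⟨δ, hδ, hδC⟩ := Metric.isOpen_iff.1 hCo.isOpen_compl x (fun hh => hh.2 hxC)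
    obtain ⟨i, hi⟩ := ((hzero.comp (tendsto_add_atTop_nat 1)).eventually
      (eventually_lt_nhds hδ)).exists
    obtain ⟨p, hp, hpd⟩ := c.hit i j
    have hpX : p ∈ X j := Or.inl hp
    have hpC : p ∈ C := by
      by_contra hh
      exact hδC (show p ∈ ball x δ by rw [mem_ball, hpd]; exact hi) ⟨hpX, hh⟩
    have hpx : p ≠ x := fun e => by
      rw [e, dist_self] at hpd
      exact (hP2 i).nice.pos.ne hpd
    -- its connection to the outer circle
    obtain ⟨z, hz, hzc⟩ := hC.reach x (r 0) p (hball j hpX)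
    set G := connectedComponentIn (K ∩ closedBall x (r 0)) p
    set Y := {x} ∪ ⋃ k ∈ (Finset.range n).erase j, X k
    have hGK : G ⊆ K ∩ closedBall x (r 0) := connectedComponentIn_subset _ _
    have hcov : G ⊆ X j ∪ Y := by
      intro y hy
      by_cases hyx : y = x
      · exact Or.inl (Or.inr hyx)
      obtain ⟨k, hk, hyk⟩ := c.exists_tube (hGK hy).1
        (show dist y x ∈ Ioc 0 (r 0) from ⟨dist_pos.2 hyx, (hGK hy).2⟩)
      by_cases hkj : k = j
      · exact Or.inl (Or.inl (hkj ▸ hyk))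
      · exact Or.inr (Or.inr (mem_iUnion₂.2
          ⟨k, Finset.mem_erase.2 ⟨hkj, Finset.mem_range.2 hk⟩, Or.inl hyk⟩))
    have hYc : IsClosed Y := isClosed_singleton.union
      (((Finset.range n).erase j).finite_toSet.isClosed_biUnion fun k _ => c.isClosed_insert k)
    have hXY : ∀ y ∈ G, y ∈ X j → y ∈ Y → y = x := by
      rintro y - hyj (hy | hy)
      · exact hy
      · obtain ⟨k, hk, hyk⟩ := mem_iUnion₂.1 hy
        rw [Finset.mem_erase, Finset.mem_range] at hk
        exact hXdisj j hj k hk.2 (Ne.symm hk.1) y hyj hyk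
    have hGc : IsClosed G := Topo.isClosed_component
      (h.isClosed.inter isClosed_closedBall) p
    have hpG : p ∈ G := mem_connectedComponentIn (hball j hpX)
    have hpre := preconnected_trace (c.isClosed_insert j) hYc hGc
      isPreconnected_connectedComponentIn hcov hXY
    by_cases hxG : x ∈ G
    · exact hpx (htriv (hpre.subset_connectedComponentIn ⟨hxG, hxX⟩ inter_subset_right ⟨hpG, hpX⟩)
        (mem_connectedComponentIn hxX))
    · have hGX : G ⊆ X j := by
        intro y hy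
        by_contra hyX
        obtain ⟨y', hy'G, hy'X, hy'Y⟩ := isPreconnected_closed_iff.1
          (isPreconnected_connectedComponentIn (F := K ∩ closedBall x (r 0)) (x := p)) (X j) Y
          (c.isClosed_insert j) hYc hcov ⟨p, hpG, hpX⟩
          ⟨y, hy, (hcov hy).resolve_left hyX⟩
        exact hxG (hXY y' hy'G hy'X hy'Y ▸ hy'G)
      obtain ⟨y, -, hyC, hyD⟩ := isPreconnected_closed_iff.1
        (isPreconnected_connectedComponentIn (F := K ∩ closedBall x (r 0)) (x := p)) C (X j \ C)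
        hCcl hCo (fun y hy => by
          by_cases hyC : y ∈ C
          · exact Or.inl hyC
          · exact Or.inr ⟨hGX hy, hyC⟩)
        ⟨p, hpG, hpC⟩ ⟨z, hzc, hGX hzc, fun hzC => hCF z hzC hz⟩
      exact hyD.2 hyC
  refine ⟨connectedComponentIn (X 0) x, connectedComponentIn (X 1) x, ?_, ?_, ?_⟩
  iterate 2
    refine ⟨(hXc _).of_isClosed_subset (Topo.isClosed_component (c.isClosed_insert _) x)
      (connectedComponentIn_subset _ _), ⟨⟨x, mem_connectedComponentIn (Or.inr rfl)⟩,
      isPreconnected_connectedComponentIn⟩,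
      (connectedComponentIn_subset _ _).trans ((hball _).trans inter_subset_left),
      hnontriv _ (by rcases hn with h | h <;> omega)⟩
  refine Subset.antisymm (fun p hp => ?_) fun p hp => ?_
  · exact hXdisj 0 (by omega) 1 (by rcases hn with h | h <;> omega) (by norm_num) p
      (connectedComponentIn_subset _ _ hp.1) (connectedComponentIn_subset _ _ hp.2)
  · rw [mem_singleton_iff] at hp
    subst hp
    exact ⟨mem_connectedComponentIn (Or.inr rfl), mem_connectedComponentIn (Or.inr rfl)⟩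

end Ends

open Ends in
/-- S11: ends with `y → 0`. -/
theorem ends (hG : GrowthSpec) (hE : EilenbergSpec) (hC : ComponentsSpec) (hCone : ConeSpec)
    (hNet : NetworkSpec) (hP : PartitionSpec) : EndsSpec := by
  intro K u h x hx l hl hy
  obtain ⟨n, hn, hlen, hreg⟩ := density_regular hG hE (hC K u h) hCone hNet hP h hx hl hy
  refine ⟨n, hn, hlen, hreg, ?_, ?_⟩
  · rintro rfl
    exact eventually_le_cnt hP h (hC K u h) hx hn hlen hreg
  · rintro rfl
    exact twoBranches hP h (hC K u h) hx hn hlen hreg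

end Vale.Agent.P128
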