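import Vale.Agent.P128.Spec
import Vale.Agent.P128.Basic

/-!
# P128 piece B: growth, polar coordinates for `D`, good radii, partitions of circles
-/

open MeasureTheory Set Metric Filter
open scoped ENNReal NNReal Topology Real Interval

noncomputable section

namespace Vale.Agent.P128

variable {K : Set ℂ} {u : ℂ → ℝ}

namespace Growth

/-- The density of `D` in the radius. -/
def radial (u : ℂ → ℝ) (x : ℂ) (r : ℝ) : ℝ≥0∞ :=
  ∫⁻ θ in Ioo (-π) π, ENNReal.ofReal (r * gradSq u (circleMap x r θ))

theorem measurable_gradSq (u : ℂ → ℝ) : Measurable (gradSq u) :=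
  ((measurable_fderiv_apply_const ℝ u 1).pow_const 2).add
    ((measurable_fderiv_apply_const ℝ u Complex.I).pow_const 2)

theorem measurable_polar (u : ℂ → ℝ) (x : ℂ) :
    Measurable fun p : ℝ × ℝ => ENNReal.ofReal (p.1 * gradSq u (circleMap x p.1 p.2)) :=
  (measurable_fst.mul ((measurable_gradSq u).comp
    (by unfold circleMap; fun_prop : Continuous fun p : ℝ × ℝ =>
      circleMap x p.1 p.2).measurable)).ennreal_ofReal

theorem measurable_radial (u : ℂ → ℝ) (x : ℂ) : Measurable (radial u x) :=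
  (measurable_polar u x).lintegral_prod_right'

theorem dT_sq_add_dR_sq (u : ℂ → ℝ) (x : ℂ) (r θ : ℝ) :
    dT u x r θ ^ 2 + dR u x r θ ^ 2 = gradSq u (circleMap x r θ) := by
  set L := fderiv ℝ u (circleMap x r θ) with hL
  have hw : ∀ w : ℂ, L w = w.re * L 1 + w.im * L Complex.I := by
    intro w
    have : w = w.re • (1 : ℂ) + w.im • Complex.I := by
      apply Complex.ext <;> simp
    conv_lhs => rw [this, map_add, map_smul, map_smul]
    simp
  unfold dT dR gradSq
  rw [← hL, hw (Complex.exp _ * Complex.I), hw (Complex.exp _)]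
  simp only [Complex.mul_re, Complex.mul_im, Complex.exp_ofReal_mul_I_re,
    Complex.exp_ofReal_mul_I_im, Complex.I_re, Complex.I_im]
  linear_combination (L 1 ^ 2 + L Complex.I ^ 2) * Real.sin_sq_add_cos_sq θ

theorem dirichlet_ball (hK : volume K = 0) (u : ℂ → ℝ) (x : ℂ) (b : ℝ) :
    dirichlet K u (ball x b) = ∫⁻ r in Ioo 0 b, radial u x r := by
  have hd : dirichlet K u (ball x b) = ∫⁻ z in ball x b, ENNReal.ofReal (gradSq u z) :=
    setLIntegral_congr (sdiff_null_ae_eq_self hK)
  rw [hd, ← lintegral_indicator measurableSet_ball,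
    ← lintegral_add_right_eq_self _ x, ← Complex.lintegral_comp_polarCoord_symm, polarCoord_target,
    Measure.volume_eq_prod, ← Measure.prod_restrict]
  have hpt : ∀ p : ℝ × ℝ, 0 < p.1 →
      ENNReal.ofReal p.1 • (ball x b).indicator (fun z => ENNReal.ofReal (gradSq u z))
        (Complex.polarCoord.symm p + x) =
      (Iio b).indicator (fun _ => ENNReal.ofReal (p.1 * gradSq u (circleMap x p.1 p.2))) p.1 := by
    intro p hp
    have he : Complex.polarCoord.symm p + x = circleMap x p.1 p.2 := by
      rw [Complex.polarCoord_symm_apply, circleMap, Complex.exp_mul_I]; push_cast; ring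
    rw [he]
    by_cases h : p.1 < b
    · rw [indicator_of_mem (show p.1 ∈ Iio b from h), indicator_of_mem, smul_eq_mul,
        ENNReal.ofReal_mul hp.le]
      simp [circleMap, abs_of_pos hp, h]
    · rw [indicator_of_notMem (show p.1 ∉ Iio b from h), indicator_of_notMem, smul_zero]
      simpa [circleMap, abs_of_pos hp] using h
  have hae : ∀ᵐ p ∂((volume : Measure ℝ).restrict (Ioi 0)).prod (volume.restrict (Ioo (-π) π)),
      0 < p.1 := by
    rw [Measure.prod_restrict, ← Measure.volume_eq_prod]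
    filter_upwards [ae_restrict_mem (measurableSet_Ioi.prod measurableSet_Ioo)] with p hp
    exact hp.1
  rw [lintegral_congr_ae (hae.mono hpt)]
  have hm : Measurable fun p : ℝ × ℝ =>
      (Iio b).indicator (fun _ => ENNReal.ofReal (p.1 * gradSq u (circleMap x p.1 p.2))) p.1 := by
    have : (fun p : ℝ × ℝ =>
        (Iio b).indicator (fun _ => ENNReal.ofReal (p.1 * gradSq u (circleMap x p.1 p.2))) p.1) =
        (Prod.fst ⁻¹' Iio b).indicator
          fun p : ℝ × ℝ => ENNReal.ofReal (p.1 * gradSq u (circleMap x p.1 p.2)) := by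
      funext p; simp [indicator]
    rw [this]
    exact (measurable_polar u x).indicator (measurable_fst measurableSet_Iio)
  rw [lintegral_prod _ hm.aemeasurable, ← lintegral_indicator measurableSet_Ioi,
    ← lintegral_indicator measurableSet_Ioo]
  refine lintegral_congr fun r => ?_
  by_cases h0 : 0 < r <;> by_cases hb : r < b <;> simp [indicator, h0, hb, radial]

theorem lintegral_radial_lt_top (h : IsGM K u) (x : ℂ) (b : ℝ) :
    ∫⁻ r in Ioo 0 b, radial u x r < ⊤ := by
  rw [← dirichlet_ball h.volume_eq_zero]; exact h.dirichlet_lt_top x b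

theorem ae_radial_lt_top (h : IsGM K u) (x : ℂ) : ∀ᵐ r : ℝ, 0 < r → radial u x r < ⊤ := by
  have hn : ∀ n : ℕ, ∀ᵐ r : ℝ, r ∈ Ioo (0 : ℝ) n → radial u x r < ⊤ := fun n =>
    (ae_restrict_iff' measurableSet_Ioo).1
      (ae_lt_top (measurable_radial u x) (lintegral_radial_lt_top h x n).ne)
  filter_upwards [ae_all_iff.2 hn] with r hr h0
  obtain ⟨n, hn'⟩ := exists_nat_gt r
  exact hr n ⟨h0, hn'⟩

/-- Circle calculus at a radius where the density is finite. -/
theorem circle_facts {x : ℂ} {r : ℝ} (hr : 0 < r) (hfin : radial u x r < ⊤) :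
    (∀ a b : ℝ, IntervalIntegrable (fun θ => dT u x r θ ^ 2) volume a b) ∧
    (∀ a b : ℝ, IntervalIntegrable (fun θ => dR u x r θ ^ 2) volume a b) ∧
    tauC u x r + rhoC u x r = (radial u x r).toReal := by
  set φ : ℝ → ℝ := fun θ => r * gradSq u (circleMap x r θ) with hφ
  have h0 : ∀ θ, 0 ≤ φ θ := fun θ => mul_nonneg hr.le (gradSq_nonneg u _)
  have hc : Continuous (circleMap x r) := continuous_circleMap x r
  have hm : Measurable φ := measurable_const.mul ((measurable_gradSq u).comp hc.measurable)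
  have hi : IntegrableOn φ (Ioo (-π) π) :=
    ⟨hm.aestronglyMeasurable, (hasFiniteIntegral_iff_ofReal (Eventually.of_forall h0)).2 hfin⟩
  have hper : Function.Periodic φ (2 * π) := fun θ => by
    simp only [hφ, periodic_circleMap x r θ]
  have hall : ∀ a b, IntervalIntegrable φ volume a b := fun a b =>
    hper.intervalIntegrable Real.two_pi_pos.ne' (t := -π) (by
      rw [show -π + 2 * π = π by ring]
      exact (intervalIntegrable_iff_integrableOn_Ioo_of_le (by linarith [Real.pi_pos])).2 hi) a b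
  have hmT : Measurable fun θ => dT u x r θ := by
    have : (fun θ : ℝ => dT u x r θ) = fun θ : ℝ =>
        (Complex.exp (θ * Complex.I) * Complex.I).re * fderiv ℝ u (circleMap x r θ) 1 +
        (Complex.exp (θ * Complex.I) * Complex.I).im *
          fderiv ℝ u (circleMap x r θ) Complex.I := by
      funext θ
      unfold dT
      set w := Complex.exp (θ * Complex.I) * Complex.I
      conv_lhs => rw [show w = w.re • (1 : ℂ) + w.im • Complex.I by apply Complex.ext <;> simp,
        map_add, map_smul, map_smul]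
      simp
    rw [this]
    exact ((by fun_prop : Continuous fun θ : ℝ =>
        (Complex.exp (θ * Complex.I) * Complex.I).re).measurable.mul
      ((measurable_fderiv_apply_const ℝ u 1).comp hc.measurable)).add
      ((by fun_prop : Continuous fun θ : ℝ =>
        (Complex.exp (θ * Complex.I) * Complex.I).im).measurable.mul
      ((measurable_fderiv_apply_const ℝ u Complex.I).comp hc.measurable))
  have hmR : Measurable fun θ => dR u x r θ ^ 2 := by
    have : (fun θ => dR u x r θ ^ 2) =
        fun θ => gradSq u (circleMap x r θ) - dT u x r θ ^ 2 := by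
      funext θ; rw [← dT_sq_add_dR_sq u x r θ]; ring
    rw [this]
    exact ((measurable_gradSq u).comp hc.measurable).sub (hmT.pow_const 2)
  have hle : ∀ θ, dT u x r θ ^ 2 ≤ r⁻¹ * φ θ ∧ dR u x r θ ^ 2 ≤ r⁻¹ * φ θ := fun θ => by
    have := dT_sq_add_dR_sq u x r θ
    have e : r⁻¹ * φ θ = gradSq u (circleMap x r θ) := by
      simp only [hφ]; field_simp
    rw [e]
    constructor <;> nlinarith [sq_nonneg (dT u x r θ), sq_nonneg (dR u x r θ)]
  have hT : ∀ a b, IntervalIntegrable (fun θ => dT u x r θ ^ 2) volume a b := fun a b =>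
    ((hall a b).const_mul r⁻¹).mono_fun' (hmT.pow_const 2).aestronglyMeasurable
      (Eventually.of_forall fun θ => by
        simpa using (hle θ).1)
  have hR : ∀ a b, IntervalIntegrable (fun θ => dR u x r θ ^ 2) volume a b := fun a b =>
    ((hall a b).const_mul r⁻¹).mono_fun' hmR.aestronglyMeasurable
      (Eventually.of_forall fun θ => by
        simpa using (hle θ).2)
  refine ⟨hT, hR, ?_⟩
  unfold tauC rhoC tauArc rhoArc
  rw [← intervalIntegral.integral_add ((hT _ _).const_mul r) ((hR _ _).const_mul r)]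
  have e : (fun θ => r * dT u x r θ ^ 2 + r * dR u x r θ ^ 2) = φ := by
    funext θ; rw [← mul_add, dT_sq_add_dR_sq]
  rw [e, show (2 : ℝ) * π = 0 + 2 * π by ring, hper.intervalIntegral_add_eq 0 (-π),
    show -π + 2 * π = π by ring, intervalIntegral.integral_of_le (by linarith [Real.pi_pos]),
    integral_Ioc_eq_integral_Ioo,
    integral_eq_lintegral_of_nonneg_ae (Eventually.of_forall h0) hm.aestronglyMeasurable]
  rfl

theorem sphere_length_le (x : ℂ) {r : ℝ} (hr : 0 ≤ r) :
    μH[1] (sphere x r) ≤ ENNReal.ofReal (2 * π * r) := by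
  rw [← abs_of_nonneg hr, ← image_circleMap_Ioc]
  refine ((lipschitzWith_circleMap x r).hausdorffMeasure_image_le zero_le_one _).trans ?_
  rw [hausdorffMeasure_real, Real.volume_Ioc, ENNReal.rpow_one, sub_zero, abs_of_nonneg hr,
    mul_comm (2 * π), ENNReal.ofReal_mul hr, Real.nnabs_of_nonneg hr]
  exact le_rfl

theorem ae_finite_circle (h : IsGM K u) (hE : EilenbergSpec) (x : ℂ) :
    ∀ᵐ r : ℝ, 0 < r → (K ∩ sphere x r).Finite := by
  obtain ⟨hm, hE'⟩ := hE K h.isClosed x
  have hn : ∀ n : ℕ, ∀ᵐ r : ℝ, r ∈ Ioo (0 : ℝ) n → (cnt K x r : ℝ≥0∞) < ⊤ := fun n => by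
    refine (ae_restrict_iff' measurableSet_Ioo).1 (ae_lt_top hm ?_)
    exact ((hE' 0 n le_rfl).trans_lt (lt_of_le_of_lt
      (measure_mono (inter_subset_inter_right K sdiff_subset)) (h.length_lt_top x n))).ne
  filter_upwards [ae_all_iff.2 hn] with r hr h0
  obtain ⟨n, hn'⟩ := exists_nat_gt r
  have hlt := hr n ⟨h0, hn'⟩
  rw [← Set.encard_lt_top_iff]
  simpa [cnt] using hlt

end Growth

open Growth in
/-- S01d. -/
theorem growth (hCut : CutSpec) (hE : EilenbergSpec) : GrowthSpec := by
  intro K u h x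
  have hgm : IsGM K u := h
  set g : ℝ → ℝ := (Ioi 0).indicator fun r => (radial u x r).toReal with hg
  have hgi : ∀ a b : ℝ, IntervalIntegrable g volume a b := by
    intro a b
    rw [intervalIntegrable_iff]
    set M : ℝ := max a b + 1
    have hi : IntegrableOn (fun r => (radial u x r).toReal) (Ioo 0 M) :=
      integrable_toReal_of_lintegral_ne_top (measurable_radial u x).aemeasurable
        (lintegral_radial_lt_top hgm x M).ne
    have : IntegrableOn g (Iio M) := by
      rw [hg, IntegrableOn, integrable_indicator_iff measurableSet_Ioi, IntegrableOn,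
        Measure.restrict_restrict measurableSet_Ioi, Ioi_inter_Iio]
      exact hi
    exact this.mono_set fun r hr => lt_of_le_of_lt hr.2 (lt_add_one _)
  have hprim : ∀ b : ℝ, 0 ≤ b → dir K u x b = ∫ r in (0)..b, g r := by
    intro b hb
    rw [intervalIntegral.integral_of_le hb, integral_Ioc_eq_integral_Ioo,
      setIntegral_congr_fun measurableSet_Ioo
        (fun r (hr : r ∈ Ioo 0 b) => indicator_of_mem (show r ∈ Ioi (0 : ℝ) from hr.1) _),
      integral_toReal (measurable_radial u x).aemeasurable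
        (ae_lt_top (measurable_radial u x) (lintegral_radial_lt_top hgm x b).ne),
      ← dirichlet_ball hgm.volume_eq_zero]
    rfl
  have hval : ∀ᵐ r : ℝ, 0 < r → tauC u x r + rhoC u x r = g r := by
    filter_upwards [ae_radial_lt_top hgm x] with r hr h0
    rw [hg, indicator_of_mem (show r ∈ Ioi (0 : ℝ) from h0), (circle_facts h0 (hr h0)).2.2]
  refine ⟨fun r hr => ⟨ENNReal.toReal_nonneg, ENNReal.toReal_nonneg, ?_⟩, ?_, ?_⟩
  · have h1 := hCut K u h (ball x r) isOpen_ball isBounded_ball
    have h2 : μH[1] (frontier (ball x r) \ K) ≤ ENNReal.ofReal (2 * π * r) :=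
      (measure_mono (sdiff_subset.trans frontier_ball_subset_sphere)).trans
        (sphere_length_le x hr.le)
    unfold dir len
    rw [← ENNReal.toReal_add (hgm.dirichlet_lt_top x r).ne (hgm.length_lt_top x r).ne]
    exact ENNReal.toReal_le_of_le_ofReal (by positivity) (h1.trans h2)
  · have hd := LocallyIntegrable.ae_hasDerivAt_integral (f := g)
      (locallyIntegrable_iff.2 fun k hk => by
        obtain ⟨R, hR⟩ := hk.isBounded.subset_closedBall 0
        rw [Real.closedBall_eq_Icc] at hR
        rcases le_total (0 - R) (0 + R) with hle | hle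
        · exact ((intervalIntegrable_iff_integrableOn_Icc_of_le hle).1 (hgi _ _)).mono_set hR
        · refine IntegrableOn.mono_set ?_ hR
          exact ((intervalIntegrable_iff_integrableOn_Icc_of_le hle).1 (hgi _ _)).mono_set
            (Icc_subset_Icc (by linarith) hle |>.trans subset_rfl))
    filter_upwards [ae_radial_lt_top hgm x, ae_finite_circle hgm hE x, hd, hval]
      with r hr hf hdr hv h0
    obtain ⟨hT, hR, -⟩ := circle_facts h0 (hr h0)
    refine ⟨h0, hf h0, hT, hR, ?_⟩
    rw [hv h0]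
    refine (hdr 0).congr_of_eventuallyEq ?_
    filter_upwards [eventually_gt_nhds h0] with s hs
    exact hprim s hs.le
  · intro a b ha hab
    have hcong : ∀ᵐ r : ℝ, r ∈ Ι a b → g r = tauC u x r + rhoC u x r := by
      filter_upwards [hval] with r hr hm
      rw [uIoc_of_le hab] at hm
      exact (hr (ha.trans_lt hm.1)).symm
    refine ⟨(hgi a b).congr_ae ((ae_restrict_iff' measurableSet_uIoc).2 hcong), ?_⟩
    rw [hprim b (ha.trans hab), hprim a ha,
      intervalIntegral.integral_interval_sub_left (hgi _ _) (hgi _ _)]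
    exact intervalIntegral.integral_congr_ae hcong

namespace Growth

theorem partition_mono {x : ℂ} {r : ℝ} {t : ℕ → ℝ} {m : ℕ} (ht : IsPartition K x r t m) :
    ∀ i j : ℕ, i < j → j ≤ m → t i < t j := by
  intro i j hij hj
  induction j, hij using Nat.le_induction with
  | base => exact (ht.2.2 i (by omega)).1.1
  | succ j hij ih => exact (ih (by omega)).trans (ht.2.2 j (by omega)).1.1

theorem exists_angle {x p : ℂ} {r : ℝ} (hr : 0 < r) (hp : p ∈ sphere x r) (a : ℝ) :
    ∃ θ ∈ Ico a (a + 2 * π), circleMap x r θ = p := by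
  rw [← abs_of_pos hr, ← range_circleMap] at hp
  obtain ⟨φ, rfl⟩ := hp
  obtain ⟨θ, hθ, he⟩ := (periodic_circleMap x r).exists_mem_Ico Real.two_pi_pos φ a
  exact ⟨θ, hθ, he.symm⟩

theorem exists_cell {t : ℕ → ℝ} {m : ℕ} {θ : ℝ} (h0 : t 0 ≤ θ) (hm : θ < t m) :
    ∃ i < m, t i ≤ θ ∧ θ < t (i + 1) := by
  induction m with
  | zero => exact absurd hm (not_lt.2 h0)
  | succ m ih =>
    rcases lt_or_ge θ (t m) with h | h
    · obtain ⟨i, hi, h1⟩ := ih h
      exact ⟨i, by omega, h1⟩
    · exact ⟨m, by omega, h, hm⟩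

end Growth

open Growth in
/-- S01e. -/
theorem partition : PartitionSpec := by
  intro K x r hr hfin
  refine ⟨fun hne => ?_, ?_⟩
  · classical
    set A : Set ℝ := Ico 0 (2 * π) ∩ circleMap x r ⁻¹' K with hA
    have hAf : A.Finite := by
      refine Set.Finite.of_finite_image (f := circleMap x r) (hfin.subset ?_)
        ((injOn_circleMap_of_abs_sub_le' hr.ne' (by linarith : 2 * π - 0 ≤ 2 * π)).mono
          inter_subset_left)
      rintro _ ⟨θ, hθ, rfl⟩
      exact ⟨hθ.2, circleMap_mem_sphere x hr.le θ⟩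
    set S := hAf.toFinset with hS
    have hSne : 0 < S.card := by
      obtain ⟨p, hp⟩ := hne
      obtain ⟨θ, hθ, he⟩ := exists_angle hr hp.2 0
      rw [zero_add] at hθ
      exact Finset.card_pos.2 ⟨θ, hAf.mem_toFinset.2 ⟨hθ, by rw [mem_preimage, he]; exact hp.1⟩⟩
    set e := S.orderEmbOfFin rfl with he
    set t0 : ℝ := e ⟨0, hSne⟩ with ht0
    have hmem : ∀ i : Fin S.card, e i ∈ A := fun i =>
      hAf.mem_toFinset.1 (Finset.orderEmbOfFin_mem S rfl i)
    have hsurj : ∀ θ ∈ A, ∃ i : Fin S.card, e i = θ := fun θ hθ => by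
      have := Finset.range_orderEmbOfFin S rfl
      have h' : θ ∈ Set.range e := by rw [he, this]; exact hAf.mem_toFinset.2 hθ
      exact h'
    refine ⟨fun i => if hi : i < S.card then e ⟨i, hi⟩ else t0 + 2 * π, S.card, hSne, ?_, ?_⟩
    · simp [hSne, ← ht0]
    · intro i hi
      have h00 := (hmem ⟨0, hSne⟩).1
      have hi' := (hmem ⟨i, hi⟩).1
      simp only [dif_pos hi]
      refine ⟨?_, (hmem ⟨i, hi⟩).2⟩
      by_cases hi1 : i + 1 < S.card
      · rw [dif_pos hi1]
        have hlt : e ⟨i, hi⟩ < e ⟨i + 1, hi1⟩ := e.strictMono (Fin.mk_lt_mk.2 (Nat.lt_succ_self i))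
        have hj := (hmem ⟨i + 1, hi1⟩).1
        refine ⟨hlt, by linarith [hi'.1, hj.2], fun θ hθ hK => ?_⟩
        obtain ⟨j, hj'⟩ := hsurj θ ⟨⟨by linarith [hθ.1, hi'.1], by linarith [hθ.2, hj.2]⟩, hK⟩
        rw [← hj'] at hθ
        have h1 : i < (j : ℕ) := by simpa [Fin.lt_def] using e.lt_iff_lt.1 hθ.1
        have h2 : (j : ℕ) < i + 1 := by simpa [Fin.lt_def] using e.lt_iff_lt.1 hθ.2
        omega
      · rw [dif_neg hi1]
        have hle : t0 ≤ e ⟨i, hi⟩ := e.monotone (Fin.mk_le_mk.2 (Nat.zero_le i))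
        refine ⟨by linarith [hi'.2, h00.1], by linarith, fun θ hθ hK => ?_⟩
        rcases lt_or_ge θ (2 * π) with h2 | h2
        · obtain ⟨j, hj'⟩ := hsurj θ ⟨⟨by linarith [hθ.1, hi'.1], h2⟩, hK⟩
          rw [← hj'] at hθ
          have h1 : i < (j : ℕ) := by simpa [Fin.lt_def] using e.lt_iff_lt.1 hθ.1
          have := j.isLt
          omega
        · obtain ⟨j, hj'⟩ := hsurj (θ - 2 * π) ⟨⟨by linarith, by linarith [hθ.2, h00.2]⟩, by
            rw [mem_preimage, (periodic_circleMap x r).sub_eq]; exact hK⟩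
          have : t0 ≤ θ - 2 * π := hj' ▸ e.monotone (Fin.mk_le_mk.2 (Nat.zero_le (j : ℕ)))
          linarith [hθ.2]
  · intro t m ht
    have hsurj : ∀ p ∈ K ∩ sphere x r, ∃ i < m, circleMap x r (t i) = p := by
      intro p hp
      obtain ⟨θ, hθ, he⟩ := exists_angle hr hp.2 (t 0)
      obtain ⟨i, hi, h1, h2⟩ := exists_cell hθ.1 (ht.2.1 ▸ hθ.2)
      rcases h1.eq_or_lt with h | h
      · exact ⟨i, hi, by rw [h, he]⟩
      · exact absurd (he ▸ hp.1) ((ht.2.2 i hi).1.2.2 θ ⟨h, h2⟩)
    refine ⟨?_, hsurj⟩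
    have himg : K ∩ sphere x r = (fun i => circleMap x r (t i)) '' (Iio m) := by
      refine subset_antisymm (fun p hp => ?_) ?_
      · obtain ⟨i, hi, he⟩ := hsurj p hp; exact ⟨i, hi, he⟩
      · rintro _ ⟨i, hi, rfl⟩
        exact ⟨(ht.2.2 i hi).2, circleMap_mem_sphere x hr.le _⟩
    have hmem : ∀ i < m, t i ∈ Ico (t 0) (t 0 + 2 * π) := fun i hi => by
      refine ⟨?_, ht.2.1 ▸ partition_mono ht i m hi le_rfl⟩
      rcases Nat.eq_zero_or_pos i with h | h
      · rw [h]
      · exact (partition_mono ht 0 i h hi.le).le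
    have hinj : InjOn (fun i => circleMap x r (t i)) (Iio m) := by
      intro i hi j hj hij
      have heq : t i = t j := injOn_circleMap_of_abs_sub_le' hr.ne'
        (by linarith : (t 0 + 2 * π) - t 0 ≤ 2 * π) (hmem i hi) (hmem j hj) hij
      rcases lt_trichotomy i j with h | h | h
      · exact absurd heq (partition_mono ht i j h (le_of_lt hj)).ne
      · exact h
      · exact absurd heq (partition_mono ht j i h (le_of_lt hi)).ne'
    rw [cnt, himg, hinj.encard_image, Set.encard_eq_coe_toFinset_card]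
    simp

end Vale.Agent.P128
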