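import Vale.Agent.P128.Spec
import Vale.Agent.P128.Basic

/-!
# P128: assembly of the pieces
-/

open MeasureTheory Set Metric Filter
open scoped ENNReal Topology Real

noncomputable section

namespace Vale.Agent.P128

theorem Most.mono {l : Filter ℝ} {P Q : ℝ → Prop} (h : Most l P) (hPQ : ∀ r, P r → Q r) :
    Most l Q := by
  intro ε hε
  filter_upwards [h ε hε] with R hR
  refine le_trans (measure_mono ?_) hR
  rintro r ⟨hr, hn⟩
  exact ⟨hr, fun hp => hn (hPQ r hp)⟩

/-- A property holding for most radii near infinity holds somewhere. -/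
theorem Most.exists_atTop {P : ℝ → Prop} (h : Most atTop P) : ∃ r : ℝ, 0 < r ∧ P r := by
  obtain ⟨R, hR, hR1⟩ := ((h (1 / 2) (by norm_num)).and (eventually_ge_atTop 1)).exists
  by_contra hcon
  simp only [not_exists, not_and] at hcon
  have hsub : Icc R (2 * R) ⊆ {r | r ∈ Icc R (2 * R) ∧ ¬P r} :=
    fun r hr => ⟨hr, hcon r (by linarith [hr.1])⟩
  have h2 := le_trans (measure_mono hsub) hR
  rw [Real.volume_Icc] at h2
  have h3 := (ENNReal.ofReal_le_ofReal_iff (by linarith)).1 h2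
  linarith

theorem balanced_of_connected {K : Set ℂ} {u V : ℂ → ℝ} (hK : IsConnected K)
    (hV : IsStream K u V) : Balanced K V := by
  intro p hp q hq
  exact (hV.const p hp q (hK.isPreconnected.subset_connectedComponentIn hp subset_rfl hq)).symm

/-- Assembly of the open case. -/
theorem openClassification (hLiou : LiouvilleSpec) (hStream : StreamSpec) (hMono : MonoSpec)
    (hNoFlat : NoFlatSpec) (hEnds : EndsSpec) (hTip : TipValueSpec) (hOne : OneCompSpec)
    (hLeaf : LeafSpec) (hRig : RigiditySpec) : OpenClassificationSpec := by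
  intro K u h
  rcases K.eq_empty_or_nonempty with hK | ⟨x₀, hx₀⟩
  · subst hK; exact Or.inl ⟨rfl, hLiou u h⟩
  right
  have hconn := hOne K u h ⟨x₀, hx₀⟩
  obtain ⟨V, hV⟩ := hStream K u h.toIsGM
  have hb := balanced_of_connected hconn hV
  -- the limit at infinity is 1 at every centre
  have hinf : ∀ x ∈ K, Tendsto (yrat K u x) atTop (𝓝 1) ∧ Most atTop (fun r => cnt K x r = 1) := by
    intro x hx
    obtain ⟨hmono, hends⟩ := hMono K u V h.toIsGM hV x hx
    obtain ⟨L, hL0, hLt, -⟩ := hends atTop (Or.inl rfl)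
    rcases hL0.eq_or_lt with hL | hL
    · exfalso
      obtain ⟨r, hr, hpos⟩ := hNoFlat K u h x hx
      have hyr : 0 < yrat K u x r := div_pos hpos hr
      have : yrat K u x r ≤ L := by
        refine ge_of_tendsto hLt ?_
        filter_upwards [eventually_ge_atTop r] with s hs
        exact hmono hb hr (lt_of_lt_of_le hr hs) hs
      linarith
    · obtain ⟨h1, h2⟩ := hTip K u V h.toIsGM hV hb x hx atTop (Or.inl rfl) L hL hLt
      exact ⟨h1 ▸ hLt, h2⟩
  obtain ⟨R, hR, hcnt⟩ := (hinf x₀ hx₀).2.exists_atTop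
  obtain ⟨z, hz, hleaf⟩ := hLeaf K u h hconn x₀ hx₀ R hR hcnt
  obtain ⟨hmono, hends⟩ := hMono K u V h.toIsGM hV z hz
  obtain ⟨L, hL0, hLt, -⟩ := hends (𝓝[>] (0 : ℝ)) (Or.inr ⟨rfl, hb⟩)
  have hLpos : 0 < L := by
    rcases hL0.eq_or_lt with hL | hL
    · exfalso
      subst hL
      obtain ⟨n, -, -, -, -, htwo⟩ := hEnds K u h.toIsGM z hz _ (Or.inr rfl) hLt
      exact hleaf (htwo rfl)
    · exact hL
  obtain ⟨hL1, -⟩ := hTip K u V h.toIsGM hV hb z hz _ (Or.inr rfl) L hLpos hLt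
  subst hL1
  refine hRig K u V h hV hb z hz fun r hr => le_antisymm ?_ ?_
  · refine ge_of_tendsto (hinf z hz).1 ?_
    filter_upwards [eventually_ge_atTop r] with s hs
    exact hmono hb hr (lt_of_lt_of_le hr hs) hs
  · refine le_of_tendsto hLt ?_
    filter_upwards [Ioo_mem_nhdsGT hr] with s hs
    exact hmono hb hs.1 hr hs.2.le

/-- The classification for the problem's notion, in the open case. -/
theorem pairClassification (hBridge : BridgeSpec) (hC : OpenClassificationSpec) (P : Pair)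
    (hmin : IsGlobalMinimizer P) (hred : IsReduced P.K) (hconn : IsPreconnected P.Kᶜ) :
    (P.K = ∅ ∧ ∃ c : ℝ, ∀ᵐ z, P.u z = c) ∨
      ∃ a θ k, ∃ s : ℝ, (s = 1 ∨ s = -1) ∧ P.K = ray a (θ + π) ∧
        ∀ᵐ z, P.u z = crackTip a θ k s z := by
  obtain ⟨u, hu, hae⟩ := hBridge P hmin hred
  rcases hC P.K u ⟨hu, hconn⟩ with ⟨hK, c, hc⟩ | ⟨a, θ, k, s, hs, hK, hc⟩
  · exact Or.inl ⟨hK, c, hae.mono fun z hz => by rw [hz, hc]⟩
  · refine Or.inr ⟨a, θ, k, s, hs, hK, ?_⟩
    have hout : ∀ᵐ z, z ∉ P.K := measure_eq_zero_iff_ae_notMem.1 hu.volume_eq_zero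
    filter_upwards [hae, hout] with z hz hzK
    rw [hz, hc z hzK]

end Vale.Agent.P128
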