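import Vale.Agent.P128.Spec
import Vale.Agent.P128.Basic

/-!
# P128: elementary facts on ends, lengths and circle integrals, for the tip arguments
-/

open MeasureTheory Set Metric Filter
open scoped ENNReal Topology Real

noncomputable section

namespace Vale.Agent.P128

/-! ### Ends and `Most` -/

theorem IsEnd.neBot {l : Filter ℝ} (h : IsEnd l) : l.NeBot := by
  rcases h with rfl | rfl <;> infer_instance

theorem IsEnd.eventually_pos {l : Filter ℝ} (h : IsEnd l) : ∀ᶠ R in l, (0 : ℝ) < R := by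
  rcases h with rfl | rfl
  · exact eventually_gt_atTop 0
  · exact eventually_mem_of_tendsto_nhdsWithin tendsto_id

theorem IsEnd.eventually_forall_Icc {l : Filter ℝ} (h : IsEnd l) {Q : ℝ → Prop}
    (hQ : ∀ᶠ r in l, Q r) : ∀ᶠ R in l, ∀ r ∈ Icc R (2 * R), Q r := by
  rcases h with rfl | rfl
  · obtain ⟨a, ha⟩ := eventually_atTop.1 hQ
    filter_upwards [eventually_ge_atTop a] with R hR r hr
    exact ha r (hR.trans hr.1)
  · obtain ⟨a, ha, hsub⟩ := mem_nhdsGT_iff_exists_Ioo_subset.1 hQ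
    have ha' : (0 : ℝ) < a := ha
    filter_upwards [Ioo_mem_nhdsGT (show (0 : ℝ) < a / 2 by linarith)] with R hR r hr
    exact hsub ⟨lt_of_lt_of_le hR.1 hr.1, by linarith [hr.2, hR.2]⟩

theorem Most.and_of {l : Filter ℝ} {P Q : ℝ → Prop} (hP : Most l P) (hQ : Most l Q)
    (hpos : ∀ᶠ R in l, (0 : ℝ) < R) : Most l (fun r => P r ∧ Q r) := by
  intro ε hε
  filter_upwards [hP (ε / 2) (half_pos hε), hQ (ε / 2) (half_pos hε), hpos] with R h1 h2 hR
  refine (measure_mono (?_ : _ ⊆ {r | r ∈ Icc R (2 * R) ∧ ¬P r} ∪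
    {r | r ∈ Icc R (2 * R) ∧ ¬Q r})).trans ((measure_union_le _ _).trans ?_)
  · rintro r ⟨hr, hn⟩
    by_cases hp : P r
    · exact Or.inr ⟨hr, fun hq => hn ⟨hp, hq⟩⟩
    · exact Or.inl ⟨hr, hp⟩
  · refine (add_le_add h1 h2).trans (le_of_eq ?_)
    rw [← ENNReal.ofReal_add (by positivity) (by positivity)]
    congr 1; ring

theorem Most.of_eventually {l : Filter ℝ} {P : ℝ → Prop} (h : IsEnd l)
    (hP : ∀ᶠ r in l, P r) : Most l P := by
  intro ε _
  filter_upwards [h.eventually_forall_Icc hP] with R hR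
  have : {r | r ∈ Icc R (2 * R) ∧ ¬P r} = (∅ : Set ℝ) :=
    eq_empty_iff_forall_notMem.2 fun r hr => hr.2 (hR r hr.1)
  rw [this]; simp

/-- A property holding at most radii holds somewhere in every thin window. -/
theorem Most.exists_window {l : Filter ℝ} {P : ℝ → Prop} (h : IsEnd l) (hP : Most l P)
    {η : ℝ} (hη : 0 < η) :
    ∀ᶠ R in l, ∃ r, R ≤ r ∧ r ≤ (1 + η) * R ∧ P r := by
  set e := min η 1 with he
  have he0 : 0 < e := lt_min hη one_pos
  filter_upwards [hP (e / 2) (half_pos he0), h.eventually_pos] with R hR hR0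
  by_contra hcon
  simp only [not_exists, not_and] at hcon
  have he1 : e ≤ 1 := min_le_right _ _
  have he2 : e ≤ η := min_le_left _ _
  have hsub : Icc R ((1 + e) * R) ⊆ {r | r ∈ Icc R (2 * R) ∧ ¬P r} := by
    intro r hr
    refine ⟨⟨hr.1, hr.2.trans ?_⟩, hcon r hr.1 (hr.2.trans ?_)⟩
    · nlinarith
    · nlinarith
  have h2 := le_trans (measure_mono hsub) hR
  rw [Real.volume_Icc] at h2
  have h3 := (ENNReal.ofReal_le_ofReal_iff (by positivity)).1 h2
  nlinarith [mul_pos he0 hR0]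

/-! ### Length -/

variable {K : Set ℂ} {u : ℂ → ℝ} {x : ℂ}

theorem len_mono (h : IsGM K u) {r s : ℝ} (hrs : r ≤ s) : len K x r ≤ len K x s :=
  ENNReal.toReal_mono (h.length_lt_top x s).ne
    (measure_mono (inter_subset_inter_right K (ball_subset_ball hrs)))

theorem le_len (hE : EilenbergSpec) (h : IsGM K u) (hc : CompStructure K) (hx : x ∈ K) {r : ℝ}
    (hr : 0 < r) : r ≤ len K x r := by
  obtain ⟨-, hb⟩ := hE K h.isClosed x
  have h1 : ENNReal.ofReal r ≤ ∫⁻ s in Ioo 0 r, (cnt K x s : ℝ≥0∞) := by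
    calc ENNReal.ofReal r = ∫⁻ _ in Ioo 0 r, (1 : ℝ≥0∞) := by simp
      _ ≤ _ := by
        refine setLIntegral_mono' measurableSet_Ioo fun s hs => ?_
        have := hc.meets x hx s hs.1
        exact_mod_cast this
  have h2 := h1.trans ((hb 0 r le_rfl).trans
    (measure_mono (inter_subset_inter_right K sdiff_subset)))
  exact (ENNReal.ofReal_le_iff_le_toReal (h.length_lt_top x r).ne).1 h2

/-- The radii with at least two crossings in `[R, 2R]` are controlled by the growth of length. -/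
theorem volume_two_le_cnt (hE : EilenbergSpec) (h : IsGM K u) (hc : CompStructure K) (hx : x ∈ K)
    {R : ℝ} (hR : 0 < R) :
    volume {r | r ∈ Ioo R (2 * R) ∧ ¬ cnt K x r = 1} ≤
      ENNReal.ofReal (len K x (2 * R) - len K x R - R) := by
  obtain ⟨hm, hb⟩ := hE K h.isClosed x
  set B := {r | r ∈ Ioo R (2 * R) ∧ ¬ cnt K x r = 1} with hB
  have hint : ENNReal.ofReal R + volume B ≤ ∫⁻ r in Ioo R (2 * R), (cnt K x r : ℝ≥0∞) := by
    set S := {r | (2 : ℝ≥0∞) ≤ (cnt K x r : ℝ≥0∞)} with hS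
    have hSm : MeasurableSet S := measurableSet_le measurable_const hm
    have hBS : B ⊆ S ∩ Ioo R (2 * R) := by
      rintro r ⟨hr, hne⟩
      have h1 := hc.meets x hx r (hR.trans hr.1)
      have h2 : (1 : ℕ∞) + 1 ≤ cnt K x r :=
        Order.add_one_le_of_lt (lt_of_le_of_ne h1 (Ne.symm hne))
      refine ⟨?_, hr⟩
      have : ((2 : ℕ) : ℕ∞) ≤ cnt K x r := by simpa [one_add_one_eq_two] using h2
      show (2 : ℝ≥0∞) ≤ _
      exact_mod_cast this
    calc ENNReal.ofReal R + volume B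
        ≤ ENNReal.ofReal R + volume (S ∩ Ioo R (2 * R)) := by gcongr
      _ = ∫⁻ r in Ioo R (2 * R), (1 + S.indicator 1 r) := by
        rw [lintegral_add_left measurable_const, setLIntegral_const, lintegral_indicator_one hSm,
          Measure.restrict_apply hSm, Real.volume_Ioo, one_mul]
        congr 2; ring
      _ ≤ _ := by
        refine setLIntegral_mono' measurableSet_Ioo fun r hr => ?_
        by_cases hrS : r ∈ S
        · rw [indicator_of_mem hrS]
          simpa [one_add_one_eq_two] using (show (2 : ℝ≥0∞) ≤ _ from hrS)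
        · rw [indicator_of_notMem hrS, add_zero]
          exact_mod_cast hc.meets x hx r (hR.trans hr.1)
  have hann : ENNReal.ofReal R + volume B + μH[1] (K ∩ ball x R) ≤
      μH[1] (K ∩ ball x (2 * R)) := by
    refine (add_le_add (hint.trans (hb R (2 * R) hR.le)) le_rfl).trans ?_
    rw [← measure_inter_add_sdiff (μ := (μH[1] : Measure ℂ)) (K ∩ ball x (2 * R))
      (measurableSet_ball (x := x) (ε := R)), add_comm]
    refine add_le_add (measure_mono ?_) (measure_mono ?_)
    · rintro z ⟨hzK, hz⟩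
      exact ⟨⟨hzK, ball_subset_ball (by linarith) hz⟩, hz⟩
    · rintro z ⟨hzK, hz, hzn⟩
      exact ⟨⟨hzK, hz⟩, fun hzb => hzn (ball_subset_closedBall hzb)⟩
  have hfin := (h.length_lt_top x (2 * R)).ne
  have hfinB : ENNReal.ofReal R + volume B ≠ ⊤ :=
    ne_top_of_le_ne_top hfin (le_self_add.trans hann)
  have h3 := ENNReal.toReal_mono hfin hann
  rw [ENNReal.toReal_add hfinB (h.length_lt_top x R).ne,
    ENNReal.toReal_add ENNReal.ofReal_ne_top (ENNReal.add_ne_top.1 hfinB).2,
    ENNReal.toReal_ofReal hR.le] at h3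
  calc volume B = ENNReal.ofReal (volume B).toReal :=
        (ENNReal.ofReal_toReal (ENNReal.add_ne_top.1 hfinB).2).symm
    _ ≤ _ := ENNReal.ofReal_le_ofReal (by unfold len; linarith)

/-! ### Circle integrals -/

theorem dT_eq (u : ℂ → ℝ) (x : ℂ) (r θ : ℝ) :
    dT u x r θ = -Real.sin θ * fderiv ℝ u (circleMap x r θ) 1 +
      Real.cos θ * fderiv ℝ u (circleMap x r θ) Complex.I := by
  have : Complex.exp (θ * Complex.I) * Complex.I =
      (-Real.sin θ) • (1 : ℂ) + (Real.cos θ) • Complex.I := by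
    apply Complex.ext <;> simp [Complex.exp_re, Complex.exp_im] <;> rfl
  rw [dT, this, map_add, map_smul, map_smul, smul_eq_mul, smul_eq_mul]

theorem dR_eq (u : ℂ → ℝ) (x : ℂ) (r θ : ℝ) :
    dR u x r θ = Real.cos θ * fderiv ℝ u (circleMap x r θ) 1 +
      Real.sin θ * fderiv ℝ u (circleMap x r θ) Complex.I := by
  have : Complex.exp (θ * Complex.I) =
      (Real.cos θ) • (1 : ℂ) + (Real.sin θ) • Complex.I := by
    apply Complex.ext <;> simp [Complex.exp_re, Complex.exp_im] <;> rfl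
  rw [dR, this, map_add, map_smul, map_smul, smul_eq_mul, smul_eq_mul]

theorem measurable_dT (u : ℂ → ℝ) (x : ℂ) (r : ℝ) : Measurable (dT u x r) := by
  have hm : Measurable (circleMap x r) := (continuous_circleMap x r).measurable
  rw [show dT u x r = _ from funext (dT_eq u x r)]
  exact (Real.measurable_sin.neg.mul ((measurable_fderiv_apply_const ℝ u 1).comp hm)).add
    (Real.measurable_cos.mul ((measurable_fderiv_apply_const ℝ u Complex.I).comp hm))

theorem measurable_dR (u : ℂ → ℝ) (x : ℂ) (r : ℝ) : Measurable (dR u x r) := by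
  have hm : Measurable (circleMap x r) := (continuous_circleMap x r).measurable
  rw [show dR u x r = _ from funext (dR_eq u x r)]
  exact (Real.measurable_cos.mul ((measurable_fderiv_apply_const ℝ u 1).comp hm)).add
    (Real.measurable_sin.mul ((measurable_fderiv_apply_const ℝ u Complex.I).comp hm))

theorem periodic_dT (u : ℂ → ℝ) (x : ℂ) (r : ℝ) : Function.Periodic (dT u x r) (2 * π) := by
  intro θ
  simp only [dT_eq, periodic_circleMap x r θ, Real.sin_add_two_pi, Real.cos_add_two_pi]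

theorem periodic_dR (u : ℂ → ℝ) (x : ℂ) (r : ℝ) : Function.Periodic (dR u x r) (2 * π) := by
  intro θ
  simp only [dR_eq, periodic_circleMap x r θ, Real.sin_add_two_pi, Real.cos_add_two_pi]

theorem tauArc_nonneg (u : ℂ → ℝ) (x : ℂ) {r a b : ℝ} (hr : 0 ≤ r) (hab : a ≤ b) :
    0 ≤ tauArc u x r a b :=
  intervalIntegral.integral_nonneg hab fun _ _ => mul_nonneg hr (sq_nonneg _)

theorem rhoArc_nonneg (u : ℂ → ℝ) (x : ℂ) {r a b : ℝ} (hr : 0 ≤ r) (hab : a ≤ b) :
    0 ≤ rhoArc u x r a b :=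
  intervalIntegral.integral_nonneg hab fun _ _ => mul_nonneg hr (sq_nonneg _)

theorem tauC_nonneg (u : ℂ → ℝ) (x : ℂ) {r : ℝ} (hr : 0 ≤ r) : 0 ≤ tauC u x r :=
  tauArc_nonneg u x hr Real.two_pi_pos.le

theorem rhoC_nonneg (u : ℂ → ℝ) (x : ℂ) {r : ℝ} (hr : 0 ≤ r) : 0 ≤ rhoC u x r :=
  rhoArc_nonneg u x hr Real.two_pi_pos.le

theorem tauArc_period (u : ℂ → ℝ) (x : ℂ) (r a : ℝ) :
    tauArc u x r a (a + 2 * π) = tauC u x r := by
  have hp : Function.Periodic (fun θ => r * dT u x r θ ^ 2) (2 * π) := fun θ => by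
    simp only [periodic_dT u x r θ]
  have := hp.intervalIntegral_add_eq a 0
  simpa [tauC, tauArc] using this

theorem rhoArc_period (u : ℂ → ℝ) (x : ℂ) (r a : ℝ) :
    rhoArc u x r a (a + 2 * π) = rhoC u x r := by
  have hp : Function.Periodic (fun θ => r * dR u x r θ ^ 2) (2 * π) := fun θ => by
    simp only [periodic_dR u x r θ]
  have := hp.intervalIntegral_add_eq a 0
  simpa [rhoC, rhoArc] using this

theorem sum_tauArc {r : ℝ} (hg : GoodRadius K u x r) {t : ℕ → ℝ} {m : ℕ}
    (ht : IsPartition K x r t m) :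
    ∑ i ∈ Finset.range m, tauArc u x r (t i) (t (i + 1)) = tauC u x r := by
  unfold tauArc
  rw [intervalIntegral.sum_integral_adjacent_intervals fun k _ => (hg.intT _ _).const_mul r,
    ht.2.1]
  exact tauArc_period u x r (t 0)

theorem sum_rhoArc {r : ℝ} (hg : GoodRadius K u x r) {t : ℕ → ℝ} {m : ℕ}
    (ht : IsPartition K x r t m) :
    ∑ i ∈ Finset.range m, rhoArc u x r (t i) (t (i + 1)) = rhoC u x r := by
  unfold rhoArc
  rw [intervalIntegral.sum_integral_adjacent_intervals fun k _ => (hg.intR _ _).const_mul r,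
    ht.2.1]
  exact rhoArc_period u x r (t 0)

theorem exists_partition (hP : PartitionSpec) (hc : CompStructure K) (hx : x ∈ K) {r : ℝ}
    (hg : GoodRadius K u x r) : ∃ t m, IsPartition K x r t m :=
  (hP K x r hg.pos hg.fin).1 (encard_pos.1 (lt_of_lt_of_le zero_lt_one (hc.meets x hx r hg.pos)))

end Vale.Agent.P128
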