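import Vale.Agent.P128.Flat.Crossing
import Vale.Agent.P128.Growth
import Vale.Agent.P128.Main
import Vale.Agent.P128.TipBasic

/-!
# P128, piece II-c: a flat minimiser is a line or a tripod

The energy is length.  On arbitrarily large circles there are two or three nearly regular crossings;
they lie in one piece of the disc (otherwise one of them can be dropped, losing too much length), so
the crack in the disc is the shortest network through them.  These networks are nested.
-/

open MeasureTheory Set Metric Filter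
open scoped ENNReal Topology Real RealInnerProductSpace

noncomputable section

namespace Vale.Agent.P128

namespace Flat

/-- Squared chord. -/
theorem norm_circleMap_sub_sq (x : ℂ) (r a b : ℝ) :
    ‖circleMap x r a - circleMap x r b‖ ^ 2 = r ^ 2 * (2 - 2 * Real.cos (a - b)) := by
  rw [← Complex.normSq_eq_norm_sq, Real.cos_sub]
  simp only [circleMap, add_sub_add_left_eq_sub, Complex.normSq_apply, Complex.sub_re,
    Complex.sub_im, Complex.re_ofReal_mul, Complex.im_ofReal_mul, Complex.exp_ofReal_mul_I_re,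
    Complex.exp_ofReal_mul_I_im]
  linear_combination r ^ 2 * Real.sin_sq_add_cos_sq a + r ^ 2 * Real.sin_sq_add_cos_sq b

theorem cos_gap_lt {g : ℝ} (h : |g - 2 * π / 3| ≤ 1 / 10) : Real.cos g < -1 / 8 := by
  have hp := Real.pi_gt_three
  have hp4 := Real.pi_lt_d2
  rw [abs_le] at h
  have h0 : 0 ≤ g - π / 2 := by linarith
  have h1 : g - π / 2 ≤ π / 2 := by linarith
  have hs := Real.mul_le_sin h0 h1
  rw [show Real.cos g = -Real.sin (g - π / 2) by rw [Real.sin_sub_pi_div_two, neg_neg]]
  have : 2 / π * (g - π / 2) > 1 / 8 := by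
    rw [gt_iff_lt, div_mul_eq_mul_div, lt_div_iff₀ (by positivity)]
    linarith
  linarith

/-- Nearly regular triples have long chords. -/
theorem chord_of_regular {K : Set ℂ} {x : ℂ} {r : ℝ} {Z : Finset ℂ}
    (hr : 0 < r) (hZ : (Z : Set ℂ) = K ∩ sphere x r) (hc : Z.card = 3) {t : ℕ → ℝ} {m : ℕ}
    (hp : IsPartition K x r t m) (hreg : IsRegularStar (1 / 10) t m) :
    ∀ z ∈ Z, ∀ w ∈ Z, z ≠ w → 3 / 2 * r < ‖z - w‖ := by
  classical
  have hfin : (K ∩ sphere x r).Finite := hZ ▸ Z.finite_toSet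
  obtain ⟨hm, hall⟩ := (partition K x r hr hfin).2 t m hp
  have hm3 : m = 3 := by
    rw [cnt, ← hZ, encard_coe_eq_coe_finsetCard, hc] at hm
    exact_mod_cast hm
  subst hm3
  obtain ⟨-, hg⟩ := hreg
  have g0 := hg 0 (by norm_num)
  have g1 := hg 1 (by norm_num)
  have g2 := hg 2 (by norm_num)
  norm_num at g0 g1 g2
  have hper := hp.2.1
  have hlong : ∀ a b : ℝ, Real.cos (a - b) < -1 / 8 →
      3 / 2 * r < ‖circleMap x r a - circleMap x r b‖ := by
    intro a b hab
    have h := norm_circleMap_sub_sq x r a b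
    by_contra hle
    rw [not_lt] at hle
    nlinarith [pow_le_pow_left₀ (norm_nonneg _) hle 2, mul_pos hr hr]
  have c01 : Real.cos (t 0 - t 1) < -1 / 8 := by
    rw [← Real.cos_neg, neg_sub]; exact cos_gap_lt g0
  have c12 : Real.cos (t 1 - t 2) < -1 / 8 := by
    rw [← Real.cos_neg, neg_sub]; exact cos_gap_lt g1
  have c02 : Real.cos (t 0 - t 2) < -1 / 8 := by
    rw [show t 0 - t 2 = (t 3 - t 2) - 2 * π by linarith, Real.cos_sub_two_pi]
    exact cos_gap_lt g2
  intro z hz w hw hzw
  obtain ⟨i, hi, rfl⟩ := hall z ((Set.ext_iff.1 hZ z).1 (Finset.mem_coe.2 hz))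
  obtain ⟨j, hj, rfl⟩ := hall w ((Set.ext_iff.1 hZ w).1 (Finset.mem_coe.2 hw))
  have n1 := norm_sub_rev (circleMap x r (t i)) (circleMap x r (t j))
  have h01 := hlong _ _ c01
  have h12 := hlong _ _ c12
  have h02 := hlong _ _ c02
  interval_cases i <;> interval_cases j <;> first
    | exact absurd rfl hzw
    | linarith

theorem spider_singleton {b : ℂ} {e : ℂ} {θ : ℝ} (he : e = Complex.exp (θ * Complex.I)) :
    spider b {e} = ray b θ := by
  ext z
  simp only [spider, ray, Finset.mem_singleton, exists_eq_left, mem_image, mem_Ici, mem_ofPred_eq,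
    Complex.real_smul, he]
  exact exists_congr fun t => and_congr_right fun _ => eq_comm

theorem spider_insert (b e : ℂ) (E : Finset ℂ) :
    spider b (insert e E) = spider b {e} ∪ spider b E := by
  ext z
  simp only [spider, Finset.mem_insert, Finset.mem_singleton, mem_union, mem_ofPred_eq,
    exists_eq_left, or_and_right, exists_or]

theorem exists_angle_of_unit {e : ℂ} (he : ‖e‖ = 1) :
    ∃ θ : ℝ, e = Complex.exp (θ * Complex.I) :=
  ⟨e.arg, by conv_lhs => rw [← Complex.norm_mul_exp_arg_mul_I e, he, Complex.ofReal_one, one_mul]⟩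

theorem spider_line (x : ℂ) {e : ℂ} (he : ‖e‖ = 1) : IsLineSet (spider x {e, -e}) := by
  obtain ⟨θ, hθ⟩ := exists_angle_of_unit he
  refine ⟨x, θ, ?_⟩
  rw [spider_insert, spider_singleton hθ, spider_singleton (θ := θ + π)]
  rw [hθ, Complex.ofReal_add, add_mul, Complex.exp_add, Complex.exp_pi_mul_I, mul_neg_one]

theorem inner_eq_of_sum_zero {e f g : ℂ} (he : ‖e‖ = 1) (hf : ‖f‖ = 1) (hg : ‖g‖ = 1)
    (h : e + f + g = 0) : ⟪e, f⟫ = -1 / 2 := by
  have e1 := norm_add_sq_real e f
  rw [show e + f = -g from eq_neg_of_add_eq_zero_left h, norm_neg, he, hf, hg] at e1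
  linarith

theorem spider_tripod (b : ℂ) {e f g : ℂ} (he : ‖e‖ = 1) (hf : ‖f‖ = 1) (hg : ‖g‖ = 1)
    (h : e + f + g = 0) : IsTripodSet (spider b {e, f, g}) := by
  obtain ⟨θ, hθ⟩ := exists_angle_of_unit he
  have he0 : e ≠ 0 := norm_ne_zero_iff.1 (by simp [he])
  set v := f / e with hv
  have hfv : f = e * v := by rw [hv, mul_div_cancel₀ _ he0]
  have hgv : g = e * (-1 - v) := by
    rw [eq_neg_of_add_eq_zero_right h, hfv]; ring
  have n1 : Complex.normSq v = 1 := by
    rw [Complex.normSq_eq_norm_sq, hv, norm_div, hf, he]; norm_num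
  have n2 : Complex.normSq (-1 - v) = 1 := by
    have : ‖g‖ = ‖e‖ * ‖-1 - v‖ := by rw [hgv, norm_mul]
    rw [hg, he, one_mul] at this
    rw [Complex.normSq_eq_norm_sq, ← this]; norm_num
  simp only [Complex.normSq_apply, Complex.sub_re, Complex.sub_im, Complex.neg_re, Complex.neg_im,
    Complex.one_re, Complex.one_im, neg_zero, zero_sub] at n1 n2
  have hre : v.re = -1 / 2 := by linarith
  have him : v.im = Real.sqrt 3 / 2 ∨ v.im = -(Real.sqrt 3 / 2) := by
    rw [← sq_eq_sq_iff_eq_or_eq_neg, div_pow, Real.sq_sqrt (by norm_num)]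
    nlinarith
  set w₁ : ℂ := Complex.exp ((2 * π / 3 : ℝ) * Complex.I) with hw1
  set w₂ : ℂ := Complex.exp ((4 * π / 3 : ℝ) * Complex.I) with hw2
  have r1 : w₁ = ⟨-1 / 2, Real.sqrt 3 / 2⟩ := by
    apply Complex.ext
    · rw [hw1, Complex.exp_ofReal_mul_I_re, show 2 * π / 3 = π - π / 3 by ring, Real.cos_pi_sub,
        Real.cos_pi_div_three]
      norm_num
    · rw [hw1, Complex.exp_ofReal_mul_I_im, show 2 * π / 3 = π - π / 3 by ring, Real.sin_pi_sub,
        Real.sin_pi_div_three]
  have r2 : w₂ = ⟨-1 / 2, -(Real.sqrt 3 / 2)⟩ := by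
    apply Complex.ext
    · rw [hw2, Complex.exp_ofReal_mul_I_re, show 4 * π / 3 = π / 3 + π by ring, Real.cos_add_pi,
        Real.cos_pi_div_three]
      norm_num
    · rw [hw2, Complex.exp_ofReal_mul_I_im, show 4 * π / 3 = π / 3 + π by ring, Real.sin_add_pi,
        Real.sin_pi_div_three]
  refine ⟨b, θ, ?_⟩
  have s1 : spider b {e * w₁} = ray b (θ + 2 * π / 3) := spider_singleton (by
    rw [hθ, hw1, ← Complex.exp_add]; congr 1; push_cast; ring)
  have s2 : spider b {e * w₂} = ray b (θ + 4 * π / 3) := spider_singleton (by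
    rw [hθ, hw2, ← Complex.exp_add]; congr 1; push_cast; ring)
  rw [spider_insert, spider_insert, spider_singleton hθ, ← s1, ← s2]
  rcases him with hi | hi
  · rw [show f = e * w₁ by rw [hfv, r1]; congr 1; exact Complex.ext hre hi,
      show g = e * w₂ by
        rw [hgv, r2]; congr 1
        exact Complex.ext (by simp [hre]; norm_num) (by simp [hi])]
    rw [union_assoc]
  · rw [show f = e * w₂ by rw [hfv, r2]; congr 1; exact Complex.ext hre hi,
      show g = e * w₁ by
        rw [hgv, r1]; congr 1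
        exact Complex.ext (by simp [hre]; norm_num) (by simp [hi])]
    rw [union_assoc, union_comm (spider b {e * w₂})]

/-- The structure found inside one disc. -/
def LocalShape (K : Set ℂ) (x : ℂ) (n : ℕ) (r : ℝ) : Prop :=
  ∃ b ∈ ball x r, ∃ E : Finset ℂ, E.card = n ∧ (∀ e ∈ E, ‖e‖ = 1) ∧
    ((n = 2 ∧ b = x) ∨ (n = 3 ∧ ∀ e ∈ E, ∀ f ∈ E, e ≠ f → ⟪e, f⟫ ≤ 0)) ∧
    (IsLineSet (spider b E) ∨ IsTripodSet (spider b E)) ∧
    K ∩ ball x r = spider b E ∩ ball x r

theorem shape_global {K : Set ℂ} {x : ℂ} {n : ℕ}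
    (h : ∀ R : ℝ, ∃ r, R ≤ r ∧ LocalShape K x n r) : IsLineSet K ∨ IsTripodSet K := by
  obtain ⟨r₀, -, b, hb, E, hEc, hE, hcase, hshape, heq⟩ := h 0
  suffices hK : K = spider b E by rwa [hK]
  ext y
  obtain ⟨r, hr, b', hb', E', hEc', hE', hcase', -, heq'⟩ := h (max r₀ (dist y x + 1))
  have hsub : ball x r₀ ⊆ ball x r := ball_subset_ball ((le_max_left _ _).trans hr)
  have hag : ∀ w ∈ ball x r₀, (w ∈ spider b E ↔ w ∈ spider b' E') := fun w hw => by
    have h1 := Set.ext_iff.1 heq w
    have h2 := Set.ext_iff.1 heq' w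
    simp only [mem_inter_iff, hw, hsub hw, and_true] at h1 h2
    exact h1.symm.trans h2
  have hev : ∀ᶠ w in 𝓝 b, w ∈ spider b E ↔ w ∈ spider b' E' := by
    filter_upwards [isOpen_ball.mem_nhds hb] with w hw using hag w hw
  have hbb : b = b' := by
    rcases hcase with ⟨hn, hbx⟩ | ⟨hn, -⟩
    · rcases hcase' with ⟨-, hbx'⟩ | ⟨hn', -⟩
      · rw [hbx, hbx']
      · omega
    · rcases hcase' with ⟨hn', -⟩ | ⟨-, hang⟩
      · omega
      · exact center_eq hE (by omega) hE' hang (hev.mono fun w hw => hw.1)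
  subst hbb
  have hEE : E = E' := Finset.Subset.antisymm (dirs_subset hE hE' (hev.mono fun w hw => hw.1))
    (dirs_subset hE' hE (hev.mono fun w hw => hw.2))
  subst hEE
  have hy : y ∈ ball x r := by
    rw [mem_ball]
    linarith [le_max_right r₀ (dist y x + 1)]
  have h2 := Set.ext_iff.1 heq' y
  simpa [hy] using h2

end Flat

open Flat in
/-- II-c: the flat disconnected case. -/
theorem flatGeometry (hR : GenReplaceSpec) (hEnds : GenEndsSpec) : FlatGeometrySpec := by
  intro K u h hconn hflat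
  classical
  obtain ⟨x, hx⟩ : K.Nonempty := by
    by_contra hK
    rw [not_nonempty_iff_eq_empty] at hK
    exact hconn (by rw [hK, compl_empty]; exact isPreconnected_univ)
  have hdir : ∀ r, dir K u x r = 0 := fun r => by
    rw [dir, dirichlet, setLIntegral_eq_zero (measurableSet_ball.diff h.isClosed.measurableSet)
      fun z hz => by simp [hflat z hz.2]]
    rfl
  have hy : Tendsto (yrat K u x) atTop (𝓝 0) := by
    rw [show yrat K u x = fun _ => 0 from funext fun r => by rw [yrat, hdir, zero_div]]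
    exact tendsto_const_nhds
  obtain ⟨n, hn, hlen, hmost, -⟩ := hEnds K u h x hx atTop (Or.inl rfl) hy
  refine shape_global (x := x) (n := n) fun R => ?_
  have hev : ∀ᶠ r : ℝ in atTop, R ≤ r ∧ 0 < r ∧ ((n : ℝ) - 1 / 2) * r < len K x r := by
    filter_upwards [eventually_ge_atTop R, eventually_gt_atTop 0,
      hlen.eventually (eventually_gt_nhds (show (n : ℝ) - 1 / 2 < n by linarith))] with r h1 h2 h3
    exact ⟨h1, h2, (lt_div_iff₀ h2).1 h3⟩
  obtain ⟨r, -, ⟨-, hcnt, -, hreg⟩, hRr, hr, hlr⟩ :=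
    ((hmost (1 / 10) (by norm_num)).and_of (Most.of_eventually (Or.inl rfl) hev)
      (eventually_gt_atTop 0)).exists_atTop
  refine ⟨r, hRr, ?_⟩
  have hfin : (K ∩ sphere x r).Finite := finite_of_encard_eq_coe hcnt
  set Z := hfin.toFinset
  have hZ : (Z : Set ℂ) = K ∩ sphere x r := hfin.coe_toFinset
  have hcard : Z.card = n := by
    rw [cnt, hfin.encard_eq_coe_toFinset_card] at hcnt
    exact_mod_cast hcnt
  have hn' : n ≤ 3 ∧ 2 ≤ n := by omega
  have c : Crossing K x r Z := by
    refine ⟨hr, hZ, by omega, by omega, ?_⟩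
    have hfin' := (h.length_lt_top x r).ne
    refine (ENNReal.ofReal_lt_iff_lt_toReal ?_ hfin').2 ?_
    · have : (1 : ℝ) ≤ (Z.card : ℝ) := by exact_mod_cast (show 1 ≤ Z.card by omega)
      exact mul_nonneg (by linarith) hr.le
    · rw [hcard]
      refine lt_trans ?_ hlr
      linarith
  rcases hn with rfl | rfl
  · obtain ⟨e, he, heq⟩ := two_crossings hR h hflat hx c hcard
    refine ⟨x, mem_ball_self hr, {e, -e}, Finset.card_pair ?_, ?_, Or.inl ⟨rfl, rfl⟩,
      Or.inl (spider_line x he), heq⟩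
    · intro hh
      rw [eq_neg_iff_add_eq_zero, add_self_eq_zero] at hh
      rw [hh, norm_zero] at he
      norm_num at he
    · simp [he]
  · have hne : (K ∩ sphere x r).Nonempty := by
      rw [← hZ]; exact Finset.card_pos.1 (by omega)
    obtain ⟨t, m, hp⟩ := (partition K x r hr hfin).1 hne
    obtain ⟨b, hb, e, f, g, he, hf, hg, hsum, heq⟩ :=
      three_crossings hR h hflat c hcard (chord_of_regular hr hZ hcard hp (hreg t m hp))
    have hef := inner_eq_of_sum_zero he hf hg hsum
    have hfg := inner_eq_of_sum_zero hf hg he (by rw [← hsum]; abel)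
    have heg := inner_eq_of_sum_zero he hg hf (by rw [← hsum]; abel)
    have hne' : ∀ {a c : ℂ}, ‖a‖ = 1 → ⟪a, c⟫ = -1 / 2 → a ≠ c := by
      intro a c ha hac e
      rw [← e, real_inner_self_eq_norm_sq, ha] at hac
      norm_num at hac
    refine ⟨b, hb, {e, f, g}, ?_, by simp [he, hf, hg], Or.inr ⟨rfl, ?_⟩,
      Or.inr (spider_tripod b he hf hg hsum), heq⟩
    · exact Finset.card_eq_three.2 ⟨e, f, g, hne' he hef, hne' he heg, hne' hf hfg, rfl⟩
    · intro a ha c hc hac
      simp only [Finset.mem_insert, Finset.mem_singleton] at ha hc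
      rcases ha with rfl | rfl | rfl <;> rcases hc with rfl | rfl | rfl <;> first
        | exact absurd rfl hac
        | linarith [real_inner_comm a c]

end Vale.Agent.P128
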