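import Vale.Agent.P128.Leaf.Loop
import Vale.Agent.P128.Components

/-!
# P128, piece P: a connected crack set has a leaf

Order the points of `K ∩ closedBall x R` by: every continuum from the crossing point `p` to `w`
passes through `z`. A maximal point is a leaf: two branches at it would give two continua meeting
in a disconnected set.
-/

open MeasureTheory Set Metric Filter
open scoped ENNReal NNReal Topology Real

noncomputable section

namespace Vale.Agent.P128.Leaf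

variable {K : Set ℂ} {u : ℂ → ℝ}

/-- Every continuum in `K` from `p` to `w` passes through `z`. -/
def Before (K : Set ℂ) (p z w : ℂ) : Prop :=
  ∀ P : Set ℂ, IsCompact P → IsPreconnected P → P ⊆ K → p ∈ P → w ∈ P → z ∈ P

theorem Before.refl (p z : ℂ) : Before K p z z := fun _ _ _ _ _ h => h

theorem Before.trans {p a b c : ℂ} (h₁ : Before K p a b) (h₂ : Before K p b c) :
    Before K p a c := fun P hP hPc hPK hp hc => h₁ P hP hPc hPK hp (h₂ P hP hPc hPK hp hc)

theorem growth_bound (hG : GrowthSpec) (h : OpenCase K u) (w : ℂ) {t : ℝ} (ht : 0 < t) :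
    μH[1] (K ∩ closedBall w t) ≤ ENNReal.ofReal (4 * π * t) := by
  refine le_trans (measure_mono (inter_subset_inter_right K
    (closedBall_subset_ball (by linarith : t < 2 * t)))) ((StreamAux.time_ball_le hG h.toIsGM w
      (by linarith : (0 : ℝ) < 2 * t)).trans (le_of_eq (by ring_nf)))

/-- The points after `z` form a closed subset. -/
theorem isClosed_after (hG : GrowthSpec) (h : OpenCase K u) (hK : IsPreconnected K) {C : Set ℂ}
    (hC : IsClosed C) (hCK : C ⊆ K) (p z : ℂ) : IsClosed {w | w ∈ C ∧ Before K p z w} := by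
  refine isClosed_of_closure_subset fun w hw => ?_
  have hwC : w ∈ C := hC.closure_subset_iff.2 (fun a ha => ha.1) hw
  refine ⟨hwC, fun P hP hPc hPK hp hwP => ?_⟩
  by_contra hzP
  set e := dist z w / 4 with he
  have he0 : 0 < e := div_pos (dist_pos.2 fun eq => hzP (eq ▸ hwP)) (by norm_num)
  obtain ⟨V, hVo, hwV, hV⟩ := Topo.exists_nhd_subset_component (S := K) (p := w) (y := w) hK
    h.isClosed he0 (A := 4 * π) (by positivity) (fun t ht => growth_bound hG h w ht)
    (hCK hwC) (by rwa [dist_self])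
  obtain ⟨v, hvV, hvC, hvz⟩ := mem_closure_iff.1 hw V hVo hwV
  set B := K ∩ closedBall w (2 * e)
  set D := connectedComponentIn B w
  have hwD : w ∈ D := mem_connectedComponentIn ⟨hCK hwC, mem_closedBall_self (by linarith)⟩
  have hDB : D ⊆ B := connectedComponentIn_subset B w
  have hDc : IsCompact D :=
    ((isCompact_closedBall w (2 * e)).inter_left h.isClosed).of_isClosed_subset
      (Topo.isClosed_component (h.isClosed.inter isClosed_closedBall) w) hDB
  have hz : z ∈ P ∪ D := hvz (P ∪ D) (hP.union hDc)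
    (hPc.union w hwP hwD isPreconnected_connectedComponentIn)
    (union_subset hPK fun a ha => (hDB ha).1) (Or.inl hp) (Or.inr (hV ⟨hvV, hCK hvC⟩))
  rcases hz with hz | hz
  · exact hzP hz
  · have := mem_closedBall.1 (hDB hz).2
    linarith

/-- `Before` is antisymmetric on points joined to `p`. -/
theorem Before.antisymm (h : OpenCase K u) {p z w : ℂ} {S : Set ℂ} (hS : IsCompact S)
    (hSc : IsPreconnected S) (hSK : S ⊆ K) (hp : p ∈ S) (hw : w ∈ S) (h₁ : Before K p z w)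
    (h₂ : Before K p w z) : z = w := by
  have hfin : μH[1] S < ⊤ := by
    have := h.toIsGM.length_lt_top_of_isBounded hS.isBounded
    rwa [inter_eq_right.2 hSK] at this
  obtain ⟨γ, T, hγ⟩ := continuum S hS ⟨⟨p, hp⟩, hSc⟩ hfin p hp w hw
  have hsub : ∀ t ∈ Icc 0 T, IsCompact (γ '' Icc 0 t) ∧ IsPreconnected (γ '' Icc 0 t) ∧
      γ '' Icc 0 t ⊆ K ∧ p ∈ γ '' Icc 0 t ∧ γ t ∈ γ '' Icc 0 t := fun t ht => by
    have hI : Icc 0 t ⊆ Icc 0 T := Icc_subset_Icc_right ht.2
    have hc := hγ.lip.continuousOn.mono hI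
    exact ⟨isCompact_Icc.image_of_continuousOn hc, isPreconnected_Icc.image γ hc,
      (image_subset_iff.2 fun s hs => hSK (hγ.maps (hI hs))), ⟨0, left_mem_Icc.2 ht.1, hγ.source⟩,
      ⟨t, right_mem_Icc.2 ht.1, rfl⟩⟩
  have hT : T ∈ Icc 0 T := right_mem_Icc.2 hγ.nonneg
  obtain ⟨a, b, c, d, e⟩ := hsub T hT
  obtain ⟨t, ht, htz⟩ := h₁ _ a b c d (hγ.target ▸ e)
  obtain ⟨a, b, c, d, e⟩ := hsub t ht
  obtain ⟨s, hs, hsw⟩ := h₂ _ a b c d (htz ▸ e)
  have hsT : s = T := hγ.inj ⟨hs.1, hs.2.trans ht.2⟩ hT (hsw.trans hγ.target.symm)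
  rw [← htz, ← hγ.target, le_antisymm ht.2 (hsT ▸ hs.2)]

/-- A nontrivial connected set has points arbitrarily close to, and different from, each point. -/
theorem exists_near {Q : Set ℂ} (hQ : IsPreconnected Q) (hQn : Q.Nontrivial) {z : ℂ} (hz : z ∈ Q)
    {δ : ℝ} (hδ : 0 < δ) : ∃ q ∈ Q, q ≠ z ∧ dist q z < δ := by
  obtain ⟨b, hb, hbz⟩ := hQn.exists_ne z
  have hd := dist_pos.2 hbz
  have hm : 0 < min (dist b z) (δ / 2) := lt_min hd (by positivity)
  obtain ⟨q, hq, hqd⟩ := hQ.intermediate_value hz hb (f := fun a => dist a z) (by fun_prop)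
    (show min (dist b z) (δ / 2) ∈ Icc (dist z z) (dist b z) from
      ⟨by rw [dist_self]; exact hm.le, min_le_left _ _⟩)
  simp only at hqd
  refine ⟨q, hq, fun e => ?_, ?_⟩
  · rw [e, dist_self] at hqd; linarith
  · have := min_le_right (dist b z) (δ / 2); linarith

end Vale.Agent.P128.Leaf

namespace Vale.Agent.P128

open Leaf in
/-- S14: a connected crack set crossing some circle once has a leaf. -/
theorem leaf (hG : GrowthSpec) (hC : ComponentsSpec) : LeafSpec := by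
  intro K u h hconn x hx R hR hcnt
  have hK := h.isClosed
  obtain ⟨p, hp⟩ := encard_eq_one.1 hcnt
  have hpm : p ∈ K ∩ sphere x R := hp ▸ mem_singleton p
  set C := K ∩ closedBall x R with hCdef
  have hCc : IsCompact C := (isCompact_closedBall x R).inter_left hK
  have hxC : x ∈ C := ⟨hx, mem_closedBall_self hR.le⟩
  -- every point of `C` is joined to `p` inside `C`
  have hjoin : ∀ w ∈ C, ∃ S, IsCompact S ∧ IsPreconnected S ∧ S ⊆ K ∧ p ∈ S ∧ w ∈ S := by
    intro w hw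
    obtain ⟨q, hq, hqw⟩ := (hC K u h.toIsGM).reach x R w hw
    have hqp : q = p := by
      rw [← mem_singleton_iff, ← hp]; exact ⟨(connectedComponentIn_subset _ _ hqw).1, hq⟩
    subst hqp
    exact ⟨connectedComponentIn C w,
      hCc.of_isClosed_subset (Topo.isClosed_component hCc.isClosed w) (connectedComponentIn_subset _ _),
      isPreconnected_connectedComponentIn,
      fun a ha => (connectedComponentIn_subset C w ha).1, hqw, mem_connectedComponentIn hw⟩
  -- a maximal point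
  let r : {w // w ∈ C ∧ Before K p x w} → {w // w ∈ C ∧ Before K p x w} → Prop :=
    fun a b => Before K p a.1 b.1
  obtain ⟨⟨m, hmC, hxm⟩, hmax⟩ := exists_maximal_of_chains_bounded (r := r) (fun c hc => by
    rcases c.eq_empty_or_nonempty with rfl | hne
    · exact ⟨⟨x, hxC, Before.refl p x⟩, fun a ha => absurd ha (notMem_empty a)⟩
    have : Nonempty c := hne.to_subtype
    obtain ⟨w, hw⟩ := IsCompact.nonempty_iInter_of_directed_nonempty_isCompact_isClosed
      (fun a : c => {w | w ∈ C ∧ Before K p a.1.1 w})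
      (fun a b => by
        rcases eq_or_ne a.1 b.1 with e | e
        · exact ⟨a, subset_rfl, by rw [Subtype.ext e]⟩
        rcases hc a.2 b.2 e with e' | e'
        · exact ⟨b, fun w hw => ⟨hw.1, e'.trans hw.2⟩, subset_rfl⟩
        · exact ⟨a, subset_rfl, fun w hw => ⟨hw.1, e'.trans hw.2⟩⟩)
      (fun a => ⟨a.1.1, a.1.2.1, Before.refl p _⟩)
      (fun a => hCc.of_isClosed_subset
        (isClosed_after hG h hconn.isPreconnected hCc.isClosed inter_subset_left p _) fun w hw => hw.1)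
      (fun a => isClosed_after hG h hconn.isPreconnected hCc.isClosed inter_subset_left p _)
    simp only [mem_iInter] at hw
    obtain ⟨a, ha⟩ := hne
    exact ⟨⟨w, (hw ⟨a, ha⟩).1, a.2.2.trans (hw ⟨a, ha⟩).2⟩, fun b hb => (hw ⟨b, hb⟩).2⟩)
    fun h₁ h₂ => Before.trans h₁ h₂
  have hlast : ∀ w ∈ C, Before K p m w → w = m := fun w hw hmw => by
    obtain ⟨S, hS, hSc, hSK, hpS, hwS⟩ := hjoin w hw
    exact (Before.antisymm h hS hSc hSK hpS hwS hmw (hmax ⟨w, hw, hxm.trans hmw⟩ hmw)).symm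
  have hmp : m ≠ p := by
    intro e
    have hxp : x = p := hxm {p} isCompact_singleton isPreconnected_singleton
      (singleton_subset_iff.2 hpm.1) (mem_singleton p) (e ▸ mem_singleton p)
    have := mem_sphere.1 hpm.2
    rw [hxp, dist_self] at this
    linarith
  have hmR : dist m x < R := lt_of_le_of_ne (mem_closedBall.1 hmC.2) fun e =>
    hmp (mem_singleton_iff.1 (hp ▸ ⟨hmC.1, e⟩))
  refine ⟨m, hmC.1, ?_⟩
  rintro ⟨Q₁, Q₂, ⟨hQ₁, hQ₁c, hQ₁K, hQ₁n⟩, ⟨hQ₂, hQ₂c, hQ₂K, hQ₂n⟩, hQ⟩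
  have hm : m ∈ Q₁ ∩ Q₂ := hQ ▸ mem_singleton m
  have hside : ∀ Q : Set ℂ, IsPreconnected Q → Q ⊆ K → Q.Nontrivial → m ∈ Q →
      ∃ q ∈ Q, ∃ P, IsCompact P ∧ IsPreconnected P ∧ P ⊆ K ∧ p ∈ P ∧ q ∈ P ∧ m ∉ P := by
    intro Q hQc hQK hQn hmQ
    obtain ⟨q, hq, hqm, hqd⟩ := exists_near hQc hQn hmQ (sub_pos.2 hmR)
    have hqC : q ∈ C := ⟨hQK hq, mem_closedBall.2 (by linarith [dist_triangle q m x])⟩
    by_contra hno
    refine hqm (hlast q hqC fun P hP hPc hPK hpP hqP => ?_)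
    by_contra hmP
    exact hno ⟨q, hq, P, hP, hPc, hPK, hpP, hqP, hmP⟩
  obtain ⟨q₁, hq₁, P₁, hP₁, hP₁c, hP₁K, hpP₁, hq₁P, hmP₁⟩ :=
    hside Q₁ hQ₁c.isPreconnected hQ₁K hQ₁n hm.1
  obtain ⟨q₂, hq₂, P₂, hP₂, hP₂c, hP₂K, hpP₂, hq₂P, hmP₂⟩ :=
    hside Q₂ hQ₂c.isPreconnected hQ₂K hQ₂n hm.2
  have hpre := isPreconnected_inter hG h (hQ₁.union hQ₂) (hP₁.union hP₂)
    (hQ₁c.isPreconnected.union m hm.1 hm.2 hQ₂c.isPreconnected)
    (hP₁c.union p hpP₁ hpP₂ hP₂c) (union_subset hQ₁K hQ₂K) (union_subset hP₁K hP₂K)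
  obtain ⟨z, hz, hz12⟩ := isPreconnected_closed_iff.1 hpre Q₁ Q₂ hQ₁.isClosed hQ₂.isClosed
    inter_subset_left ⟨q₁, ⟨Or.inl hq₁, Or.inl hq₁P⟩, hq₁⟩ ⟨q₂, ⟨Or.inr hq₂, Or.inr hq₂P⟩, hq₂⟩
  rw [hQ, mem_singleton_iff] at hz12
  rcases hz12 ▸ hz.2 with h' | h'
  · exact hmP₁ h'
  · exact hmP₂ h'

end Vale.Agent.P128
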