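import Vale.Agent.P128.Main
import Vale.Agent.P128.Spec2

/-!
# P128: the classification without hypothesis on the complement
-/

open MeasureTheory Set Metric Filter
open scoped ENNReal Topology Real

noncomputable section

namespace Vale.Agent.P128

/-- The classification of all reduced global minimisers, working notion. -/
def ClassificationSpec : Prop :=
  ∀ K u, IsGM K u → (K = ∅ ∧ ∃ c : ℝ, ∀ z, u z = c) ∨
    ((∀ z ∉ K, ∀ w ∈ connectedComponentIn Kᶜ z, u w = u z) ∧ (IsLineSet K ∨ IsTripodSet K)) ∨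
    IsCrackTip K u

theorem gradSq_zero_const {K : Set ℂ} {u : ℂ → ℝ} (h : IsGM K u)
    (hflat : ∀ z ∉ K, gradSq u z = 0) :
    ∀ z ∉ K, ∀ w ∈ connectedComponentIn Kᶜ z, u w = u z := by
  intro z hz w hw
  have hsub : connectedComponentIn Kᶜ z ⊆ Kᶜ := connectedComponentIn_subset _ _
  have hd : DifferentiableOn ℝ u (connectedComponentIn Kᶜ z) :=
    ((h.contDiffOn 1).differentiableOn one_ne_zero).mono hsub
  refine h.isOpen_compl.connectedComponentIn.is_const_of_fderiv_eq_zero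
    isPreconnected_connectedComponentIn hd (fun q hq => ?_) hw (mem_connectedComponentIn hz)
  have h0 := hflat q (hsub hq)
  unfold gradSq at h0
  obtain ⟨h1, h2⟩ := (add_eq_zero_iff_of_nonneg (sq_nonneg _) (sq_nonneg _)).1 h0
  rw [pow_eq_zero_iff two_ne_zero] at h1 h2
  ext v
  have hv : v = v.re • (1 : ℂ) + v.im • Complex.I := by simp [Complex.real_smul]
  rw [hv, map_add, map_smul, map_smul, h1, h2]
  simp

theorem classification_of (hOpen : OpenClassificationSpec) (hDis : DisconnectedSpec) :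
    ClassificationSpec := by
  intro K u h
  by_cases hc : IsPreconnected Kᶜ
  · rcases hOpen K u ⟨h, hc⟩ with h1 | h1
    · exact Or.inl h1
    · exact Or.inr (Or.inr h1)
  · obtain ⟨hflat, hg⟩ := hDis K u h hc
    exact Or.inr (Or.inl ⟨gradSq_zero_const h hflat, hg⟩)

/-- The classification for the problem's notion. -/
theorem pairClassificationAll (hBridge : BridgeSpec) (hC : ClassificationSpec) (P : Pair)
    (hmin : IsGlobalMinimizer P) (hred : IsReduced P.K) :
    (P.K = ∅ ∧ ∃ c : ℝ, ∀ᵐ z, P.u z = c) ∨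
      ((∀ z ∉ P.K, ∃ c : ℝ, ∀ᵐ w, w ∈ connectedComponentIn P.Kᶜ z → P.u w = c) ∧
        (IsLineSet P.K ∨ IsTripodSet P.K)) ∨
      ∃ a θ k, ∃ s : ℝ, (s = 1 ∨ s = -1) ∧ P.K = ray a (θ + π) ∧
        ∀ᵐ z, P.u z = crackTip a θ k s z := by
  obtain ⟨u, hu, hae⟩ := hBridge P hmin hred
  rcases hC P.K u hu with ⟨hK, c, hc⟩ | ⟨hloc, hg⟩ | ⟨a, θ, k, s, hs, hK, hc⟩
  · exact Or.inl ⟨hK, c, hae.mono fun z hz => by rw [hz, hc]⟩
  · refine Or.inr (Or.inl ⟨fun z hz => ⟨u z, ?_⟩, hg⟩)
    filter_upwards [hae] with w hw hmem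
    rw [hw, hloc z hz w hmem]
  · refine Or.inr (Or.inr ⟨a, θ, k, s, hs, hK, ?_⟩)
    have hout : ∀ᵐ z, z ∉ P.K := measure_eq_zero_iff_ae_notMem.1 hu.volume_eq_zero
    filter_upwards [hae, hout] with z hz hzK
    rw [hz, hc z hzK]

end Vale.Agent.P128
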