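import Vale.Agent.P128.Spec
import Vale.Agent.P128.Circle.Eilenberg

/-!
# P128 piece C: Eilenberg and coarea inequalities
-/

open MeasureTheory Set Filter Metric
open scoped Topology ENNReal NNReal Real

noncomputable section

namespace Vale.Agent.P128

/-! ## Counting points on circles -/

/-- Radii with at least `n + 1` points that are `1/(m+1)`-separated and within distance `j`. -/
def countSet (K : Set ℂ) (x : ℂ) (n m j : ℕ) : Set ℝ :=
  (fun f : Fin (n + 1) → ℂ => dist (f 0) x) ''
    {f | (∀ i, f i ∈ K ∩ closedBall x j) ∧ (∀ i, dist (f i) x = dist (f 0) x) ∧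
      ∀ i k, i ≠ k → 1 / ((m : ℝ) + 1) ≤ dist (f i) (f k)}

theorem countSet_isCompact {K : Set ℂ} (hK : IsClosed K) (x : ℂ) (n m j : ℕ) :
    IsCompact (countSet K x n m j) := by
  refine IsCompact.image ?_ (by fun_prop)
  have hc : IsCompact (Set.pi univ fun _ : Fin (n + 1) => K ∩ closedBall x (j : ℝ)) :=
    isCompact_univ_pi fun _ => (isCompact_closedBall x (j : ℝ)).inter_left hK
  refine hc.of_isClosed_subset ?_ fun f hf i _ => hf.1 i
  simp only [ofPred_and, ofPred_forall]
  exact (isClosed_iInter fun i => (hK.inter isClosed_closedBall).preimage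
    (continuous_apply i)).inter
    ((isClosed_iInter fun i => isClosed_eq (by fun_prop) (by fun_prop)).inter
      (isClosed_iInter fun i => isClosed_iInter fun k => isClosed_iInter fun _ =>
        isClosed_le continuous_const (by fun_prop)))

theorem succ_le_cnt_iff {K : Set ℂ} {x : ℂ} {r : ℝ} {n : ℕ} :
    ((n + 1 : ℕ) : ℕ∞) ≤ cnt K x r ↔ ∃ m j, r ∈ countSet K x n m j := by
  constructor
  · intro h
    obtain ⟨T, hT, hTc⟩ := Set.exists_subset_encard_eq h
    have hfin : T.Finite := finite_of_encard_eq_coe hTc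
    have hcard : hfin.toFinset.card = n + 1 := by
      rw [hfin.encard_eq_coe_toFinset_card] at hTc; exact_mod_cast hTc
    set e := (hfin.toFinset.equivFinOfCardEq hcard).symm with he
    set f : Fin (n + 1) → ℂ := fun i => (e i : ℂ) with hf
    have hmem : ∀ i, f i ∈ K ∩ sphere x r := fun i => hT (hfin.mem_toFinset.1 (e i).2)
    have hr : ∀ i, dist (f i) x = r := fun i => (hmem i).2
    have hev : ∀ᶠ m : ℕ in atTop, ∀ p : Fin (n + 1) × Fin (n + 1), p.1 ≠ p.2 →
        1 / ((m : ℝ) + 1) ≤ dist (f p.1) (f p.2) := by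
      refine eventually_all.2 fun p => ?_
      by_cases hp : p.1 = p.2
      · exact .of_forall fun m h' => absurd hp h'
      · have hne : f p.1 ≠ f p.2 := fun h' => hp (e.injective (Subtype.ext h'))
        exact ((tendsto_one_div_add_atTop_nhds_zero_nat (𝕜 := ℝ)).eventually
          (ge_mem_nhds (dist_pos.2 hne))).mono fun m hm _ => hm
    obtain ⟨m, hm⟩ := hev.exists
    exact ⟨m, ⌈r⌉₊, f, ⟨fun i => ⟨(hmem i).1, mem_closedBall.2 ((hr i).le.trans (Nat.le_ceil r))⟩,
      fun i => by rw [hr i, hr 0], fun i k hik => hm (i, k) hik⟩, hr 0⟩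
  · rintro ⟨m, j, f, ⟨h1, h2, h3⟩, h4⟩
    have hinj : Function.Injective f := by
      intro i k hik
      by_contra hne
      have := h3 i k hne
      rw [hik, dist_self] at this
      have : (0 : ℝ) < 1 / ((m : ℝ) + 1) := by positivity
      linarith
    have hsub : range f ⊆ K ∩ sphere x r :=
      range_subset_iff.2 fun i => ⟨(h1 i).1, mem_sphere.2 ((h2 i).trans h4)⟩
    refine le_trans ?_ (encard_le_encard hsub)
    rw [← image_univ, hinj.encard_image, encard_univ]
    simp

theorem measurable_cnt {K : Set ℂ} (hK : IsClosed K) (x : ℂ) :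
    Measurable fun r : ℝ => (cnt K x r : ℝ≥0∞) := by
  have hset : ∀ n : ℕ, MeasurableSet {r : ℝ | ((n + 1 : ℕ) : ℕ∞) ≤ cnt K x r} := by
    intro n
    have : {r : ℝ | ((n + 1 : ℕ) : ℕ∞) ≤ cnt K x r} = ⋃ m, ⋃ j, countSet K x n m j := by
      ext r; simp only [mem_ofPred_eq, mem_iUnion]; exact succ_le_cnt_iff
    rw [this]
    exact .iUnion fun m => .iUnion fun j => (countSet_isCompact hK x n m j).measurableSet
  have heq : (fun r : ℝ => (cnt K x r : ℝ≥0∞)) = fun r =>
      ⨆ n : ℕ, {r : ℝ | ((n + 1 : ℕ) : ℕ∞) ≤ cnt K x r}.indicator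
        (fun _ => ((n + 1 : ℕ) : ℝ≥0∞)) r := by
    funext r
    refine le_antisymm ?_ (iSup_le fun n => ?_)
    · cases hc : cnt K x r with
      | top =>
        refine le_of_forall_lt fun c hc' => ?_
        obtain ⟨n, hn⟩ := ENNReal.exists_nat_gt hc'.ne_top
        refine hn.trans_le (le_iSup_of_le n ?_)
        rw [indicator_of_mem (by simp [hc])]
        exact_mod_cast Nat.le_succ n
      | coe k =>
        rcases k with _ | k
        · simp
        · refine le_iSup_of_le k ?_
          rw [indicator_of_mem (by simp [hc])]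
          simp
    · refine indicator_apply_le' (fun h => ?_) (fun _ => zero_le)
      have := ENat.toENNReal_le.2 h
      simpa using this
  rw [heq]
  exact .iSup fun n => measurable_const.indicator (hset n)

/-- Piece C, first half. -/
theorem eilenbergSpec : EilenbergSpec := by
  intro K hK x
  refine ⟨measurable_cnt hK x, fun a b _ => ?_⟩
  set K' := K ∩ (ball x b \ closedBall x a)
  refine le_trans ?_ (eilenberg_dist x K')
  rw [← lintegral_indicator measurableSet_Ioo]
  refine lintegral_mono fun r => ?_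
  refine indicator_apply_le' (fun hr => ?_) (fun _ => zero_le)
  refine ENat.toENNReal_le.2 (encard_le_encard fun z hz => ⟨⟨hz.1, ?_, ?_⟩, hz.2⟩)
  · exact mem_ball.2 (hz.2.trans_lt hr.2)
  · exact fun h => absurd (mem_closedBall.1 h) (not_le.2 (hr.1.trans_eq (mem_sphere.1 hz.2).symm))

/-! ## Coarea -/

theorem norm_fderiv_le_sqrt_gradSq (f : ℂ → ℝ) (z : ℂ) :
    ‖fderiv ℝ f z‖ ≤ Real.sqrt (gradSq f z) := by
  refine ContinuousLinearMap.opNorm_le_bound _ (Real.sqrt_nonneg _) fun v => ?_
  have hv : fderiv ℝ f z v = v.re * fderiv ℝ f z 1 + v.im * fderiv ℝ f z Complex.I := by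
    conv_lhs => rw [show v = v.re • (1 : ℂ) + v.im • Complex.I by simp]
    rw [map_add, map_smul, map_smul, smul_eq_mul, smul_eq_mul]
  have hn : ‖v‖ = Real.sqrt (v.re ^ 2 + v.im ^ 2) := by
    rw [Complex.norm_def, Complex.normSq_apply]; ring_nf
  rw [hn, gradSq, ← Real.sqrt_mul (by positivity), Real.norm_eq_abs, hv]
  refine Real.abs_le_sqrt ?_
  nlinarith [sq_nonneg (v.re * fderiv ℝ f z Complex.I - v.im * fderiv ℝ f z 1)]

/-- Index of the square of side `h` containing `z`. -/
def sqIdx (h : ℝ) (z : ℂ) : ℤ × ℤ := (⌊z.re / h⌋, ⌊z.im / h⌋)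

/-- The half-open square of side `h` with index `p`. -/
def square (h : ℝ) (p : ℤ × ℤ) : Set ℂ :=
  Complex.measurableEquivRealProd ⁻¹'
    (Ico (p.1 * h) ((p.1 + 1) * h) ×ˢ Ico (p.2 * h) ((p.2 + 1) * h))

theorem mem_square {h : ℝ} {p : ℤ × ℤ} {z : ℂ} : z ∈ square h p ↔
    (p.1 * h ≤ z.re ∧ z.re < (p.1 + 1) * h) ∧ p.2 * h ≤ z.im ∧ z.im < (p.2 + 1) * h := by
  simp [square, Complex.measurableEquivRealProd]

theorem mem_square_iff {h : ℝ} (hh : 0 < h) {p : ℤ × ℤ} {z : ℂ} :
    z ∈ square h p ↔ sqIdx h z = p := by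
  rw [mem_square, sqIdx, Prod.ext_iff, Int.floor_eq_iff, Int.floor_eq_iff, le_div_iff₀ hh,
    div_lt_iff₀ hh, le_div_iff₀ hh, div_lt_iff₀ hh]

theorem measurableSet_square (h : ℝ) (p : ℤ × ℤ) : MeasurableSet (square h p) :=
  Complex.measurableEquivRealProd.measurable (measurableSet_Ico.prod measurableSet_Ico)

theorem volume_square (h : ℝ) (p : ℤ × ℤ) :
    volume (square h p) = ENNReal.ofReal h * ENNReal.ofReal h := by
  rw [square, Complex.volume_preserving_equiv_real_prod.measure_preimage
    (measurableSet_Ico.prod measurableSet_Ico).nullMeasurableSet, Measure.volume_eq_prod,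
    Measure.prod_prod, Real.volume_Ico, Real.volume_Ico]
  ring_nf

theorem convex_square (h : ℝ) (p : ℤ × ℤ) : Convex ℝ (square h p) := by
  have e : square h p = Complex.reLm ⁻¹' Ico (p.1 * h) ((p.1 + 1) * h) ∩
      Complex.imLm ⁻¹' Ico (p.2 * h) ((p.2 + 1) * h) := by
    ext z; simp [mem_square]
  rw [e]
  exact ((convex_Ico _ _).linear_preimage _).inter ((convex_Ico _ _).linear_preimage _)

theorem dist_le_of_mem_square {h : ℝ} {p : ℤ × ℤ} {z w : ℂ} (hz : z ∈ square h p)
    (hw : w ∈ square h p) : dist z w ≤ 2 * h := by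
  rw [mem_square] at hz hw
  rw [Complex.dist_eq]
  refine (Complex.norm_le_abs_re_add_abs_im _).trans ?_
  have h1 : |(z - w).re| ≤ h := by rw [Complex.sub_re, abs_le]; constructor <;> linarith
  have h2 : |(z - w).im| ≤ h := by rw [Complex.sub_im, abs_le]; constructor <;> linarith
  linarith

theorem finite_sqIdx_image {h : ℝ} (hh : 0 < h) {S : Set ℂ} (hS : IsCompact S) :
    (sqIdx h '' S).Finite := by
  obtain ⟨R, hR⟩ := hS.isBounded.subset_closedBall 0
  refine (finite_Icc ((⌊-R / h⌋, ⌊-R / h⌋) : ℤ × ℤ) (⌊R / h⌋, ⌊R / h⌋)).subset ?_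
  rintro _ ⟨z, hz, rfl⟩
  have hn : ‖z‖ ≤ R := by simpa using hR hz
  have h1 := abs_le.1 ((Complex.abs_re_le_norm z).trans hn)
  have h2 := abs_le.1 ((Complex.abs_im_le_norm z).trans hn)
  refine ⟨⟨?_, ?_⟩, ?_, ?_⟩ <;> simp only [sqIdx] <;>
    refine Int.floor_le_floor ?_ <;> gcongr <;> linarith [h1.1, h1.2, h2.1, h2.2]

/-- Coarea inequality on a compact subset. -/
theorem coarea_compact {U S : Set ℂ} {f : ℂ → ℝ} (hU : IsOpen U) (hf : ContDiffOn ℝ 1 f U)
    (hS : IsCompact S) (hSU : S ⊆ U) :
    ∃ g : ℝ → ℝ≥0∞, Measurable g ∧ (∀ c, μH[1] (S ∩ f ⁻¹' {c}) ≤ g c) ∧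
      ∫⁻ c, g c ≤ 4 * ∫⁻ z in U, ENNReal.ofReal (Real.sqrt (gradSq f z)) := by
  classical
  obtain ⟨δ, hδ, hδU⟩ := hS.exists_cthickening_subset_open hU hSU
  set S' := cthickening δ S
  have hS' : IsCompact S' := hS.cthickening
  set φ : ℂ → ℝ := fun z => Real.sqrt (gradSq f z) with hφ
  have hφc : ContinuousOn φ U := by
    have h1 := hf.continuousOn_fderiv_of_isOpen hU le_rfl
    exact (((h1.clm_apply continuousOn_const).pow 2).add
      ((h1.clm_apply continuousOn_const).pow 2)).sqrt
  set h : ℕ → ℝ := fun n => 1 / ((n : ℝ) + 1) with hh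
  have hpos : ∀ n, 0 < h n := fun n => by positivity
  have hlim : Tendsto h atTop (𝓝 0) := tendsto_one_div_add_atTop_nhds_zero_nat
  set P : ℕ → Finset (ℤ × ℤ) := fun n => (finite_sqIdx_image (hpos n) hS).toFinset with hP
  set G : ℕ → ℝ → ℝ≥0∞ := fun n c => ∑ p ∈ P n,
    ENNReal.ofReal (2 * h n) * (closure (f '' square (h n) p)).indicator 1 c with hG
  have hGm : ∀ n, Measurable (G n) := fun n => Finset.measurable_sum _ fun p _ =>
    (measurable_one.indicator isClosed_closure.measurableSet).const_mul _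
  refine ⟨fun c => liminf (fun n => G n c) atTop, Measurable.liminf hGm, fun c => ?_, ?_⟩
  · -- the level set is covered by the traces on the squares
    refine (Measure.hausdorffMeasure_le_liminf_sum (ι := fun n : ℕ => P n) 1 (S ∩ f ⁻¹' {c})
      (fun n => ENNReal.ofReal (2 * h n)) ?_
      (fun n p => square (h n) p ∩ (S ∩ f ⁻¹' {c})) (.of_forall fun n p => ?_)
      (.of_forall fun n z hz => ?_)).trans (liminf_le_liminf (.of_forall fun n => ?_))
    · simpa using ENNReal.tendsto_ofReal (hlim.const_mul 2)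
    · refine (ediam_mono inter_subset_left).trans (ediam_le fun a ha b hb => ?_)
      rw [edist_dist]
      exact ENNReal.ofReal_le_ofReal (dist_le_of_mem_square ha hb)
    · exact mem_iUnion.2 ⟨⟨sqIdx (h n) z, (Finite.mem_toFinset _).2 ⟨z, hz.1, rfl⟩⟩,
        (mem_square_iff (hpos n)).2 rfl, hz⟩
    · rw [hG]
      simp only
      rw [← Finset.sum_coe_sort (P n)]
      refine Finset.sum_le_sum fun p _ => ?_
      rw [ENNReal.rpow_one]
      rcases eq_empty_or_nonempty (square (h n) ↑p ∩ (S ∩ f ⁻¹' {c})) with he | ⟨w, hw, hwc⟩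
      · rw [he, ediam_empty]; exact zero_le
      · have hmem : c ∈ f '' square (h n) p := ⟨w, hw, hwc.2⟩
        rw [indicator_of_mem (subset_closure hmem), Pi.one_apply, mul_one]
        refine (ediam_mono inter_subset_left).trans (ediam_le fun a ha b hb => ?_)
        rw [edist_dist]
        exact ENNReal.ofReal_le_ofReal (dist_le_of_mem_square ha hb)
  -- the integral
  refine le_trans (lintegral_liminf_le hGm) ?_
  set I := ∫⁻ z in U, ENNReal.ofReal (φ z) with hI
  have hmain : ∀ ω : ℝ≥0, 0 < ω → ∀ᶠ n in atTop,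
      ∫⁻ c, G n c ≤ 4 * (I + ω * volume S') := by
    intro ω hω
    have huc := hS'.uniformContinuousOn_of_continuous (hφc.mono hδU)
    obtain ⟨η, hη, hη'⟩ := Metric.uniformContinuousOn_iff.1 huc ω hω
    have h2 : Tendsto (fun n => 2 * h n) atTop (𝓝 0) := by simpa using hlim.const_mul 2
    filter_upwards [h2.eventually (gt_mem_nhds hδ), h2.eventually (gt_mem_nhds hη)] with n hnδ hnη
    have hQS : ∀ p ∈ P n, square (h n) p ⊆ S' := by
      intro p hp w hw
      obtain ⟨z, hz, rfl⟩ := (Finite.mem_toFinset _).1 hp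
      exact mem_cthickening_of_dist_le w z δ S hz
        ((dist_le_of_mem_square hw ((mem_square_iff (hpos n)).2 rfl)).trans hnδ.le)
    have hone : ∀ p ∈ P n, ∫⁻ c, ENNReal.ofReal (2 * h n) *
          (closure (f '' square (h n) p)).indicator (1 : ℝ → ℝ≥0∞) c ≤
        4 * ∫⁻ z in square (h n) p, (ENNReal.ofReal (φ z) + ω) := by
      intro p hp
      rw [lintegral_const_mul _ (measurable_one.indicator isClosed_closure.measurableSet),
        lintegral_indicator_one isClosed_closure.measurableSet]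
      -- diameter of the image, compared with the value at any point of the square
      have hd : ∀ z ∈ square (h n) p, volume (closure (f '' square (h n) p)) ≤
          (ENNReal.ofReal (φ z) + ω) * ENNReal.ofReal (2 * h n) := by
        intro z hz
        refine (Real.volume_le_diam _).trans ((ediam_closure _).le.trans ?_)
        refine ediam_le ?_
        rintro _ ⟨a, ha, rfl⟩ _ ⟨b, hb, rfl⟩
        have hbound : ∀ w ∈ square (h n) p, ‖fderiv ℝ f w‖ ≤ φ z + ω := fun w hw => by
          refine (norm_fderiv_le_sqrt_gradSq f w).trans ?_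
          have := hη' w (hQS p hp hw) z (hQS p hp hz)
            (lt_of_le_of_lt (dist_le_of_mem_square hw hz) hnη)
          rw [Real.dist_eq] at this
          linarith [(abs_le.1 this.le).2]
        have hmv := (convex_square (h n) p).norm_image_sub_le_of_norm_fderiv_le
          (fun w hw => (hf.differentiableOn one_ne_zero).differentiableAt
            (hU.mem_nhds (hδU (hQS p hp hw)))) hbound hb ha
        have hφ0 : 0 ≤ φ z := Real.sqrt_nonneg _
        rw [edist_dist, Real.dist_eq, ← ENNReal.ofReal_coe_nnreal,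
          ← ENNReal.ofReal_add hφ0 ω.coe_nonneg, ← ENNReal.ofReal_mul (add_nonneg hφ0 ω.coe_nonneg)]
        refine ENNReal.ofReal_le_ofReal ?_
        rw [← Real.norm_eq_abs]
        refine hmv.trans (mul_le_mul_of_nonneg_left ?_ (add_nonneg hφ0 ω.coe_nonneg))
        rw [← dist_eq_norm]; exact dist_le_of_mem_square ha hb
      set a := ENNReal.ofReal (h n) with ha
      have h2a : ENNReal.ofReal (2 * h n) = 2 * a := by
        rw [ENNReal.ofReal_mul two_pos.le, ENNReal.ofReal_ofNat]
      rw [h2a] at hd ⊢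
      have ha0 : a ≠ 0 := by rw [ha, Ne, ENNReal.ofReal_eq_zero, not_le]; exact hpos n
      have key : a * a * (2 * a * volume (closure (f '' square (h n) p))) ≤
          a * a * (4 * ∫⁻ z in square (h n) p, (ENNReal.ofReal (φ z) + ω)) := by
        calc a * a * (2 * a * volume (closure (f '' square (h n) p)))
            = ∫⁻ _ in square (h n) p, 2 * a * volume (closure (f '' square (h n) p)) := by
              rw [setLIntegral_const, volume_square]; ring
          _ ≤ ∫⁻ z in square (h n) p, (a * a * 4) * (ENNReal.ofReal (φ z) + ω) := by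
              refine setLIntegral_mono' (measurableSet_square _ _) fun z hz => ?_
              calc 2 * a * volume (closure (f '' square (h n) p))
                  ≤ 2 * a * ((ENNReal.ofReal (φ z) + ω) * (2 * a)) := mul_le_mul_right (hd z hz) _
                _ = _ := by ring
          _ = _ := by
              rw [lintegral_const_mul' _ _ (by simp [ha, ENNReal.mul_eq_top])]; ring
      exact (ENNReal.mul_le_mul_iff_right (mul_ne_zero ha0 ha0)
        (by simp [ha, ENNReal.mul_eq_top])).1 key
    calc ∫⁻ c, G n c = ∑ p ∈ P n, ∫⁻ c, ENNReal.ofReal (2 * h n) *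
          (closure (f '' square (h n) p)).indicator (1 : ℝ → ℝ≥0∞) c :=
          lintegral_finsetSum _ fun p _ =>
            (measurable_one.indicator isClosed_closure.measurableSet).const_mul _
      _ ≤ ∑ p ∈ P n, 4 * ∫⁻ z in square (h n) p, (ENNReal.ofReal (φ z) + ω) :=
          Finset.sum_le_sum hone
      _ = 4 * ∫⁻ z in ⋃ p ∈ P n, square (h n) p, (ENNReal.ofReal (φ z) + ω) := by
          rw [lintegral_biUnion_finset ?_ (fun p _ => measurableSet_square _ _), Finset.mul_sum]
          intro p _ q _ hpq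
          exact disjoint_left.2 fun z h1 h2 => hpq
            (((mem_square_iff (hpos n)).1 h1).symm.trans ((mem_square_iff (hpos n)).1 h2))
      _ ≤ 4 * ∫⁻ z in S', (ENNReal.ofReal (φ z) + ω) :=
          mul_le_mul_right (lintegral_mono_set (iUnion₂_subset hQS)) _
      _ ≤ 4 * (I + ω * volume S') := by
          rw [lintegral_add_right _ measurable_const, setLIntegral_const]
          exact mul_le_mul_right (add_le_add (lintegral_mono_set hδU) le_rfl) _
  have hfinS : volume S' ≠ ⊤ := hS'.measure_ne_top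
  have hlimit : Tendsto (fun k : ℕ => 4 * (I + (((k : ℝ≥0) + 1)⁻¹ : ℝ≥0) * volume S')) atTop
      (𝓝 (4 * I)) := by
    have h0 : Tendsto (fun k : ℕ => ((((k : ℝ≥0) + 1)⁻¹ : ℝ≥0) : ℝ≥0∞)) atTop (𝓝 0) := by
      rw [← ENNReal.coe_zero, ENNReal.tendsto_coe]
      exact tendsto_one_div_add_atTop_nhds_zero_nat.congr fun k => one_div _
    have h1 := ENNReal.Tendsto.mul_const h0 (Or.inr hfinS)
    rw [zero_mul] at h1
    have h2 := (tendsto_const_nhds (x := I)).add h1
    rw [add_zero] at h2
    exact ENNReal.Tendsto.const_mul h2 (Or.inr (by simp))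
  exact ge_of_tendsto hlimit (.of_forall fun k =>
    liminf_le_of_frequently_le' (hmain ((k : ℝ≥0) + 1)⁻¹ (by positivity)).frequently)

/-- Piece C, second half. -/
theorem coareaSpec : CoareaSpec := by
  refine ⟨4, by norm_num, fun U f hU hf => ?_⟩
  obtain ⟨F, hFc, hFU, hFun, hFmono⟩ := hU.exists_iUnion_isClosed
  set S : ℕ → Set ℂ := fun k => F k ∩ closedBall 0 k with hS
  have hSmono : Monotone S := fun i j hij =>
    inter_subset_inter (hFmono hij) (closedBall_subset_closedBall (by exact_mod_cast hij))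
  have hSun : ⋃ k, S k = U := by
    refine (iUnion_subset fun k => inter_subset_left.trans (hFU k)).antisymm fun z hz => ?_
    rw [← hFun, mem_iUnion] at hz
    obtain ⟨i, hi⟩ := hz
    refine mem_iUnion.2 ⟨max i ⌈‖z‖⌉₊, hFmono (le_max_left _ _) hi, ?_⟩
    rw [mem_closedBall, dist_zero_right]
    exact (Nat.le_ceil _).trans (by exact_mod_cast le_max_right i ⌈‖z‖⌉₊)
  choose g hgm hg hgi using fun k : ℕ => coarea_compact hU hf
    ((isCompact_closedBall (0 : ℂ) (k : ℝ)).inter_left (hFc k))
    (inter_subset_left.trans (hFU k))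
  refine ⟨fun c => liminf (fun k => g k c) atTop, Measurable.liminf hgm, fun c => ?_, ?_⟩
  · have hm : Monotone fun k => S k ∩ f ⁻¹' {c} := fun i j hij =>
      inter_subset_inter_left _ (hSmono hij)
    rw [← hSun, iUnion_inter, hm.measure_iUnion]
    calc ⨆ k, μH[1] (S k ∩ f ⁻¹' {c})
        = liminf (fun k => μH[1] (S k ∩ f ⁻¹' {c})) atTop :=
          (tendsto_atTop_iSup (fun i j hij => measure_mono (hm hij))).liminf_eq.symm
      _ ≤ _ := liminf_le_liminf (.of_forall fun k => hg k c)
  · refine (lintegral_liminf_le hgm).trans (liminf_le_of_frequently_le' (Frequently.of_forall ?_))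
    intro k
    rw [ENNReal.ofReal_ofNat]
    exact hgi k

end Vale.Agent.P128
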