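import Mathlib

/-!
# P128, piece J: real analysis for the monotonicity of `D(r)/r`
-/

open MeasureTheory Set Filter
open scoped Topology

noncomputable section

namespace Vale.Agent.P128.Mono

/-- If `D' ≥ D/r - w`, then `D/r` decreases by at most `(∫ w)/a` on `[a, b]`. -/
theorem ratio_lower {D S w : ℝ → ℝ} {a b : ℝ} (ha : 0 < a) (hab : a ≤ b)
    (hS : IntervalIntegrable S volume a b)
    (hD : ∀ r ∈ Icc a b, D r = D a + ∫ s in a..r, S s)
    (hw : IntervalIntegrable w volume a b) (hw0 : ∀ r, 0 ≤ w r)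
    (hineq : ∀ᵐ r : ℝ, r ∈ Icc a b → D r / r - w r ≤ S r) :
    D a / a - (∫ s in a..b, w s) / a ≤ D b / b := by
  have hDc : ContinuousOn D (Icc a b) := by
    have h1 := intervalIntegral.continuousOn_primitive_interval' hS left_mem_uIcc
    rw [uIcc_of_le hab] at h1
    exact (continuousOn_const.add h1).congr fun r hr => hD r hr
  have hqc : ContinuousOn (fun s => D s / s) (Icc a b) :=
    hDc.div continuousOn_id fun s hs => (lt_of_lt_of_le ha hs.1).ne'
  have hq : IntervalIntegrable (fun s => D s / s) volume a b := hqc.intervalIntegrable_of_Icc hab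
  set W := ∫ s in a..b, w s with hW
  set G : ℝ → ℝ := fun r => ∫ s in a..r, D s / s with hG
  have hW0 : ∀ r ∈ Icc a b, ∫ s in a..r, w s ≤ W := by
    intro r hr
    exact intervalIntegral.integral_mono_interval le_rfl hr.1 hr.2
      (ae_of_all _ hw0) hw
  have hlow : ∀ r ∈ Icc a b, D a + G r - W ≤ D r := by
    intro r hr
    have hsub : uIcc a r ⊆ uIcc a b := by
      rw [uIcc_of_le hr.1, uIcc_of_le hab]; exact Icc_subset_Icc_right hr.2
    have hae : ∀ᵐ s ∂volume.restrict (Icc a r), D s / s - w s ≤ S s := by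
      rw [ae_restrict_iff' measurableSet_Icc]
      filter_upwards [hineq] with s hs h2
      exact hs ⟨h2.1, h2.2.trans hr.2⟩
    have h1 : ∫ s in a..r, (D s / s - w s) ≤ ∫ s in a..r, S s :=
      intervalIntegral.integral_mono_ae_restrict hr.1
        ((hq.mono_set hsub).sub (hw.mono_set hsub)) (hS.mono_set hsub) hae
    rw [intervalIntegral.integral_sub (hq.mono_set hsub) (hw.mono_set hsub)] at h1
    simp only [hG]
    linarith [hW0 r hr, hD r hr]
  have hGc : ContinuousOn G (Icc a b) := by
    have h1 := intervalIntegral.continuousOn_primitive_interval' hq left_mem_uIcc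
    rwa [uIcc_of_le hab] at h1
  have hmono : MonotoneOn (fun r => (D a + G r - W) / r) (Icc a b) := by
    refine monotoneOn_of_hasDerivWithinAt_nonneg (convex_Icc a b)
      (((continuousOn_const.add hGc).sub continuousOn_const).div continuousOn_id
        fun s hs => (lt_of_lt_of_le ha hs.1).ne')
      (f' := fun r => (D r / r * r - (D a + G r - W) * 1) / r ^ 2) (fun r hr => ?_) (fun r hr => ?_)
    · rw [interior_Icc] at hr
      have hr0 : r ≠ 0 := (lt_trans ha hr.1).ne'
      have hd : HasDerivAt G (D r / r) r := by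
        refine intervalIntegral.integral_hasDerivAt_right (hq.mono_set ?_) ?_
          (hqc.continuousAt (Icc_mem_nhds hr.1 hr.2))
        · rw [uIcc_of_le hr.1.le, uIcc_of_le hab]; exact Icc_subset_Icc_right hr.2.le
        · exact (hqc.mono Ioo_subset_Icc_self).stronglyMeasurableAtFilter isOpen_Ioo r hr
      exact ((((hd.const_add (D a)).sub_const W).div (hasDerivAt_id r) hr0)).hasDerivWithinAt
    · rw [interior_Icc] at hr
      have hr0 : r ≠ 0 := (lt_trans ha hr.1).ne'
      refine div_nonneg ?_ (sq_nonneg r)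
      rw [div_mul_cancel₀ _ hr0, mul_one]
      linarith [hlow r ⟨hr.1.le, hr.2.le⟩]
  have h1 := hmono (left_mem_Icc.2 hab) (right_mem_Icc.2 hab) hab
  have h2 : (D a + G b - W) / b ≤ D b / b :=
    div_le_div_of_nonneg_right (hlow b (right_mem_Icc.2 hab)) (le_trans ha.le hab)
  have h3 : (D a + G a - W) / a = D a / a - W / a := by
    simp [hG, sub_div]
  simp only at h1
  linarith

/-- A bounded function with `y b ≥ y a - C a^(-δ)` on doubling blocks has a limit at infinity. -/
theorem exists_limit {y : ℝ → ℝ} {C B δ : ℝ} (hC : 0 ≤ C) (hδ : 0 < δ)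
    (hy : ∀ r, 0 < r → y r ∈ Icc 0 B)
    (hblock : ∀ a b : ℝ, 1 ≤ a → a ≤ b → b ≤ 2 * a → y a - C * a ^ (-δ) ≤ y b) :
    ∃ L, 0 ≤ L ∧ Tendsto y atTop (𝓝 L) := by
  set q : ℝ := (2 : ℝ) ^ (-δ) with hq
  have hq0 : 0 < q := by positivity
  have hq1 : q < 1 := Real.rpow_lt_one_of_one_lt_of_neg one_lt_two (by linarith)
  set e : ℝ → ℝ := fun a => C / (1 - q) * a ^ (-δ) with he
  have he0 : ∀ a, 1 ≤ a → 0 ≤ e a := fun a ha =>
    mul_nonneg (div_nonneg hC (by linarith)) (Real.rpow_nonneg (by linarith) _)
  have key : ∀ k : ℕ, ∀ a b : ℝ, 1 ≤ a → a ≤ b → b ≤ a * 2 ^ k → y a - e a ≤ y b := by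
    intro k
    induction k with
    | zero =>
      intro a b ha hab hb
      obtain rfl : a = b := le_antisymm hab (by simpa using hb)
      linarith [he0 a ha]
    | succ k ih =>
      intro a b ha hab hb
      have hCe : C * a ^ (-δ) ≤ e a := by
        refine mul_le_mul_of_nonneg_right ?_ (Real.rpow_nonneg (by linarith) _)
        rw [le_div_iff₀ (by linarith)]
        nlinarith
      rcases le_or_gt b (2 * a) with h | h
      · linarith [hblock a b ha hab h]
      · have h2 := ih (2 * a) b (by linarith) h.le (by rw [pow_succ] at hb; linarith)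
        have h1 := hblock a (2 * a) ha (by linarith) le_rfl
        have h3 : e (2 * a) = q * e a := by
          simp only [he]
          rw [Real.mul_rpow (by norm_num) (by linarith), hq]
          ring
        have h4 : C * a ^ (-δ) + q * e a = e a := by
          simp only [he]
          field_simp [show (1 - q) ≠ 0 by linarith]
          ring
        linarith
  have key' : ∀ a b : ℝ, 1 ≤ a → a ≤ b → y a - e a ≤ y b := by
    intro a b ha hab
    obtain ⟨k, hk⟩ := pow_unbounded_of_one_lt b one_lt_two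
    exact key k a b ha hab (hk.le.trans (le_mul_of_one_le_left (by positivity) ha))
  have hne : (((fun a => y a - e a) '' Ici 1)).Nonempty := ⟨_, 1, self_mem_Ici, rfl⟩
  have hbd : BddAbove ((fun a => y a - e a) '' Ici 1) := by
    refine ⟨B, ?_⟩
    rintro _ ⟨a, ha, rfl⟩
    have ha1 : (1 : ℝ) ≤ a := ha
    linarith [he0 a ha1, (hy a (by linarith)).2]
  set L := sSup ((fun a => y a - e a) '' Ici 1) with hL
  have hlim : Tendsto y atTop (𝓝 L) := by
    rw [Metric.tendsto_atTop]
    intro ε hε
    obtain ⟨_, ⟨a, ha, rfl⟩, hlt⟩ := exists_lt_of_lt_csSup hne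
      (show L - ε < sSup ((fun a => y a - e a) '' Ici 1) by rw [← hL]; linarith)
    have he' : Tendsto e atTop (𝓝 0) := by
      simpa [he] using (tendsto_rpow_neg_atTop hδ).const_mul (C / (1 - q))
    obtain ⟨b0, hb0⟩ := eventually_atTop.1 (he'.eventually_lt_const hε)
    refine ⟨max (max a b0) 1, fun b hb => ?_⟩
    simp only [max_le_iff] at hb
    have h1 := key' a b ha hb.1.1
    have h2 : y b - e b ≤ L := le_csSup hbd ⟨b, hb.2, rfl⟩
    rw [Real.dist_eq, abs_lt]
    constructor
    · linarith
    · linarith [hb0 b hb.1.2]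
  exact ⟨L, ge_of_tendsto hlim ((eventually_gt_atTop 0).mono fun r hr => (hy r hr).1), hlim⟩

end Vale.Agent.P128.Mono
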