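import Vale.Agent.P128.Spec
import Vale.Agent.P128.MonoAux

/-!
# P128, piece J: monotonicity of `D(r)/r` and near equality at the ends
-/

open MeasureTheory Set Metric Filter
open scoped ENNReal Topology Real

noncomputable section

namespace Vale.Agent.P128

namespace Mono

variable {K : Set ℂ} {u V : ℂ → ℝ} {x : ℂ}

/-- `τ + ρ`, the derivative of `D`. -/
def tr (u : ℂ → ℝ) (x : ℂ) (r : ℝ) : ℝ := tauC u x r + rhoC u x r

theorem tauC_nonneg (u : ℂ → ℝ) (x : ℂ) {r : ℝ} (hr : 0 ≤ r) : 0 ≤ tauC u x r :=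
  intervalIntegral.integral_nonneg (by positivity) fun θ _ => by positivity

theorem rhoC_nonneg (u : ℂ → ℝ) (x : ℂ) {r : ℝ} (hr : 0 ≤ r) : 0 ≤ rhoC u x r :=
  intervalIntegral.integral_nonneg (by positivity) fun θ _ => by positivity

theorem tr_nonneg (u : ℂ → ℝ) (x : ℂ) {r : ℝ} (hr : 0 ≤ r) : 0 ≤ tr u x r :=
  add_nonneg (tauC_nonneg u x hr) (rhoC_nonneg u x hr)

theorem dT_periodic (u : ℂ → ℝ) (x : ℂ) (r : ℝ) : Function.Periodic (dT u x r) (2 * π) := by
  intro θ
  have h1 := periodic_circleMap x r θ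
  have h2 : Complex.exp ((θ + 2 * π : ℝ) * Complex.I) = Complex.exp (θ * Complex.I) := by
    push_cast
    rw [add_mul]
    exact Complex.exp_periodic (θ * Complex.I)
  simp only [dT, h1, h2]

theorem dR_periodic (u : ℂ → ℝ) (x : ℂ) (r : ℝ) : Function.Periodic (dR u x r) (2 * π) := by
  intro θ
  have h1 := periodic_circleMap x r θ
  have h2 : Complex.exp ((θ + 2 * π : ℝ) * Complex.I) = Complex.exp (θ * Complex.I) := by
    push_cast
    rw [add_mul]
    exact Complex.exp_periodic (θ * Complex.I)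
  simp only [dR, h1, h2]

theorem partition_le {r : ℝ} {t : ℕ → ℝ} {m : ℕ} (ht : IsPartition K x r t m) {i : ℕ}
    (hi : i < m) : t i ≤ t (i + 1) ∧ t (i + 1) - t i ≤ 2 * π := by
  obtain ⟨h1, h2, -⟩ := (ht.2.2 i hi).1
  exact ⟨h1.le, by linarith⟩

theorem arcSum_nonneg {r : ℝ} {t : ℕ → ℝ} {m : ℕ} (ht : IsPartition K x r t m) :
    0 ≤ arcSum u x r t m := by
  refine Finset.sum_nonneg fun i hi => mul_nonneg (div_nonneg ?_ Real.pi_pos.le) (Real.sqrt_nonneg _)
  linarith [(partition_le ht (Finset.mem_range.1 hi)).1]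

theorem arcSum_le {r : ℝ} (hg : GoodRadius K u x r) {t : ℕ → ℝ} {m : ℕ}
    (ht : IsPartition K x r t m) : arcSum u x r t m ≤ tr u x r := by
  have hr := hg.pos.le
  have iT : ∀ a b, IntervalIntegrable (fun θ => r * dT u x r θ ^ 2) volume a b := fun a b =>
    (hg.intT a b).const_mul r
  have iR : ∀ a b, IntervalIntegrable (fun θ => r * dR u x r θ ^ 2) volume a b := fun a b =>
    (hg.intR a b).const_mul r
  have hT : ∑ i ∈ Finset.range m, tauArc u x r (t i) (t (i + 1)) = tauC u x r := by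
    simp only [tauArc, tauC]
    rw [intervalIntegral.sum_integral_adjacent_intervals fun k _ => iT _ _, ht.2.1]
    have hp : Function.Periodic (fun θ => r * dT u x r θ ^ 2) (2 * π) := fun θ => by
      simp only [dT_periodic u x r θ]
    simpa using hp.intervalIntegral_add_eq (t 0) 0
  have hR : ∑ i ∈ Finset.range m, rhoArc u x r (t i) (t (i + 1)) = rhoC u x r := by
    simp only [rhoArc, rhoC]
    rw [intervalIntegral.sum_integral_adjacent_intervals fun k _ => iR _ _, ht.2.1]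
    have hp : Function.Periodic (fun θ => r * dR u x r θ ^ 2) (2 * π) := fun θ => by
      simp only [dR_periodic u x r θ]
    simpa using hp.intervalIntegral_add_eq (t 0) 0
  rw [tr, ← hT, ← hR, ← Finset.sum_add_distrib]
  refine Finset.sum_le_sum fun i hi => ?_
  obtain ⟨h1, h2⟩ := partition_le ht (Finset.mem_range.1 hi)
  set A := tauArc u x r (t i) (t (i + 1))
  set B := rhoArc u x r (t i) (t (i + 1))
  have hA : 0 ≤ A := intervalIntegral.integral_nonneg h1 fun θ _ => by positivity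
  have hB : 0 ≤ B := intervalIntegral.integral_nonneg h1 fun θ _ => by positivity
  have hsq : Real.sqrt (A * B) ≤ (A + B) / 2 := by
    rw [Real.sqrt_le_left (by linarith)]
    nlinarith [sq_nonneg (A - B)]
  have hd : (t (i + 1) - t i) / π ≤ 2 := by
    rw [div_le_iff₀ Real.pi_pos]; linarith
  calc (t (i + 1) - t i) / π * Real.sqrt (A * B) ≤ 2 * ((A + B) / 2) :=
        mul_le_mul hd hsq (Real.sqrt_nonneg _) (by norm_num)
    _ = A + B := by ring

/-- A radius at which the circle inequality holds with error `w`. -/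
structure Ok (K : Set ℂ) (u : ℂ → ℝ) (x : ℂ) (w r : ℝ) : Prop where
  good : GoodRadius K u x r
  nonempty : ∃ t m, IsPartition K x r t m
  lower : ∀ t m, IsPartition K x r t m → yrat K u x r - w ≤ arcSum u x r t m

theorem Ok.le_tr {w r : ℝ} (h : Ok K u x w r) : yrat K u x r - w ≤ tr u x r := by
  obtain ⟨t, m, ht⟩ := h.nonempty
  exact (h.lower t m ht).trans (arcSum_le h.good ht)

theorem yrat_mem (hG : GrowthSpec) (h : IsGM K u) {r : ℝ} (hr : 0 < r) :
    yrat K u x r ∈ Icc 0 (2 * π) := by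
  obtain ⟨h1, h2, h3⟩ := (hG K u h x).1 r hr
  refine ⟨div_nonneg h1 hr.le, ?_⟩
  rw [yrat, div_le_iff₀ hr]
  linarith

theorem dir_eq (hG : GrowthSpec) (h : IsGM K u) {a r : ℝ} (ha : 0 < a) (hr : a ≤ r) :
    dir K u x r = dir K u x a + ∫ s in a..r, tr u x s := by
  have := ((hG K u h x).2.2 a r ha.le hr).2
  simp only [tr]
  linarith

theorem tr_integrable (hG : GrowthSpec) (h : IsGM K u) {a b : ℝ} (ha : 0 ≤ a) (hab : a ≤ b) :
    IntervalIntegrable (tr u x) volume a b :=
  ((hG K u h x).2.2 a b ha hab).1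

/-- `y(b) ≥ y(a) - (∫ w)/a`. -/
theorem yrat_lower (hG : GrowthSpec) (h : IsGM K u) {w : ℝ → ℝ} {a b : ℝ} (ha : 0 < a)
    (hab : a ≤ b) (hw : IntervalIntegrable w volume a b) (hw0 : ∀ r, 0 ≤ w r)
    (hok : ∀ᵐ r : ℝ, r ∈ Icc a b → Ok K u x (w r) r) :
    yrat K u x a - (∫ s in a..b, w s) / a ≤ yrat K u x b :=
  ratio_lower ha hab (tr_integrable hG h ha.le hab)
    (fun _ hr => dir_eq hG h ha hr.1) hw hw0
    (hok.mono fun _ hr hmem => (hr hmem).le_tr)

/-- Near equality on a dyadic window in measure. -/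
theorem window (hG : GrowthSpec) (h : IsGM K u) {w : ℝ → ℝ} {R L η δ : ℝ} (hR : 0 < R)
    (hη : 0 < η) (hw : IntervalIntegrable w volume R (2 * R)) (hw0 : ∀ r, 0 ≤ w r)
    (hok : ∀ᵐ r : ℝ, r ∈ Icc R (2 * R) → Ok K u x (w r) r)
    (hy : ∀ r ∈ Icc R (2 * R), |yrat K u x r - L| ≤ δ)
    (hδ : δ ≤ η / 3) :
    volume {r | r ∈ Icc R (2 * R) ∧ ¬NearEq K u x η L r} ≤
      ENNReal.ofReal (3 / η * (4 * δ * R + 2 * ∫ s in R..2 * R, w s)) := by
  have hab : R ≤ 2 * R := by linarith
  have hDc : ContinuousOn (dir K u x) (Icc R (2 * R)) := by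
    have h1 := intervalIntegral.continuousOn_primitive_interval' (tr_integrable (x := x) hG h hR.le hab)
      left_mem_uIcc
    rw [uIcc_of_le hab] at h1
    exact (continuousOn_const.add h1).congr fun r hr => dir_eq hG h hR hr.1
  have hyi : IntervalIntegrable (yrat K u x) volume R (2 * R) :=
    (hDc.div continuousOn_id fun s hs => (lt_of_lt_of_le hR hs.1).ne').intervalIntegrable_of_Icc hab
  have hSi := tr_integrable (x := x) hG h hR.le hab
  set f : ℝ → ℝ := fun r => tr u x r - yrat K u x r + 2 * w r with hf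
  have hfi : IntervalIntegrable f volume R (2 * R) := (hSi.sub hyi).add (hw.const_mul 2)
  have hf0 : ∀ᵐ r ∂volume.restrict (Ioc R (2 * R)), 0 ≤ f r := by
    rw [ae_restrict_iff' measurableSet_Ioc]
    filter_upwards [hok] with r hr hm
    have := (hr (Ioc_subset_Icc_self hm)).le_tr
    simp only [hf]
    linarith [hw0 r]
  have hbad : volume {r | r ∈ Icc R (2 * R) ∧ ¬NearEq K u x η L r} ≤
      (volume.restrict (Ioc R (2 * R))) {r | η / 3 ≤ f r} := by
    have hsub : ∀ᵐ r : ℝ, r ∈ {r | r ∈ Icc R (2 * R) ∧ ¬NearEq K u x η L r} →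
        r ∈ {r | η / 3 ≤ f r} ∩ Ioc R (2 * R) := by
      have hne : ∀ᵐ r : ℝ, r ≠ R := by
        simp [ae_iff]
      filter_upwards [hok, hne] with r hr hne hmem
      obtain ⟨hm, hn⟩ := hmem
      refine ⟨?_, lt_of_le_of_ne hm.1 (Ne.symm hne), hm.2⟩
      by_contra hlt
      simp only [mem_ofPred_eq, not_le, hf] at hlt
      have ho := hr hm
      have h1 := ho.le_tr
      have h2 := abs_le.1 (hy r hm)
      refine hn ⟨ho.good, ?_, fun t m ht => ?_⟩
      · rw [abs_le]
        simp only [tr] at h1 hlt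
        constructor <;> linarith [hw0 r]
      · linarith [ho.lower t m ht, hw0 r]
    rw [Measure.restrict_apply' measurableSet_Ioc]
    exact measure_mono_ae hsub
  refine hbad.trans ?_
  have hfI : Integrable f (volume.restrict (Ioc R (2 * R))) := hfi.1
  have hM := mul_meas_ge_le_integral_of_nonneg hf0 hfI (η / 3)
  have hint : ∫ r in Ioc R (2 * R), f r ≤ 4 * δ * R + 2 * ∫ s in R..2 * R, w s := by
    rw [← intervalIntegral.integral_of_le hab]
    simp only [hf]
    rw [intervalIntegral.integral_add (hSi.sub hyi) (hw.const_mul 2),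
      intervalIntegral.integral_sub hSi hyi, intervalIntegral.integral_const_mul]
    have e1 := dir_eq (x := x) hG h hR hab
    have e2 : (L - δ) * R ≤ ∫ s in R..2 * R, yrat K u x s := by
      have := intervalIntegral.integral_mono_on hab intervalIntegrable_const hyi
        fun s hs => (show L - δ ≤ yrat K u x s by linarith [(abs_le.1 (hy s hs)).1])
      simp at this
      linarith
    have e3 : dir K u x (2 * R) ≤ (L + δ) * (2 * R) := by
      have := (abs_le.1 (hy (2 * R) (right_mem_Icc.2 hab))).2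
      simp only [yrat] at this
      rw [← div_le_iff₀ (by linarith)]
      linarith
    have e4 : (L - δ) * R ≤ dir K u x R := by
      have := (abs_le.1 (hy R (left_mem_Icc.2 hab))).1
      simp only [yrat] at this
      rw [← le_div_iff₀ hR]
      linarith
    linarith
  rw [← ofReal_measureReal]
  refine ENNReal.ofReal_le_ofReal ?_
  rw [div_mul_eq_mul_div, le_div_iff₀ hη]
  linarith [hM.trans hint]

/-- The error majorant on the window `[R, 2R]`, `T` being the threshold for the count. -/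
def maj (K : Set ℂ) (u : ℂ → ℝ) (x : ℂ) (T A r : ℝ) : ℝ :=
  2 * π / T * (cnt K x r : ℝ≥0∞).toReal + A * max (1 + tr u x r) 0

theorem maj_nonneg {T A : ℝ} (hT : 0 ≤ T) (hA : 0 ≤ A) (r : ℝ) : 0 ≤ maj K u x T A r :=
  add_nonneg (mul_nonneg (div_nonneg (by positivity) hT) ENNReal.toReal_nonneg)
    (mul_nonneg hA (le_max_right _ _))

theorem cnt_lintegral_le (hE : EilenbergSpec) (hG : GrowthSpec) (h : IsGM K u) {b : ℝ}
    (hb : 0 < b) {a : ℝ} (ha : 0 ≤ a) :
    ∫⁻ r in Ioc a b, (cnt K x r : ℝ≥0∞) ≤ ENNReal.ofReal (2 * π * b) := by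
  rw [setLIntegral_congr (Ioo_ae_eq_Ioc (μ := volume) (a := a) (b := b)).symm]
  refine ((hE K h.isClosed x).2 a b ha).trans ?_
  obtain ⟨h1, h2, h3⟩ := (hG K u h x).1 b hb
  refine (measure_mono (inter_subset_inter_right K sdiff_subset)).trans ?_
  have hfin : μH[1] (K ∩ ball x b) ≠ ⊤ :=
    ne_top_of_le_ne_top (h.finite x b).ne le_add_self
  rw [← ENNReal.ofReal_toReal hfin]
  refine ENNReal.ofReal_le_ofReal ?_
  simp only [len] at h3
  linarith

theorem maj_integral (hE : EilenbergSpec) (hG : GrowthSpec) (h : IsGM K u) {T A a b : ℝ}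
    (hT : 0 < T) (hA : 0 ≤ A) (ha : 0 < a) (hab : a ≤ b) :
    IntervalIntegrable (maj K u x T A) volume a b ∧
      ∫ r in a..b, maj K u x T A r ≤ 4 * π ^ 2 * b / T + A * (b + 2 * π * b) := by
  have hm : Measurable fun r : ℝ => (cnt K x r : ℝ≥0∞) := (hE K h.isClosed x).1
  have hb : 0 < b := lt_of_lt_of_le ha hab
  have hL := cnt_lintegral_le (x := x) hE hG h hb ha.le
  have hne : ∫⁻ r in Ioc a b, (cnt K x r : ℝ≥0∞) ≠ ⊤ :=
    (hL.trans_lt ENNReal.ofReal_lt_top).ne
  have i1 : IntervalIntegrable (fun r => (cnt K x r : ℝ≥0∞).toReal) volume a b := by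
    rw [intervalIntegrable_iff_integrableOn_Ioc_of_le hab]
    exact integrable_toReal_of_lintegral_ne_top hm.aemeasurable hne
  have hS := tr_integrable (x := x) hG h ha.le hab
  have hmax : ∀ r ∈ Icc a b, max (1 + tr u x r) 0 = 1 + tr u x r := fun r hr =>
    max_eq_left (by linarith [tr_nonneg u x (ha.le.trans hr.1)])
  have i2 : IntervalIntegrable (fun r => max (1 + tr u x r) 0) volume a b := by
    refine ((intervalIntegrable_const (c := (1 : ℝ))).add hS).congr ?_
    intro r hr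
    rw [uIoc_of_le hab] at hr
    exact (hmax r (Ioc_subset_Icc_self hr)).symm
  refine ⟨(i1.const_mul _).add (i2.const_mul A), ?_⟩
  simp only [maj]
  rw [intervalIntegral.integral_add (i1.const_mul _) (i2.const_mul A),
    intervalIntegral.integral_const_mul, intervalIntegral.integral_const_mul]
  have e1 : ∫ r in a..b, (cnt K x r : ℝ≥0∞).toReal ≤ 2 * π * b := by
    rw [intervalIntegral.integral_of_le hab,
      integral_toReal hm.aemeasurable (ae_lt_top hm hne)]
    exact ENNReal.toReal_le_of_le_ofReal (by positivity) hL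
  have e2 : ∫ r in a..b, max (1 + tr u x r) 0 ≤ b + 2 * π * b := by
    rw [intervalIntegral.integral_congr (g := fun r => 1 + tr u x r)
      (fun r hr => hmax r (by rwa [uIcc_of_le hab] at hr)),
      intervalIntegral.integral_add intervalIntegrable_const hS]
    have d1 := dir_eq (x := x) hG h ha hab
    obtain ⟨g1, g2, g3⟩ := (hG K u h x).1 b hb
    have g4 := ((hG K u h x).1 a ha).1
    simp
    linarith
  have := mul_le_mul_of_nonneg_left e1 (show 0 ≤ 2 * π / T by positivity)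
  have := mul_le_mul_of_nonneg_left e2 hA
  have e3 : 2 * π / T * (2 * π * b) = 4 * π ^ 2 * b / T := by ring
  linarith

theorem exists_bound (hC : CompStructure K) (hV : IsStream K u V) :
    ∃ M, 0 ≤ M ∧ ∀ p ∈ K, ∀ q ∈ K, |V p - V q| ≤ M := by
  classical
  choose f hf hfe using fun c : comps K => c.2
  have : Fintype (comps K) := hC.finite.fintype
  have hb : ∀ p ∈ K, ∃ c : comps K, V p = V (f c) := fun p hp => by
    refine ⟨⟨_, p, hp, rfl⟩, ?_⟩
    have e := hfe ⟨_, p, hp, rfl⟩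
    refine hV.const (f ⟨_, p, hp, rfl⟩) (hf _) p ?_
    simp only at e
    rw [e]
    exact mem_connectedComponentIn hp
  refine ⟨2 * ∑ c : comps K, |V (f c)|, by positivity, fun p hp q hq => ?_⟩
  obtain ⟨c, hc⟩ := hb p hp
  obtain ⟨d, hd⟩ := hb q hq
  have h1 := Finset.single_le_sum (f := fun c : comps K => |V (f c)|) (fun i _ => abs_nonneg _)
    (Finset.mem_univ c)
  have h2 := Finset.single_le_sum (f := fun c : comps K => |V (f c)|) (fun i _ => abs_nonneg _)
    (Finset.mem_univ d)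
  rw [hc, hd]
  exact (abs_sub _ _).trans (by linarith)

theorem ok_balanced (hG : GrowthSpec) (hP : PartitionSpec) (hC : ComponentsSpec)
    (hB : EnergyBoundSpec) (h : IsGM K u) (hV : IsStream K u V) (hx : x ∈ K)
    (hb : Balanced K V) : ∀ᵐ r : ℝ, 0 < r → Ok K u x 0 r := by
  obtain ⟨C, -, hB⟩ := hB
  filter_upwards [(hG K u h x).2.1] with r hr hr0
  have hg := hr hr0
  refine ⟨hg, (hP K x r hr0 hg.fin).1 ?_, fun t m ht => ?_⟩
  · have h1 := (hC K u h).meets x hx r hr0
    rw [cnt] at h1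
    exact one_le_encard_iff_nonempty.1 h1
  · have hd := hB K u V h hV x r 0 hg le_rfl (fun p hp q hq => by rw [hb p hp q hq]; simp) t m ht
    rw [Real.zero_rpow (by norm_num), zero_mul, zero_mul, add_zero, mul_zero, add_zero] at hd
    rw [sub_zero, yrat, div_le_iff₀ hr0]
    linarith

theorem ok_general (hG : GrowthSpec) (hP : PartitionSpec) (hC : ComponentsSpec)
    (hB : EnergyBoundSpec) (h : IsGM K u) (hV : IsStream K u V) (hx : x ∈ K) :
    ∃ C : ℝ, 0 ≤ C ∧ ∀ T : ℝ, 1 ≤ T → ∀ R : ℝ, 1 ≤ R →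
      ∀ᵐ r : ℝ, R ≤ r → Ok K u x (maj K u x T (C * T ^ 2 * R ^ (-(1 : ℝ) / 3)) r) r := by
  obtain ⟨C, hC0, hB⟩ := hB
  obtain ⟨M, hM, hMV⟩ := exists_bound (hC K u h) hV
  refine ⟨C * (M + M ^ ((2 : ℝ) / 3)), by positivity, fun T hT R hR => ?_⟩
  filter_upwards [(hG K u h x).2.1] with r hr hRr
  have hr0 : 0 < r := lt_of_lt_of_le (by linarith) hRr
  have hg := hr hr0
  refine ⟨hg, (hP K x r hr0 hg.fin).1 ?_, fun t m ht => ?_⟩
  · have h1 := (hC K u h).meets x hx r hr0
    rw [cnt] at h1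
    exact one_le_encard_iff_nonempty.1 h1
  · have hd := hB K u V h hV x r M hg hM hMV t m ht
    have hm : (cnt K x r : ℝ≥0∞).toReal = (m : ℝ) := by
      rw [← ((hP K x r hr0 hg.fin).2 t m ht).1]
      simp
    have ha := arcSum_nonneg (u := u) ht
    have hy := (yrat_mem (x := x) hG h hr0).2
    have hA : 0 ≤ C * (M + M ^ ((2 : ℝ) / 3)) * T ^ 2 * R ^ (-(1 : ℝ) / 3) := by positivity
    have htr : 0 ≤ tr u x r := tr_nonneg u x hr0.le
    simp only [maj, hm, max_eq_left (show (0 : ℝ) ≤ 1 + tr u x r by linarith)]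
    rcases lt_or_ge T (m : ℝ) with hmT | hmT
    · have h1 : 2 * π ≤ 2 * π / T * m := by
        rw [div_mul_eq_mul_div, le_div_iff₀ (by linarith)]
        exact mul_le_mul_of_nonneg_left hmT.le (by positivity)
      linarith [mul_nonneg hA (show (0 : ℝ) ≤ 1 + tr u x r by linarith)]
    · have hτ : tauC u x r ≤ tr u x r := le_add_of_nonneg_right (rhoC_nonneg u x hr0.le)
      have e1 : Real.sqrt (r * tauC u x r) / r ≤ R ^ (-(1 : ℝ) / 3) * (1 + tr u x r) := by
        rw [Real.sqrt_mul hr0.le]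
        have s1 : Real.sqrt (tauC u x r) ≤ 1 + tr u x r := by
          rw [Real.sqrt_le_left (by linarith)]
          nlinarith
        have s2 : Real.sqrt r / r ≤ R ^ (-(1 : ℝ) / 3) := by
          rw [Real.sqrt_div_self', Real.sqrt_eq_rpow, one_div, ← Real.rpow_neg hr0.le]
          calc r ^ (-(1 / 2 : ℝ)) ≤ R ^ (-(1 / 2 : ℝ)) :=
                Real.rpow_le_rpow_of_nonpos (by linarith) hRr (by norm_num)
            _ ≤ R ^ (-(1 : ℝ) / 3) := Real.rpow_le_rpow_of_exponent_le hR (by norm_num)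
        rw [mul_div_right_comm]
        exact mul_le_mul s2 s1 (Real.sqrt_nonneg _) (by positivity)
      have e2 : r ^ ((2 : ℝ) / 3) / r ≤ R ^ (-(1 : ℝ) / 3) * (1 + tr u x r) := by
        rw [← Real.rpow_sub_one hr0.ne']
        calc r ^ ((2 : ℝ) / 3 - 1) = r ^ (-(1 : ℝ) / 3) := by norm_num
          _ ≤ R ^ (-(1 : ℝ) / 3) :=
              Real.rpow_le_rpow_of_nonpos (by linarith) hRr (by norm_num)
          _ ≤ _ := le_mul_of_one_le_right (by positivity) (by linarith)
      have hdiv : yrat K u x r ≤ arcSum u x r t m + C * (m : ℝ) ^ 2 *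
          (M * (Real.sqrt (r * tauC u x r) / r) + M ^ ((2 : ℝ) / 3) * (r ^ ((2 : ℝ) / 3) / r)) := by
        rw [yrat, div_le_iff₀ hr0]
        refine hd.trans (le_of_eq ?_)
        field_simp
      have h2 : C * (m : ℝ) ^ 2 *
          (M * (Real.sqrt (r * tauC u x r) / r) + M ^ ((2 : ℝ) / 3) * (r ^ ((2 : ℝ) / 3) / r)) ≤
          C * T ^ 2 * ((M + M ^ ((2 : ℝ) / 3)) * (R ^ (-(1 : ℝ) / 3) * (1 + tr u x r))) := by
        refine mul_le_mul (mul_le_mul_of_nonneg_left (pow_le_pow_left₀ (Nat.cast_nonneg m) hmT 2) hC0)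
          ?_ (by positivity) (by positivity)
        rw [add_mul]
        exact add_le_add (mul_le_mul_of_nonneg_left e1 hM)
          (mul_le_mul_of_nonneg_left e2 (by positivity))
      have h3 : 0 ≤ 2 * π / T * (m : ℝ) := by positivity
      linarith

/-- `y` has a limit at infinity and is nearly an equality there. -/
theorem atTop_case (hG : GrowthSpec) (hP : PartitionSpec) (hC : ComponentsSpec)
    (hB : EnergyBoundSpec) (hE : EilenbergSpec) (h : IsGM K u) (hV : IsStream K u V)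
    (hx : x ∈ K) :
    ∃ L : ℝ, 0 ≤ L ∧ Tendsto (yrat K u x) atTop (𝓝 L) ∧
      ∀ η > 0, Most atTop (NearEq K u x η L) := by
  obtain ⟨C, hC0, hok⟩ := ok_general hG hP hC hB h hV hx
  set T : ℝ → ℝ := fun R => R ^ ((1 : ℝ) / 20) with hT
  set w : ℝ → ℝ → ℝ := fun R => maj K u x (T R) (C * T R ^ 2 * R ^ (-(1 : ℝ) / 3)) with hw
  set C' : ℝ := 8 * π ^ 2 + C * (2 + 4 * π) with hC'
  have hT1 : ∀ R, 1 ≤ R → 1 ≤ T R := fun R hR => Real.one_le_rpow hR (by norm_num)
  have hwi : ∀ R b, 1 ≤ R → R ≤ b → b ≤ 2 * R →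
      IntervalIntegrable (w R) volume R b ∧
        ∫ r in R..b, w R r ≤ R * (C' * R ^ (-((1 : ℝ) / 20))) := by
    intro R b hR hRb hb
    have hR0 : 0 < R := by linarith
    have hT0 : 0 < T R := by linarith [hT1 R hR]
    obtain ⟨i1, i2⟩ := maj_integral (x := x) hE hG h (T := T R)
      (A := C * T R ^ 2 * R ^ (-(1 : ℝ) / 3)) hT0 (by positivity) hR0 hRb
    refine ⟨i1, i2.trans ?_⟩
    have e1 : 4 * π ^ 2 * b / T R ≤ 8 * π ^ 2 * R * R ^ (-((1 : ℝ) / 20)) := by
      rw [Real.rpow_neg hR0.le, div_eq_mul_inv]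
      have : 4 * π ^ 2 * b ≤ 8 * π ^ 2 * R := by
        nlinarith [mul_le_mul_of_nonneg_left hb (sq_nonneg π)]
      exact mul_le_mul_of_nonneg_right this (by positivity)
    have e2 : T R ^ 2 * R ^ (-(1 : ℝ) / 3) ≤ R ^ (-((1 : ℝ) / 20)) := by
      rw [hT]
      simp only
      rw [← Real.rpow_natCast (R ^ ((1 : ℝ) / 20)) 2, ← Real.rpow_mul hR0.le,
        ← Real.rpow_add hR0]
      exact Real.rpow_le_rpow_of_exponent_le hR (by norm_num)
    have e3 : C * T R ^ 2 * R ^ (-(1 : ℝ) / 3) * (b + 2 * π * b) ≤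
        C * R ^ (-((1 : ℝ) / 20)) * ((2 + 4 * π) * R) := by
      rw [mul_assoc C]
      refine mul_le_mul (mul_le_mul_of_nonneg_left e2 hC0) ?_ ?_ (by positivity)
      · nlinarith [Real.pi_pos]
      · nlinarith [Real.pi_pos]
    rw [hC']
    linarith
  have hw0 : ∀ R, 1 ≤ R → ∀ r, 0 ≤ w R r := fun R hR =>
    maj_nonneg (by linarith [hT1 R hR]) (by positivity)
  have hblock : ∀ a b : ℝ, 1 ≤ a → a ≤ b → b ≤ 2 * a →
      yrat K u x a - C' * a ^ (-((1 : ℝ) / 20)) ≤ yrat K u x b := by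
    intro a b ha hab hb
    obtain ⟨i1, i2⟩ := hwi a b ha hab hb
    have ha0 : 0 < a := by linarith
    refine le_trans ?_ (yrat_lower hG h ha0 hab i1 (hw0 a ha)
      ((hok (T a) (hT1 a ha) a ha).mono fun r hr hm => hr hm.1))
    have : (∫ s in a..b, w a s) / a ≤ C' * a ^ (-((1 : ℝ) / 20)) := by
      rw [div_le_iff₀ ha0]
      linarith
    linarith
  obtain ⟨L, hL0, hL⟩ := exists_limit (C := C') (δ := (1 : ℝ) / 20) (by positivity) (by norm_num)
    (fun r hr => yrat_mem hG h hr) hblock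
  refine ⟨L, hL0, hL, fun η hη ε hε => ?_⟩
  set δ := min (η / 3) (ε * η / 24) with hδd
  have hδ : 0 < δ := lt_min (by positivity) (by positivity)
  obtain ⟨R0, hR0⟩ := Metric.tendsto_atTop.1 hL δ hδ
  have hlim : Tendsto (fun R : ℝ => C' * R ^ (-((1 : ℝ) / 20))) atTop (𝓝 0) := by
    simpa using (tendsto_rpow_neg_atTop (show (0 : ℝ) < 1 / 20 by norm_num)).const_mul C'
  filter_upwards [eventually_ge_atTop (1 : ℝ), eventually_ge_atTop R0,
    hlim.eventually_le_const (show (0 : ℝ) < ε * η / 12 by positivity)] with R hR1 hR2 hR3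
  have hRp : 0 < R := by linarith
  obtain ⟨i1, i2⟩ := hwi R (2 * R) hR1 (by linarith) le_rfl
  refine (window hG h hRp hη i1 (hw0 R hR1) ((hok (T R) (hT1 R hR1) R hR1).mono
    fun r hr hm => hr hm.1) (fun r hr => le_of_lt (by
      have := hR0 r (hR2.trans hr.1)
      rwa [Real.dist_eq] at this)) (min_le_left _ _)).trans
    (ENNReal.ofReal_le_ofReal ?_)
  have h1 : ∫ s in R..2 * R, w R s ≤ R * (ε * η / 12) :=
    i2.trans (mul_le_mul_of_nonneg_left hR3 hRp.le)
  have h2 : δ * R ≤ ε * η / 24 * R := mul_le_mul_of_nonneg_right (min_le_right _ _) hRp.le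
  rw [div_mul_eq_mul_div, div_le_iff₀ hη]
  linarith

/-- The balanced case at `0`. -/
theorem zero_case (hG : GrowthSpec) (h : IsGM K u)
    (hok : ∀ᵐ r : ℝ, 0 < r → Ok K u x 0 r) (hmono : MonotoneOn (yrat K u x) (Ioi 0)) :
    ∃ L : ℝ, 0 ≤ L ∧ Tendsto (yrat K u x) (𝓝[>] (0 : ℝ)) (𝓝 L) ∧
      ∀ η > 0, Most (𝓝[>] (0 : ℝ)) (NearEq K u x η L) := by
  have hbd : BddBelow (yrat K u x '' Ioi 0) :=
    ⟨0, by rintro _ ⟨r, hr, rfl⟩; exact (yrat_mem hG h hr).1⟩
  have hL : Tendsto (yrat K u x) (𝓝[>] (0 : ℝ)) (𝓝 (sInf (yrat K u x '' Ioi 0))) :=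
    hmono.tendsto_nhdsGT hbd
  refine ⟨_, ge_of_tendsto hL ?_, hL, fun η hη ε hε => ?_⟩
  · filter_upwards [self_mem_nhdsWithin] with r hr
    exact (yrat_mem hG h hr).1
  set L := sInf (yrat K u x '' Ioi 0)
  set δ := min (η / 3) (ε * η / 24) with hδd
  have hδ : 0 < δ := lt_min (by positivity) (by positivity)
  obtain ⟨R0, hR0, hnear⟩ := Metric.tendsto_nhdsWithin_nhds.1 hL δ hδ
  filter_upwards [Ioo_mem_nhdsGT (half_pos hR0)] with R hR
  refine (window hG h hR.1 hη intervalIntegrable_const (fun _ => le_rfl)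
    (hok.mono fun r hr hm => hr (lt_of_lt_of_le hR.1 hm.1)) (fun r hr => le_of_lt (by
      have hr0 : 0 < r := lt_of_lt_of_le hR.1 hr.1
      have := hnear (show r ∈ Ioi 0 from hr0) (by
        rw [Real.dist_eq, sub_zero, abs_of_pos hr0]; linarith [hr.2, hR.2])
      rwa [Real.dist_eq] at this)) (min_le_left _ _)).trans
    (ENNReal.ofReal_le_ofReal ?_)
  have h2 : δ * R ≤ ε * η / 24 * R := mul_le_mul_of_nonneg_right (min_le_right _ _) hR.1.le
  rw [div_mul_eq_mul_div, div_le_iff₀ hη, intervalIntegral.integral_zero]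
  have : 0 ≤ ε * R * η := by have := hR.1; positivity
  linarith

end Mono

open Mono in
/-- S08: monotonicity and near equality at the ends. -/
theorem mono (hG : GrowthSpec) (hP : PartitionSpec) (hB : EnergyBoundSpec) (hE : EilenbergSpec)
    (hC : ComponentsSpec) : MonoSpec := by
  intro K u V h hV x hx
  have hbal : Balanced K V → MonotoneOn (yrat K u x) (Ioi 0) := by
    intro hb a ha b _ hab
    have hok := ok_balanced hG hP hC hB h hV hx hb
    have := yrat_lower (w := fun _ => 0) hG h ha hab intervalIntegrable_const (fun _ => le_rfl)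
      (hok.mono fun r hr hm => hr (lt_of_lt_of_le ha hm.1))
    simpa using this
  refine ⟨hbal, ?_⟩
  rintro l (rfl | ⟨rfl, hb⟩)
  · exact atTop_case hG hP hC hB hE h hV hx
  · exact zero_case hG h (ok_balanced hG hP hC hB h hV hx hb) (hbal hb)

end Vale.Agent.P128
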