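import Vale.Agent.P128.Network.Energy

/-!
# P128, piece L: network competitors (deletion, chord, Steiner point)
-/

open MeasureTheory Set Metric Filter Complex
open scoped ENNReal Topology Real

noncomputable section

namespace Vale.Agent.P128.Network

variable {K : Set ℂ} {x : ℂ} {r : ℝ} {t : ℕ → ℝ} {m : ℕ}

theorem IsNet.mono {ℓ ℓ' : ℝ} {n : ℕ} {S : ℕ → ℂ × ℂ} {J : ℂ → ℕ} (h : IsNet t m ℓ n S J)
    (hle : ℓ ≤ ℓ') : IsNet t m ℓ' n S J :=
  ⟨h.length.trans hle, h.loc, h.inDisc, h.arc⟩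

/-- Shift the base point of a partition by one arc. -/
theorem partition_shift (hp : IsPartition K x r t m) :
    IsPartition K x r (fun k => if k < m then t (k + 1) else t 1 + 2 * π) m := by
  obtain ⟨hm, htot, harc⟩ := hp
  refine ⟨hm, ?_, fun i hi => ?_⟩
  · simp [hm]
  have h2 : ∀ θ, circleMap x r (θ + 2 * π) = circleMap x r θ := periodic_circleMap x r
  by_cases hlast : i + 1 < m
  · simp only [if_pos hlast, if_pos hi]
    exact harc (i + 1) hlast
  · have hm' : i + 1 = m := by omega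
    simp only [if_neg hlast, if_pos hi]
    rw [hm', htot]
    obtain ⟨⟨h01, h01', hfree⟩, h0⟩ := harc 0 hm
    refine ⟨⟨by simp only [zero_add] at h01; linarith, by simp only [zero_add] at h01'; linarith,
      fun θ hθ => ?_⟩, ?_⟩
    · have := hfree (θ - 2 * π) ⟨by linarith [hθ.1], by simp only [zero_add]; linarith [hθ.2]⟩
      rwa [← h2 (θ - 2 * π), sub_add_cancel] at this
    · rw [h2]; exact h0

/-- A gap can be moved to the last position. -/
theorem exists_last (B : ℝ) : ∀ (i : ℕ) (t : ℕ → ℝ), IsPartition K x r t m → i < m →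
    t (i + 1) - t i ≤ B → ∃ t', IsPartition K x r t' m ∧ t' m - t' (m - 1) ≤ B := by
  intro i
  induction i with
  | zero =>
    intro t hp hi hgap
    refine ⟨_, partition_shift hp, ?_⟩
    simp only [lt_irrefl, if_false, if_pos (show m - 1 < m by omega), show m - 1 + 1 = m by omega]
    rw [hp.2.1]; simpa using hgap
  | succ i ih =>
    intro t hp hi hgap
    refine ih _ (partition_shift hp) (by omega) ?_
    simp only [if_pos (show i + 1 < m from hi), if_pos (show i < m by omega)]
    exact hgap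

/-- An irregular configuration of at least three points has a small gap. -/
theorem exists_small_gap (hp : IsPartition K x r t m) (hm : 3 ≤ m) {ε : ℝ} (h0 : 0 < ε)
    (h1 : ε ≤ 1) (hreg : ¬ IsRegularStar ε t m) :
    ∃ i < m, t (i + 1) - t i ≤ 2 * π / 3 - ε / 4 := by
  by_contra hcon
  simp only [not_exists, not_and, not_le] at hcon
  have hsum : ∑ i ∈ Finset.range m, (t (i + 1) - t i) = 2 * π := by
    rw [Finset.sum_range_sub]; linarith [hp.2.1]
  have hπ : π < 3.15 := Real.pi_lt_d2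
  have hπ3 : 3.14 < π := Real.pi_gt_d2
  rcases hm.eq_or_lt with h3 | h4
  · subst h3
    simp only [Finset.sum_range_succ, Finset.sum_range_zero, zero_add] at hsum
    have a0 := hcon 0 (by norm_num)
    have a1 := hcon 1 (by norm_num)
    have a2 := hcon 2 (by norm_num)
    simp only [zero_add] at a0 a1 a2 hsum
    refine hreg ⟨Or.inr rfl, fun i hi => ?_⟩
    push_cast
    rw [abs_le]
    interval_cases i <;> norm_num <;> constructor <;> linarith
  · have hlow : (m : ℝ) * (2 * π / 3 - ε / 4) ≤ ∑ i ∈ Finset.range m, (t (i + 1) - t i) := by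
      have := Finset.sum_le_sum (s := Finset.range m) (f := fun _ => 2 * π / 3 - ε / 4)
        (g := fun i => t (i + 1) - t i) fun i hi => (hcon i (Finset.mem_range.1 hi)).le
      rwa [Finset.sum_const, Finset.card_range, nsmul_eq_mul] at this
    have hm4 : (4 : ℝ) ≤ m := by exact_mod_cast h4
    nlinarith

theorem exists_net {ε q a c₀ : ℝ} (hε : 0 < ε) (hε1 : ε ≤ 1) (hq : q = Real.cos (π / 3 - ε / 8))
    (hq2 : 1 / 2 < q) (ha : a = (2 * q - 1) / 2) (hc1 : c₀ ≤ 1 / 2)
    (hc2 : c₀ ≤ 2 - 2 * Real.cos (ε / 2)) (hc3 : c₀ ≤ a ^ 2) (hp : IsPartition K x r t m)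
    (hreg : ¬ IsRegularStar ε t m) :
    ∃ t', IsPartition K x r t' m ∧ ∃ n S J, IsNet t' m ((m : ℝ) - c₀) n S J := by
  obtain ⟨hm, htot, harc⟩ := id hp
  have hm3 : m = 1 ∨ m = 2 ∨ 3 ≤ m := by omega
  rcases hm3 with rfl | rfl | h3
  · obtain ⟨n, S, J, hnet⟩ := exists_net_one t
    exact ⟨t, hp, n, S, J, hnet.mono (by push_cast; linarith)⟩
  · have h01 := (harc 0 (by norm_num)).1.1
    have h12 := (harc 1 (by norm_num)).1.1
    norm_num at h01 h12
    obtain ⟨n, S, J, hnet⟩ := exists_net_two t h01 h12 htot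
    refine ⟨t, hp, n, S, J, hnet.mono ?_⟩
    have hd : ε < |t 1 - t 0 - π| := by
      by_contra hle
      have hle : |t 1 - t 0 - π| ≤ ε := not_lt.1 hle
      refine hreg ⟨Or.inl rfl, fun i hi => ?_⟩
      interval_cases i
      · norm_num; exact hle
      · norm_num
        rw [htot, show t 0 + 2 * π - t 1 - π = -(t 1 - t 0 - π) by ring, abs_neg]
        exact hle
    have hsin : Real.sin ((t 1 - t 0) / 2) ≤ Real.cos (ε / 2) := by
      rw [← Real.cos_pi_div_two_sub, ← Real.cos_abs (π / 2 - (t 1 - t 0) / 2)]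
      have heq : |π / 2 - (t 1 - t 0) / 2| = |t 1 - t 0 - π| / 2 := by
        rw [abs_sub_comm, show (t 1 - t 0) / 2 - π / 2 = (t 1 - t 0 - π) / 2 by ring, abs_div,
          abs_two]
      rw [heq]
      refine Real.cos_le_cos_of_nonneg_of_le_pi (by positivity) ?_ (by linarith)
      have : |t 1 - t 0 - π| ≤ π := by rw [abs_le]; constructor <;> linarith
      linarith [Real.pi_pos]
    push_cast
    linarith
  · obtain ⟨i, hi, hgap⟩ := exists_small_gap hp h3 hε hε1 hreg
    obtain ⟨t', hp', hlast⟩ := exists_last _ i t hp hi hgap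
    obtain ⟨-, htot', harc'⟩ := id hp'
    have hpos : 0 ≤ t' m - t' (m - 1) := by
      have := (harc' (m - 1) (by omega)).1.1
      rw [show m - 1 + 1 = m by omega] at this
      linarith
    have hcos : q ≤ Real.cos ((t' m - t' (m - 1)) / 2) := by
      rw [hq]
      exact Real.cos_le_cos_of_nonneg_of_le_pi (by linarith) (by linarith [Real.pi_gt_three])
        (by linarith)
    obtain ⟨n, S, J, hnet⟩ := exists_net_star t' m q a h3 (fun j hj => (harc' j hj).1.1) htot' ha
      hq2 (hq ▸ Real.cos_le_one _) (by linarith [Real.pi_gt_three]) hcos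
    exact ⟨t', hp', n, S, J, hnet.mono (by linarith)⟩

end Vale.Agent.P128.Network

namespace Vale.Agent.P128

open Network

theorem network_of_comparison :
    ∀ ε > 0, ∃ c > 0, ∃ η > 0, ∀ K u, IsGM K u → Comparison K u →
      ∀ (x : ℂ) (r : ℝ), GoodRadius K u x r → ∀ t m, IsPartition K x r t m → m ≤ 50 →
        ¬ IsRegularStar ε t m → tauC u x r ≤ η →
          dir K u x r + len K x r ≤ ((m : ℝ) - c) * r := by
  intro ε₀ hε₀
  set ε : ℝ := min ε₀ 1 with hεdef
  have hε : 0 < ε := lt_min hε₀ one_pos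
  have hε1 : ε ≤ 1 := min_le_right _ _
  set q : ℝ := Real.cos (π / 3 - ε / 8) with hq
  have hq2 : 1 / 2 < q := by
    rw [hq, ← Real.cos_pi_div_three]
    exact Real.strictAntiOn_cos ⟨by linarith [Real.pi_gt_three], by linarith [Real.pi_pos]⟩
      ⟨by linarith [Real.pi_pos], by linarith [Real.pi_pos]⟩ (by linarith)
  set a : ℝ := (2 * q - 1) / 2 with ha
  have hcos : Real.cos (ε / 2) < 1 := by
    rw [← Real.cos_zero]
    exact Real.strictAntiOn_cos ⟨le_rfl, Real.pi_pos.le⟩
      ⟨by linarith, by linarith [Real.pi_gt_three]⟩ (by linarith)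
  set c₀ : ℝ := min (1 / 2) (min (2 - 2 * Real.cos (ε / 2)) (a ^ 2)) with hc₀
  have hc0 : 0 < c₀ := by
    have : 0 < a := by rw [ha]; linarith
    exact lt_min (by norm_num) (lt_min (by linarith) (by positivity))
  have hc1 : c₀ ≤ 1 / 2 := min_le_left _ _
  have hc2 : c₀ ≤ 2 - 2 * Real.cos (ε / 2) := (min_le_right _ _).trans (min_le_left _ _)
  have hc3 : c₀ ≤ a ^ 2 := (min_le_right _ _).trans (min_le_right _ _)
  set s : ℝ := c₀ / 200 with hs
  have hs0 : 0 < s := by positivity
  have hs1 : s ≤ 1 / 2 := by rw [hs]; linarith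
  set B : ℝ := 4 * π ^ 2 / s + 4 with hB
  have hB0 : 0 < B := by positivity
  refine ⟨c₀ / 2, by linarith, c₀ / 4 / B, by positivity, ?_⟩
  intro K u h hRep x r hg t m hp hm hreg hτ
  have hreg' : ¬ IsRegularStar ε t m := fun hr => hreg ⟨hr.1, fun i hi =>
    (hr.2 i hi).trans (min_le_left _ _)⟩
  obtain ⟨t', hp', n, S, J, hnet⟩ := exists_net hε hε1 hq hq2 ha hc1 hc2 hc3 hp hreg'
  have hr : 0 < r := hg.pos
  have hm1 : (1 : ℝ) ≤ m := by exact_mod_cast hp.1
  have hm50 : (m : ℝ) ≤ 50 := by exact_mod_cast hm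
  have hρ0 : 0 < (1 - s) * r := mul_pos (by linarith) hr
  have hρr : (1 - s) * r < r := by nlinarith
  have hmain := dir_add_len_le hRep h hg hp' hnet hρ0 hρr (by linarith)
  set τ := tauC u x r with hτdef
  have hτ0 : 0 ≤ τ := tauC_nonneg hr.le
  have hE : r * (r - (1 - s) * r) * (2 * π * (2 * π * r * τ / (r - (1 - s) * r) ^ 2) +
      r * τ / ((1 - s) * r) ^ 2) ≤ r * τ * B := by
    have h1s : (1 - s) ≠ 0 := by linarith
    have heq : r * (r - (1 - s) * r) * (2 * π * (2 * π * r * τ / (r - (1 - s) * r) ^ 2) +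
        r * τ / ((1 - s) * r) ^ 2) = r * τ * (4 * π ^ 2 / s + s / (1 - s) ^ 2) := by
      rw [show r - (1 - s) * r = s * r by ring]
      field_simp
      ring
    rw [heq]
    refine mul_le_mul_of_nonneg_left ?_ (by positivity)
    have : s / (1 - s) ^ 2 ≤ 4 := by
      rw [div_le_iff₀ (by positivity)]; nlinarith
    linarith
  have hτB : r * τ * B ≤ r * (c₀ / 4) := by
    rw [mul_assoc]
    refine mul_le_mul_of_nonneg_left ?_ hr.le
    calc τ * B ≤ c₀ / 4 / B * B := mul_le_mul_of_nonneg_right hτ hB0.le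
      _ = c₀ / 4 := div_mul_cancel₀ _ hB0.ne'
  have hA : (1 - s) * r * ((m : ℝ) - c₀) ≤ r * ((m : ℝ) - c₀) :=
    mul_le_mul_of_nonneg_right hρr.le (by linarith)
  have hM : (m : ℝ) * (r - (1 - s) * r) ≤ r * (c₀ / 4) := by
    rw [show r - (1 - s) * r = s * r by ring, hs]
    nlinarith [mul_le_mul_of_nonneg_right hm50 (by positivity : 0 ≤ c₀ * r)]
  linarith

theorem genNetwork (hRep : GenReplaceSpec) : GenNetworkSpec := by
  intro ε hε
  obtain ⟨c, hc, η, hη, h⟩ := network_of_comparison ε hε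
  exact ⟨c, hc, η, hη, fun K u hgm => h K u hgm (hRep K u hgm)⟩

theorem network (hRep : ReplaceSpec) : NetworkSpec := genNetwork hRep

end Vale.Agent.P128
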