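import Vale.Agent.P128.Spec
import Vale.Agent.P128.Basic
import Vale.Agent.P128.Competitor
import Vale.Agent.P128.OneComp.Scales
import Vale.Agent.P128.OneComp.Circle

/-!
# P128: the crack set has only one component
-/

open MeasureTheory Set Metric Filter
open scoped ENNReal Topology Real

noncomputable section

namespace Vale.Agent.P128.OneComp

variable {K : Set ℂ} {u : ℂ → ℝ} {x : ℂ}

/-- If every large circle meets `K` in at least `n` points then the length grows at rate `n`. -/
theorem len_growth (h : IsGM K u) (hE : EilenbergSpec) {n : ℕ} {R₀ a b : ℝ} (ha : 0 ≤ a)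
    (hRa : R₀ ≤ a) (hab : a ≤ b) (hn : ∀ r, R₀ ≤ r → (n : ℕ∞) ≤ cnt K x r) :
    len K x a + n * (b - a) ≤ len K x b := by
  obtain ⟨-, hint⟩ := hE K h.isClosed x
  have h1 : ENNReal.ofReal (n * (b - a)) ≤ μH[1] (K ∩ (ball x b \ closedBall x a)) := by
    refine le_trans ?_ (hint a b ha)
    calc ENNReal.ofReal (n * (b - a)) = ∫⁻ _ in Ioo a b, (n : ℝ≥0∞) := by
          rw [setLIntegral_const, Real.volume_Ioo, ENNReal.ofReal_mul (Nat.cast_nonneg n),
            ENNReal.ofReal_natCast]
      _ ≤ _ := setLIntegral_mono' measurableSet_Ioo fun r hr => by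
          have := ENat.toENNReal_mono (hn r (hRa.trans hr.1.le))
          simpa using this
  have hd : Disjoint (K ∩ ball x a) (K ∩ (ball x b \ closedBall x a)) :=
    disjoint_left.2 fun z hz hz2 => hz2.2.2 (ball_subset_closedBall hz.2)
  have h2 : μH[1] (K ∩ ball x a) + μH[1] (K ∩ (ball x b \ closedBall x a)) ≤
      μH[1] (K ∩ ball x b) := by
    rw [← measure_union hd
      (h.isClosed.measurableSet.inter (measurableSet_ball.diff measurableSet_closedBall))]
    exact measure_mono (union_subset (inter_subset_inter_right K (ball_subset_ball hab))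
      (inter_subset_inter_right K Set.sdiff_subset))
  have h3 := ENNReal.toReal_mono (h.length_lt_top x b).ne (le_trans (add_le_add le_rfl h1) h2)
  rw [ENNReal.toReal_add (h.length_lt_top x a).ne ENNReal.ofReal_ne_top,
    ENNReal.toReal_ofReal (mul_nonneg (Nat.cast_nonneg n) (by linarith))] at h3
  exact h3

/-- The stream values on `K` are bounded. -/
theorem stream_bound {V : ℂ → ℝ} (hC : CompStructure K) (hV : IsStream K u V) :
    ∃ M : ℝ, 0 ≤ M ∧ ∀ p ∈ K, ∀ q ∈ K, |V p - V q| ≤ M := by
  have hfin : (V '' K).Finite := by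
    refine (hC.finite.biUnion (t := fun c => V '' c) fun c hc => ?_).subset ?_
    · obtain ⟨p, hp, rfl⟩ := hc
      refine (finite_singleton (V p)).subset ?_
      rintro _ ⟨q, hq, rfl⟩
      exact hV.const p hp q hq
    · rintro _ ⟨p, hp, rfl⟩
      exact mem_biUnion (x := connectedComponentIn K p) ⟨p, hp, rfl⟩
        ⟨p, mem_connectedComponentIn hp, rfl⟩
  obtain ⟨M, hM⟩ := (hfin.prod hfin).image (fun q => |q.1 - q.2|) |>.bddAbove
  exact ⟨max M 0, le_max_right _ _, fun p hp q hq => (hM ⟨(V p, V q),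
    ⟨mem_image_of_mem V hp, mem_image_of_mem V hq⟩, rfl⟩).trans (le_max_left _ _)⟩

/-- An unbounded component meets every large circle. -/
theorem meets_circle (hC : CompStructure K) {p : ℂ} (hp : p ∈ K) {r : ℝ} (hr : dist p x ≤ r) :
    ∃ q ∈ connectedComponentIn K p, q ∈ sphere x r := by
  have hu := hC.unbounded p hp
  obtain ⟨w, hw, hwr⟩ : ∃ w ∈ connectedComponentIn K p, r ≤ dist w x := by
    by_contra hcon
    simp only [not_exists, not_and, not_le] at hcon
    exact hu ((isBounded_closedBall (x := x) (r := r)).subset fun w hw => (hcon w hw).le)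
  obtain ⟨q, hq, hqr⟩ := isPreconnected_connectedComponentIn.intermediate_value
    (mem_connectedComponentIn hp) hw (continuous_id.dist continuous_const).continuousOn
    (show r ∈ Icc (dist p x) (dist w x) from ⟨hr, hwr⟩)
  exact ⟨q, hq, hqr⟩

/-- Two stream values force logarithmic growth of the Dirichlet integral. -/
theorem dir_unbounded {V : ℂ → ℝ} (h : IsGM K u) (hG : GrowthSpec) (hC : CompStructure K)
    (hV : IsStream K u V) {p q : ℂ} (hp : p ∈ K) (hq : q ∈ K) (hne : V p ≠ V q) (B R₀ : ℝ) :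
    ∃ r, R₀ ≤ r ∧ B < dir K u x r := by
  obtain ⟨hnn, hgood, hac⟩ := hG K u h x
  set R₁ := max (max R₀ 1) (max (dist p x) (dist q x))
  have hR1 : 1 ≤ R₁ := le_trans (le_max_right _ _) (le_max_left _ _)
  set c := 3 * (V p - V q) ^ 2 / (8 * π) with hcdef
  have hc : 0 < c := by have := sub_ne_zero.2 hne; positivity
  have hpt : ∀ r, R₁ ≤ r → GoodRadius K u x r → c / r ≤ tauC u x r + rhoC u x r := by
    intro r hr hg
    obtain ⟨p', hp', hps⟩ := meets_circle (x := x) hC hp
      ((le_max_left (dist p x) (dist q x)).trans ((le_max_right _ _).trans hr))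
    obtain ⟨q', hq', hqs⟩ := meets_circle (x := x) hC hq
      ((le_max_right (dist p x) (dist q x)).trans ((le_max_right _ _).trans hr))
    have := osc_le_rhoC hV hg hps hqs
    rw [hV.const p hp p' hp', hV.const q hq q' hq'] at this
    have h2 := tauC_nonneg (u := u) (x := x) hg.pos.le
    rw [hcdef, div_div]
    linarith
  have hstep : ∀ R, R₁ ≤ R → dir K u x R + c / 2 ≤ dir K u x (2 * R) := by
    intro R hR
    have hR0 : 0 < R := by linarith
    obtain ⟨hint, heq⟩ := hac R (2 * R) hR0.le (by linarith)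
    have hmono : ∫ _ in R..(2 * R), c / (2 * R) ≤
        ∫ r in R..(2 * R), tauC u x r + rhoC u x r := by
      refine intervalIntegral.integral_mono_ae_restrict (by linarith) intervalIntegrable_const hint
        ?_
      filter_upwards [ae_restrict_of_ae hgood, ae_restrict_mem measurableSet_Icc] with r hr hrI
      have hr0 : 0 < r := by linarith [hrI.1]
      refine le_trans ?_ (hpt r (hR.trans hrI.1) (hr hr0))
      exact div_le_div_of_nonneg_left hc.le hr0 hrI.2
    rw [intervalIntegral.integral_const, smul_eq_mul, ← heq] at hmono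
    have e : (2 * R - R) * (c / (2 * R)) = c / 2 := by field_simp; ring
    linarith
  have hj : ∀ j : ℕ, (j : ℝ) * (c / 2) ≤ dir K u x (2 ^ j * R₁) := by
    intro j
    induction j with
    | zero => simpa using (hnn R₁ (by linarith)).1
    | succ j ih =>
      have := hstep (2 ^ j * R₁) (le_mul_of_one_le_left (by linarith) (one_le_pow₀ (by norm_num)))
      rw [show (2 : ℝ) ^ (j + 1) * R₁ = 2 * (2 ^ j * R₁) by ring]
      push_cast
      linarith
  obtain ⟨j, hj2⟩ := exists_nat_gt (B / (c / 2))
  rw [div_lt_iff₀ (by positivity)] at hj2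
  exact ⟨2 ^ j * R₁, ((le_max_left R₀ 1).trans (le_max_left _ _)).trans
    (le_mul_of_one_le_left (by linarith) (one_le_pow₀ (by norm_num))), lt_of_lt_of_le hj2 (hj j)⟩

/-- With vanishing limit the Dirichlet integral is bounded, as soon as `n` points lie on every
large circle and most circles carry a regular star. -/
theorem dir_bounded {V : ℂ → ℝ} (h : IsGM K u) (hG : GrowthSpec) (hP : PartitionSpec)
    (hEil : EilenbergSpec) (hCone : ConeSpec) (hEB : EnergyBoundSpec) (hV : IsStream K u V)
    {M : ℝ} (hM : 0 ≤ M) (hVM : ∀ p ∈ K, ∀ q ∈ K, |V p - V q| ≤ M)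
    {n : ℕ} (hn : n = 2 ∨ n = 3)
    (hmost : ∀ ε > 0, Most atTop (fun r => GoodRadius K u x r ∧ cnt K x r = (n : ℕ∞) ∧
      tauC u x r ≤ ε ∧ ∀ t m, IsPartition K x r t m → IsRegularStar ε t m))
    (hcnt : ∀ᶠ r in atTop, (n : ℕ∞) ≤ cnt K x r) :
    ∃ B R₀ : ℝ, ∀ r, R₀ ≤ r → dir K u x r ≤ B := by
  obtain ⟨hnn, -, hac⟩ := hG K u h x
  obtain ⟨C, hC, hEB'⟩ := hEB
  set Q : ℝ → Prop := fun r => GoodRadius K u x r ∧ cnt K x r = (n : ℕ∞) ∧
    tauC u x r ≤ 1 / 25 ∧ ∀ t m, IsPartition K x r t m → IsRegularStar (1 / 25) t m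
  obtain ⟨R₁, hR₁⟩ := eventually_atTop.1 (hmost (1 / 25) (by norm_num) (1 / 100) (by norm_num))
  obtain ⟨R₂, hR₂⟩ := eventually_atTop.1 hcnt
  set R₀ := max 1 (max R₁ R₂)
  have hR01 : 1 ≤ R₀ := le_max_left _ _
  set f : ℝ → ℝ := fun r => tauC u x r + rhoC u x r
  have hf : ∀ r, 0 ≤ r → 0 ≤ f r := fun r hr =>
    add_nonneg (tauC_nonneg hr) (rhoC_nonneg hr)
  set C₁ := C * 9 * (M + M ^ ((2 : ℝ) / 3))
  have hC1 : 0 ≤ C₁ := by have := Real.rpow_nonneg hM ((2 : ℝ) / 3); positivity
  have hQ : ∀ r, 1 ≤ r → Q r → dir K u x r ≤ 13 / 25 * r * f r + C₁ * r ^ ((2 : ℝ) / 3) ∧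
      dir K u x r + len K x r - n * r ≤ 26 / 25 * r * f r := by
    rintro r hr ⟨hg, hc, htau, hstar⟩
    obtain ⟨hex, hall⟩ := hP K x r hg.pos hg.fin
    have hne : (K ∩ sphere x r).Nonempty := by
      rw [← Set.encard_ne_zero]
      show cnt K x r ≠ 0
      rw [hc]
      rcases hn with rfl | rfl <;> simp
    obtain ⟨t, m, ht⟩ := hex hne
    obtain rfl : m = n := by
      have := (hall t m ht).1
      rw [hc] at this
      exact_mod_cast this
    have hgap : ∀ i < m, t (i + 1) - t i ≤ 26 / 25 * π := by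
      intro i hi
      have h1 := (abs_le.1 ((hstar t m ht).2 i hi)).2
      have h2 : 2 * π / (m : ℝ) ≤ π := by
        rcases hn with rfl | rfl <;> push_cast <;> linarith [Real.pi_pos]
      linarith [Real.two_le_pi]
    have hm3 : (m : ℝ) ≤ 3 := by rcases hn with rfl | rfl <;> norm_num
    refine ⟨?_, ?_⟩
    · have h1 := hEB' K u V h hV x r M hg hM hVM t m ht
      have h2 := arcSum_le hg ht (by norm_num) hgap
      have hr23 : Real.sqrt (r * tauC u x r) ≤ r ^ ((2 : ℝ) / 3) := by
        refine le_trans (Real.sqrt_le_sqrt (mul_le_of_le_one_right hg.pos.le (by linarith))) ?_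
        rw [Real.sqrt_eq_rpow]
        exact Real.rpow_le_rpow_of_exponent_le hr (by norm_num)
      have hm9 : (m : ℝ) ^ 2 ≤ 9 := (pow_le_pow_left₀ (Nat.cast_nonneg m) hm3 2).trans (by norm_num)
      have h3 : C * (m : ℝ) ^ 2 * (M * Real.sqrt (r * tauC u x r) +
          M ^ ((2 : ℝ) / 3) * r ^ ((2 : ℝ) / 3)) ≤ C₁ * r ^ ((2 : ℝ) / 3) := by
        calc _ ≤ C * 9 * (M * r ^ ((2 : ℝ) / 3) + M ^ ((2 : ℝ) / 3) * r ^ ((2 : ℝ) / 3)) := by
              refine mul_le_mul (mul_le_mul_of_nonneg_left hm9 hC)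
                (add_le_add (mul_le_mul_of_nonneg_left hr23 hM) le_rfl) ?_ (by positivity)
              have := Real.rpow_nonneg hM ((2 : ℝ) / 3)
              have := Real.rpow_nonneg hg.pos.le ((2 : ℝ) / 3)
              positivity
          _ = _ := by ring
      have h4 := mul_le_mul_of_nonneg_left h2 hg.pos.le
      show dir K u x r ≤ 13 / 25 * r * (tauC u x r + rhoC u x r) + C₁ * r ^ ((2 : ℝ) / 3)
      linarith
    · have h1 := (hCone K u h x r hg).2 t m ht
      have h4 := mul_le_mul_of_nonneg_left (coneSum_le hg ht hgap) hg.pos.le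
      have h5 := mul_nonneg hg.pos.le (rhoC_nonneg (u := u) (x := x) hg.pos.le)
      show _ ≤ 26 / 25 * r * (tauC u x r + rhoC u x r)
      linarith
  -- one scale
  have hint : ∀ R, R₀ ≤ R →
      dir K u x (5 / 4 * R) - dir K u x R = ∫ r in R..(5 / 4 * R), f r := fun R hR =>
    (hac R (5 / 4 * R) (by linarith) (by linarith)).2
  have hms : ∀ R c, R₀ ≤ R → 0 ≤ c → (∀ r ∈ Icc R (5 / 4 * R), Q r → c ≤ f r) →
      dir K u x R + c * (24 / 100 * R) ≤ dir K u x (5 / 4 * R) := by
    intro R c hR hc hcQ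
    have hbad : volume {r | r ∈ Icc R (2 * R) ∧ ¬Q r} ≤ ENNReal.ofReal (R / 100) := by
      have := hR₁ R (((le_max_left R₁ R₂).trans (le_max_right 1 _)).trans hR)
      rwa [one_div_mul_eq_div] at this
    have := mass_step (g := f) (by linarith) hbad (hac R (5 / 4 * R) (by linarith) (by linarith)).1
      (fun r hr => hf r (by linarith [hr.1])) hc hcQ
    linarith [hint R hR]
  have hmono : ∀ R, R₀ ≤ R → ∀ r ∈ Icc R (5 / 4 * R), dir K u x R ≤ dir K u x r := by
    intro R hR r hr
    have := (hac R r (by linarith) hr.1).2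
    have h2 := intervalIntegral.integral_nonneg (μ := volume) (f := f) hr.1
      fun s hs => hf s (by linarith [hs.1])
    linarith
  have hgrow23 : ∀ R r : ℝ, 0 < R → 0 ≤ r → r ≤ 5 / 4 * R →
      r ^ ((2 : ℝ) / 3) ≤ 5 / 4 * R ^ ((2 : ℝ) / 3) := by
    intro R r hR hr0 hr
    refine (Real.rpow_le_rpow hr0 hr (by norm_num)).trans ?_
    rw [Real.mul_rpow (by norm_num) hR.le]
    exact mul_le_mul_of_nonneg_right
      ((Real.rpow_le_rpow_of_exponent_le (by norm_num) (by norm_num : (2 : ℝ) / 3 ≤ 1)).trans_eq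
        (Real.rpow_one _)) (Real.rpow_nonneg hR.le _)
  -- the Dirichlet integral is of order two thirds
  have hD : ∀ R, R₀ ≤ R → dir K u x R ≤ 25 * C₁ * R ^ ((2 : ℝ) / 3) := by
    refine no_growth (C := 2 * π) (q := 27 / 20) (p := 1) (lam := 5 / 4) (by norm_num)
      (by linarith) (by positivity) (rpow_two_thirds_lt (by norm_num) (by norm_num)).le
      (by rw [Real.rpow_one]; norm_num) (fun R hR => ?_) (fun R hR hbig => ?_)
    · rw [Real.rpow_one]
      have := hnn R (by linarith)
      linarith [this.2.1, this.2.2]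
    · have hR0 : 0 < R := by linarith
      have h1 := hms R (19 / 20 * dir K u x R / (13 / 25 * (5 / 4 * R))) hR
        (by have := (hnn R hR0).1; positivity) ?_
      · have e : 19 / 20 * dir K u x R / (13 / 25 * (5 / 4 * R)) * (24 / 100 * R) =
            19 / 20 * (24 / 100) / (13 / 25 * (5 / 4)) * dir K u x R := by field_simp
        rw [e] at h1
        have := (hnn R hR0).1
        linarith
      · intro r hr hq
        have hr0 : 0 < r := lt_of_lt_of_le hR0 hr.1
        obtain ⟨g1, -⟩ := hQ r (hR01.trans (hR.trans hr.1)) hq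
        have g2 := hmono R hR r hr
        have g3 := mul_le_mul_of_nonneg_left (hgrow23 R r hR0 hr0.le hr.2) hC1
        have g4 : 13 / 25 * r * f r ≤ 13 / 25 * (5 / 4 * R) * f r :=
          mul_le_mul_of_nonneg_right (by linarith [hr.2]) (hf r hr0.le)
        rw [div_le_iff₀ (by positivity)]
        linarith
  -- the excess is nonpositive
  set P : ℝ → ℝ := fun r => dir K u x r + len K x r - n * r
  have hlen : ∀ a b, R₀ ≤ a → a ≤ b → len K x a + n * (b - a) ≤ len K x b := fun a b ha hab =>
    len_growth h hEil (by linarith)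
      (((le_max_right R₁ R₂).trans (le_max_right 1 _)).trans ha) hab hR₂
  have hPmono : ∀ R, R₀ ≤ R → ∀ r ∈ Icc R (5 / 4 * R), P R ≤ P r := fun R hR r hr => by
    have := hmono R hR r hr
    have := hlen R r hR hr.1
    simp only [P]; linarith
  have hPQ : ∀ R, R₀ ≤ R → 0 < P R →
      ∀ r ∈ Icc R (5 / 4 * R), Q r → P R / (26 / 25 * (5 / 4 * R)) ≤ f r := by
    intro R hR hpos r hr hq
    have hr0 : 0 < r := by linarith [hr.1]
    obtain ⟨-, g1⟩ := hQ r (hR01.trans (hR.trans hr.1)) hq
    have g2 := hPmono R hR r hr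
    have g4 : 26 / 25 * r * f r ≤ 26 / 25 * (5 / 4 * R) * f r :=
      mul_le_mul_of_nonneg_right (by linarith [hr.2]) (hf r hr0.le)
    rw [div_le_iff₀ (by have : 0 < R := by linarith
                        positivity)]
    simp only [P] at g2 hpos ⊢
    linarith
  have hP0 : ∀ R, R₀ ≤ R → P R ≤ 0 * R ^ ((2 : ℝ) / 3) := by
    refine no_growth (C := 25 * C₁ * (5 / 4) * (65 / 12)) (q := 118 / 100) (p := 2 / 3) (lam := 5 / 4) (by norm_num)
      (by linarith) le_rfl (rpow_two_thirds_lt (by norm_num) (by norm_num)).le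
      (rpow_two_thirds_lt (by norm_num) (by norm_num)) (fun R hR => ?_) (fun R hR hbig => ?_)
    · have hR0 : 0 < R := by linarith
      rcases le_or_gt (P R) 0 with hle | hpos
      · exact hle.trans (mul_nonneg (by positivity) (Real.rpow_nonneg hR0.le _))
      have h1 := hms R _ hR (by positivity) (hPQ R hR hpos)
      have e : P R / (26 / 25 * (5 / 4 * R)) * (24 / 100 * R) = 12 / 65 * P R := by
        field_simp; ring
      rw [e] at h1
      have h2 := hD (5 / 4 * R) (by linarith)
      have h3 := mul_le_mul_of_nonneg_left (hgrow23 R (5 / 4 * R) hR0 (by positivity) le_rfl)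
        (mul_nonneg (by norm_num : (0 : ℝ) ≤ 25) hC1)
      linarith [(hnn R hR0).1]
    · rw [zero_mul] at hbig
      have hR0 : 0 < R := by linarith
      have h1 := hms R _ hR (by positivity) (hPQ R hR hbig)
      have e : P R / (26 / 25 * (5 / 4 * R)) * (24 / 100 * R) = 12 / 65 * P R := by
        field_simp; ring
      rw [e] at h1
      have h2 := hlen R (5 / 4 * R) hR (by linarith)
      simp only [P] at hbig h1 ⊢
      linarith
  refine ⟨n * R₀ - len K x R₀, R₀, fun r hr => ?_⟩
  have h1 := hP0 r hr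
  have h2 := hlen R₀ r le_rfl hr
  simp only [P, zero_mul] at h1
  linarith

end OneComp

open OneComp in
/-- Several components force `u` to be locally constant, whatever the complement. -/
theorem manyComp (hStream : StreamSpec) (hMono : MonoSpec) (hCap : CapSpec) (hEnds : EndsSpec)
    (hCone : ConeSpec) (hEB : EnergyBoundSpec) (hG : GrowthSpec) (hEil : EilenbergSpec)
    (hComp : ComponentsSpec) (hP : PartitionSpec) :
    ∀ K u, IsGM K u → ¬ IsPreconnected K → ∀ z ∉ K, gradSq u z = 0 := by
  intro K u h hnc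
  obtain ⟨x, hx⟩ : K.Nonempty := by
    rcases K.eq_empty_or_nonempty with hK | hK
    · exact absurd (hK ▸ isPreconnected_empty) hnc
    · exact hK
  have hC := hComp K u h
  obtain ⟨z, hz, hzx⟩ : ∃ z ∈ K, z ∉ connectedComponentIn K x := by
    by_contra hcon
    simp only [not_exists, not_and, not_not] at hcon
    exact hnc ((connectedComponentIn_subset K x).antisymm hcon ▸
      isPreconnected_connectedComponentIn)
  obtain ⟨V, hV⟩ := hStream K u h
  obtain ⟨hmono, hends⟩ := hMono K u V h hV x hx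
  obtain ⟨L, hL0, hLt, hLnear⟩ := hends atTop (Or.inl rfl)
  -- two points on every large circle
  have h2 : ∀ᶠ r in atTop, ((2 : ℕ) : ℕ∞) ≤ cnt K x r := by
    refine (hC.count x).mono fun r hr => le_trans ?_ hr
    have : (1 : ℕ∞) < (comps K).encard := one_lt_encard_iff.2
      ⟨connectedComponentIn K x, connectedComponentIn K z, ⟨x, hx, rfl⟩, ⟨z, hz, rfl⟩,
        fun he => hzx (he ▸ mem_connectedComponentIn hz)⟩
    exact Order.add_one_le_of_lt this
  rcases hL0.eq_or_lt with hL | hL
  · -- vanishing limit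
    subst hL
    by_cases hb : Balanced K V
    · -- one stream value: `D` is monotone relatively to `r`, hence zero
      have hzero : ∀ r, 0 < r → dir K u x r = 0 := by
        intro r hr
        have hle : yrat K u x r ≤ 0 := ge_of_tendsto hLt (by
          filter_upwards [eventually_ge_atTop r] with s hs
          exact hmono hb hr (lt_of_lt_of_le hr hs) hs)
        have h0 : 0 ≤ dir K u x r := ENNReal.toReal_nonneg
        rw [yrat, div_le_iff₀ hr, zero_mul] at hle
        linarith
      exact fun w hw => gradSq_eq_zero_of_dir h x (fun r hr => (hzero r hr).le) w hw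
    · exfalso
      simp only [Balanced, not_forall] at hb
      obtain ⟨p, hp, q, hq, hne⟩ := hb
      obtain ⟨n, hn, -, hmost, hcnt, -⟩ := hEnds K u h x hx atTop (Or.inl rfl) hLt
      obtain ⟨M, hM, hVM⟩ := stream_bound hC hV
      obtain ⟨B, R₀, hB⟩ := dir_bounded h hG hP hEil hCone hEB hV hM hVM hn hmost (hcnt rfl)
      obtain ⟨r, hr, hrB⟩ := dir_unbounded (x := x) h hG hC hV hp hq hne B R₀
      exact absurd (hB r hr) (not_le.2 hrB)
  · -- positive limit
    exfalso
    have hcap := hCap K u h x hx atTop (Or.inl rfl) L hL hLt hLnear (1 / 2) (by norm_num)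
    obtain ⟨R₂, hR₂⟩ := eventually_atTop.1 h2
    obtain ⟨r, hr, hcr⟩ :=
      ((eventually_gt_atTop (4 * max R₂ 0)).and hcap).exists
    have hlen := len_growth h hEil (n := 2) (le_max_right R₂ 0) (le_max_left R₂ 0)
      (b := r) (by linarith [le_max_right R₂ 0]) hR₂
    have : 0 ≤ len K x (max R₂ 0) := ENNReal.toReal_nonneg
    push_cast at hlen
    linarith

open OneComp in
/-- There is only one component. -/
theorem oneComp (hStream : StreamSpec) (hMono : MonoSpec) (hCap : CapSpec) (hEnds : EndsSpec)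
    (hNoFlat : NoFlatSpec) (hCone : ConeSpec) (hEB : EnergyBoundSpec) (hG : GrowthSpec)
    (hEil : EilenbergSpec) (hComp : ComponentsSpec) (hP : PartitionSpec) : OneCompSpec := by
  intro K u h hne
  refine ⟨hne, ?_⟩
  by_contra hnc
  obtain ⟨x, hx⟩ := hne
  have h0 := manyComp hStream hMono hCap hEnds hCone hEB hG hEil hComp hP K u h.toIsGM hnc
  obtain ⟨r, -, hpos⟩ := hNoFlat K u h x hx
  rw [dir, dirichlet, setLIntegral_congr_fun
    (measurableSet_ball.diff h.isClosed.measurableSet) (g := fun _ => 0)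
    fun z hz => by simp [h0 z hz.2], lintegral_zero, ENNReal.toReal_zero] at hpos
  exact lt_irrefl _ hpos

end Vale.Agent.P128
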