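import Vale.Agent.P128.Tip

/-!
# P128: rigidity, `y ≡ 1` forces a crack-tip pair

Equality in the circle inequalities gives one crossing and `V - c` proportional to `cos(φ/2)` on
almost every circle and `r ∂_r V = (V - c)/2`; so `V - c` is homogeneous of degree `1/2`, `K` is its
zero ray and `u` is found by integrating along the circles.
-/

open MeasureTheory Set Metric Filter
open scoped ENNReal Topology Real

noncomputable section

namespace Vale.Agent.P128

variable {K : Set ℂ} {u V : ℂ → ℝ} {x : ℂ} {r : ℝ}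

/-- A function continuous on `(0, ∞)` with zero derivative off its zero set is constant. -/
theorem eq_of_deriv_zero_off_zeros {φ : ℝ → ℝ} (hc : ContinuousOn φ (Ioi 0))
    (hd : ∀ t, 0 < t → φ t ≠ 0 → HasDerivAt φ 0 t) {s t : ℝ} (hs : 0 < s) (ht : 0 < t) :
    φ s = φ t := by
  by_contra hne
  wlog h0 : φ s ≠ 0 generalizing s t
  · exact this ht hs (Ne.symm hne) fun h => hne (by simp only [ne_eq, not_not] at h0; rw [h0, h])
  set U := {r ∈ Ioi (0 : ℝ) | φ r = φ s} with hU
  have hopen : IsOpen U := by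
    refine Metric.isOpen_iff.2 fun r hr => ?_
    have hr0 : 0 < r := hr.1
    have hev : ∀ᶠ q in 𝓝 r, 0 < q ∧ φ q ≠ 0 :=
      (eventually_gt_nhds hr0).and
        ((hc.continuousAt (Ioi_mem_nhds hr0)).eventually_ne (by rw [hr.2]; exact h0))
    obtain ⟨δ, hδ, hsub⟩ := Metric.eventually_nhds_iff_ball.1 hev
    refine ⟨δ, hδ, fun q hq => ⟨(hsub q hq).1, ?_⟩⟩
    rw [← hr.2]
    exact isOpen_ball.is_const_of_deriv_eq_zero (convex_ball r δ).isPreconnected
      (fun z hz => ((hd z (hsub z hz).1 (hsub z hz).2).differentiableAt).differentiableWithinAt)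
      (fun z hz => (hd z (hsub z hz).1 (hsub z hz).2).deriv) hq (mem_ball_self hδ)
  have hopen' : IsOpen {r ∈ Ioi (0 : ℝ) | φ r ≠ φ s} :=
    hc.isOpen_inter_preimage isOpen_Ioi isOpen_ne
  have := isPreconnected_Ioi U {r ∈ Ioi (0 : ℝ) | φ r ≠ φ s} hopen hopen'
    (fun r hr => by
      by_cases h : φ r = φ s
      · exact Or.inl ⟨hr, h⟩
      · exact Or.inr ⟨hr, h⟩)
    ⟨s, hs, hs, rfl⟩ ⟨t, ht, ht, Ne.symm hne⟩
  obtain ⟨r, -, ⟨-, h1⟩, -, h2⟩ := this
  exact h2 h1

/-- `r e^{iθ}`, in terms of `circleMap`. -/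
theorem circleMap_eq_smul (x : ℂ) (r θ : ℝ) :
    circleMap x r θ - x = r • Complex.exp (θ * Complex.I) := by
  simp [circleMap, Complex.real_smul]

/-- The angular derivative of `V` on a circle is `r u_r`. -/
theorem hasDerivAt_stream (hV : IsStream K u V) {θ : ℝ} (hz : circleMap x r θ ∉ K) (c : ℝ) :
    HasDerivAt (fun θ => V (circleMap x r θ) - c) (r * dR u x r θ) θ := by
  have hcomp := ((hV.diff _ hz).hasFDerivAt.comp_hasDerivAt θ (hasDerivAt_circleMap x r θ))
  refine (hcomp.sub_const _).congr_deriv ?_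
  rw [hV.fderiv_eq _ hz]
  have : -(Complex.I * (circleMap 0 r θ * Complex.I)) = r • Complex.exp (θ * Complex.I) := by
    simp [circleMap, Complex.real_smul]; linear_combination
      (-(r : ℂ) * Complex.exp (θ * Complex.I)) * Complex.I_mul_I
  rw [this, map_smul, smul_eq_mul]; rfl

/-- The radial derivative of `V` is minus the tangential derivative of `u`. -/
theorem fderiv_stream_radial (hV : IsStream K u V) {θ : ℝ} (hz : circleMap x r θ ∉ K) :
    fderiv ℝ V (circleMap x r θ) (circleMap x r θ - x) = -(r * dT u x r θ) := by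
  rw [hV.fderiv_eq _ hz, circleMap_eq_smul]
  rw [show -(Complex.I * (r • Complex.exp (θ * Complex.I))) =
      -(r • (Complex.exp (θ * Complex.I) * Complex.I)) by rw [mul_smul_comm, mul_comm],
    map_neg, map_smul, smul_eq_mul]
  rfl

/-- The equality case on one circle. -/
theorem circle_equality (hW : WirtingerSpec) (hOA : OneArcSpec) (h : OpenCase K u)
    (hV : IsStream K u V) (hg : GoodRadius K u x r) {t : ℕ → ℝ} (ht : IsPartition K x r t 1)
    (hy : dir K u x r = r) (hsum : tauC u x r + rhoC u x r = 1) :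
    (∃ A : ℝ, A ^ 2 = 2 * r / π ∧ ∀ θ ∈ Icc (t 0) (t 0 + 2 * π),
        V (circleMap x r θ) - V (circleMap x r (t 0)) =
          A * Real.cos ((θ - (t 0 + π)) / 2)) ∧
    ∀ θ ∈ Ioo (t 0) (t 0 + 2 * π),
      r * dT u x r θ = -(V (circleMap x r θ) - V (circleMap x r (t 0))) / 2 := by
  have hr := hg.pos
  set a := t 0 with ha
  set b := t 0 + 2 * π with hb
  have hab : a < b := by rw [ha, hb]; linarith [Real.two_pi_pos]
  have hb1 : t 1 = b := ht.2.1
  set W : ℝ → ℝ := fun θ => V (circleMap x r θ) - V (circleMap x r a) with hWdef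
  set f : ℝ → ℝ := fun θ => r * dT u x r θ with hf
  set g : ℝ → ℝ := fun θ => r * dR u x r θ with hgdef
  have hWc : Continuous W := (hV.cont.comp (continuous_circleMap x r)).sub continuous_const
  have hWa : W a = 0 := by simp [hWdef]
  have hWb : W b = 0 := by simp [hWdef, hb, ← ha, periodic_circleMap x r a]
  have hfree : ∀ θ ∈ Ioo a b, circleMap x r θ ∉ K := fun θ hθ =>
    (ht.2.2 0 one_pos).1.2.2 θ (by simpa [hb1] using hθ)
  have hWd : ∀ θ ∈ Ioo a b, HasDerivAt W (g θ) θ := fun θ hθ =>
    hasDerivAt_stream hV (hfree θ hθ) _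
  have hfm : Measurable f := (measurable_dT u x r).const_mul r
  have hf2 : IntervalIntegrable (fun θ => f θ ^ 2) volume a b := by
    simpa [hf, mul_pow] using (hg.intT a b).const_mul (r ^ 2)
  have hg2 : IntervalIntegrable (fun θ => g θ ^ 2) volume a b := by
    simpa [hgdef, mul_pow] using (hg.intR a b).const_mul (r ^ 2)
  have hW2 : IntervalIntegrable (fun θ => W θ ^ 2) volume a b := (hWc.pow 2).intervalIntegrable _ _
  have hfW := intervalIntegrable_mul hfm hWc.measurable hf2 hW2
  set e : ℝ → ℝ := fun θ => f θ + W θ / 2 with hedef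
  have he2' : (fun θ => e θ ^ 2) = fun θ => (f θ ^ 2 + f θ * W θ) + (1 / 4) * W θ ^ 2 := by
    funext θ; simp only [hedef]; ring
  have he2 : IntervalIntegrable (fun θ => e θ ^ 2) volume a b := by
    rw [he2']; exact (hf2.add hfW).add (hW2.const_mul _)
  obtain ⟨hwir, -, heq⟩ := hW a b W g hab hWc.continuousOn hWd hg2
  set A₂ := ∫ θ in a..b, f θ ^ 2 with hA₂
  set B := ∫ θ in a..b, g θ ^ 2 with hBdef
  set P := ∫ θ in a..b, W θ ^ 2 with hPdef
  set X := ∫ θ in a..b, e θ ^ 2 with hX
  have hQ0 : P ≤ 4 * B := by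
    have := hwir (Or.inl ⟨hWa, hWb⟩)
    rw [show (b - a) / π = 2 by rw [ha, hb]; field_simp; ring] at this
    linarith
  have hX0 : 0 ≤ X := intervalIntegral.integral_nonneg hab.le fun _ _ => sq_nonneg _
  have hA : A₂ = r * tauC u x r := by
    rw [hA₂, ← tauArc_period u x r a, tauArc, ← intervalIntegral.integral_const_mul]
    congr 1; funext θ; simp only [hf]; ring
  have hB : B = r * rhoC u x r := by
    rw [hBdef, ← rhoArc_period u x r a, rhoArc, ← intervalIntegral.integral_const_mul]
    congr 1; funext θ; simp only [hgdef]; ring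
  have hD : dir K u x r = -∫ θ in a..b, f θ * W θ := hOA K u V h.toIsGM hV x r hg t ht
  have hXval : X = A₂ + (∫ θ in a..b, f θ * W θ) + P / 4 := by
    rw [hX, he2', intervalIntegral.integral_add (hf2.add hfW) (hW2.const_mul _),
      intervalIntegral.integral_add hf2 hfW, intervalIntegral.integral_const_mul]
    ring
  have hsum' : A₂ + B = r := by rw [hA, hB, ← mul_add, hsum, mul_one]
  have hX' : X = 0 := le_antisymm (by linarith) hX0
  have hBP : B = P / 4 := by linarith
  -- `f = -W/2` on the arc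
  have hfc : ContinuousOn e (Ioo a b) := by
    refine ContinuousOn.add ?_ (hWc.div_const 2).continuousOn
    have hcirc : ContinuousOn (fun θ => circleMap x r θ) (Ioo a b) :=
      (continuous_circleMap x r).continuousOn
    have hd : ContinuousOn (fun z => fderiv ℝ u z) Kᶜ :=
      (h.toIsGM.contDiffOn 1).continuousOn_fderiv_of_isOpen h.toIsGM.isOpen_compl le_rfl
    have := ((hd.comp hcirc fun θ hθ => hfree θ hθ).clm_apply
      (show Continuous (fun θ : ℝ => Complex.exp (θ * Complex.I) * Complex.I) by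
        fun_prop).continuousOn)
    simpa only [hf, dT, Function.comp, Pi.mul_def] using (continuousOn_const (c := r)).mul this
  have he0 : ∀ θ ∈ Ioo a b, e θ = 0 := by
    intro θ hθ
    by_contra hne
    have hae : (fun θ => e θ ^ 2) =ᵐ[volume.restrict (Ioc a b)] 0 :=
      (intervalIntegral.integral_eq_zero_iff_of_le_of_nonneg_ae hab.le
        (ae_of_all _ fun _ => sq_nonneg _) he2).1 hX'
    have hnull : volume ({q | e q ≠ 0} ∩ Ioo a b) = 0 := by
      refine le_antisymm ?_ bot_le
      have h0 := ae_iff.1 hae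
      rw [Measure.restrict_apply' measurableSet_Ioc] at h0
      refine (measure_mono ?_).trans h0.le
      rintro q ⟨hq, hq'⟩
      exact ⟨by simpa using hq, Ioo_subset_Ioc_self hq'⟩
    have hopen : IsOpen (Ioo a b ∩ e ⁻¹' {0}ᶜ) :=
      hfc.isOpen_inter_preimage isOpen_Ioo isOpen_compl_singleton
    have hpos := hopen.measure_pos volume ⟨θ, hθ, hne⟩
    rw [inter_comm] at hnull
    exact hpos.ne' hnull
  obtain ⟨A, hA'⟩ := heq hWa hWb rfl (by linarith)
  -- the amplitude
  have hP2 : P = A ^ 2 * π := by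
    rw [hPdef, intervalIntegral.integral_congr (g := fun θ =>
      A ^ 2 * ((1 + Real.cos (θ - (a + π))) / 2)) ?_]
    · rw [intervalIntegral.integral_const_mul, intervalIntegral.integral_div,
        intervalIntegral.integral_add (by simp) (Continuous.intervalIntegrable (by fun_prop) _ _),
        intervalIntegral.integral_comp_sub_right (fun θ => Real.cos θ) (a + π), integral_cos]
      rw [show b - (a + π) = π by rw [ha, hb]; ring, show a - (a + π) = -π by ring,
        Real.sin_neg, Real.sin_pi]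
      simp only [intervalIntegral.integral_const, smul_eq_mul, hb, ← ha]; ring
    · intro θ hθ
      rw [uIcc_of_le hab.le] at hθ
      have := hA' θ hθ
      simp only [this]
      rw [mul_pow, Real.cos_sq, show 2 * ((θ - (a + π)) / 2) = θ - (a + π) by ring]; ring
  have hfW' : ∫ θ in a..b, f θ * W θ = -(P / 2) := by
    have heW := intervalIntegrable_mul (hfm.add (hWc.measurable.div_const 2)) hWc.measurable
      he2 hW2
    have h0 : ∫ θ in a..b, e θ * W θ = 0 := by
      have h1 := abs_integral_mul_le hab.le he2 hW2 heW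
      rw [← hX, hX', Real.sqrt_zero, zero_mul] at h1
      exact abs_nonpos_iff.1 h1
    rw [show (fun θ => e θ * W θ) = fun θ => f θ * W θ + (1 / 2) * W θ ^ 2 by
      funext θ; simp only [hedef]; ring,
      intervalIntegral.integral_add hfW (hW2.const_mul _),
      intervalIntegral.integral_const_mul, ← hPdef] at h0
    linarith
  refine ⟨⟨A, ?_, hA'⟩, fun θ hθ => ?_⟩
  · rw [eq_div_iff Real.pi_pos.ne', ← hP2]
    linarith
  · have := he0 θ hθ
    simp only [hedef, hf] at this
    linarith

theorem rigidity (hG : GrowthSpec) (hPart : PartitionSpec) (hComp : ComponentsSpec)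
    (hEB : EnergyBoundSpec) (hOA : OneArcSpec) (hW : WirtingerSpec) : RigiditySpec := by
  intro K u V h hV hb x hx hy
  obtain ⟨C, -, hEB⟩ := hEB
  have hc := hComp K u h.toIsGM
  have hD : ∀ r : ℝ, 0 < r → dir K u x r = r := fun r hr => by
    have := hy r hr
    rwa [yrat, div_eq_one_iff_eq hr.ne'] at this
  have hVK : ∀ p ∈ K, V p = V x := fun p hp => hb p hp x hx
  set W : ℂ → ℝ := fun z => V z - V x with hWdef
  -- one crossing at every good radius
  have hgood : ∀ r, GoodRadius K u x r →
      ∃ t, IsPartition K x r t 1 ∧ tauC u x r + rhoC u x r = 1 := by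
    intro r hg
    have hr := hg.pos
    have hsum : tauC u x r + rhoC u x r = 1 :=
      hg.deriv.unique ((hasDerivAt_id r).congr_of_eventuallyEq
        ((eventually_gt_nhds hr).mono fun s hs => hD s hs))
    obtain ⟨t, m, ht⟩ := exists_partition hPart hc hx hg
    have hle := hEB K u V h.toIsGM hV x r 0 hg le_rfl
      (fun p hp q hq => by rw [hb p hp q hq]; simp) t m ht
    rw [hD r hr, Real.zero_rpow (by norm_num)] at hle
    simp only [zero_mul, add_zero, mul_zero] at hle
    have harc : 1 ≤ arcSum u x r t m := le_of_mul_le_mul_left (by linarith) hr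
    have hm : m = 1 := by
      by_contra hm1
      have hm2 : 2 ≤ m := by have := ht.1; omega
      have hlt : ∀ i ∈ Finset.range m, t i < t (i + 1) := fun i hi =>
        (ht.2.2 i (Finset.mem_range.1 hi)).1.1
      have hstep : ∀ i ∈ Finset.range m, t (i + 1) - t i < 2 * π := by
        intro i hi
        have htot : ∑ j ∈ Finset.range m, (t (j + 1) - t j) = 2 * π := by
          rw [Finset.sum_range_sub t m, ht.2.1]; ring
        rw [← Finset.add_sum_erase _ _ hi] at htot
        have : 0 < ∑ j ∈ (Finset.range m).erase i, (t (j + 1) - t j) := by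
          refine Finset.sum_pos (fun j hj => sub_pos.2 (hlt j (Finset.mem_of_mem_erase hj))) ?_
          refine Finset.card_pos.1 ?_
          rw [Finset.card_erase_of_mem hi, Finset.card_range]; omega
        linarith
      set T : ℕ → ℝ := fun i => tauArc u x r (t i) (t (i + 1))
      set R : ℕ → ℝ := fun i => rhoArc u x r (t i) (t (i + 1))
      have hTR : ∑ i ∈ Finset.range m, (T i + R i) = 1 := by
        rw [Finset.sum_add_distrib, sum_tauArc hg ht, sum_rhoArc hg ht, hsum]
      have hterm : ∀ i ∈ Finset.range m, (t (i + 1) - t i) / π * Real.sqrt (T i * R i) ≤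
          (t (i + 1) - t i) / (2 * π) * (T i + R i) ∧ 0 ≤ T i + R i := by
        intro i hi
        have h1 := tauArc_nonneg u x hr.le (hlt i hi).le
        have h2 := rhoArc_nonneg u x hr.le (hlt i hi).le
        refine ⟨?_, add_nonneg h1 h2⟩
        have h3 : 2 * Real.sqrt (T i * R i) ≤ T i + R i := by
          nlinarith [Real.sq_sqrt (mul_nonneg h1 h2), Real.sqrt_nonneg (T i * R i),
            sq_nonneg (T i - R i)]
        calc (t (i + 1) - t i) / π * Real.sqrt (T i * R i)
            = (t (i + 1) - t i) / (2 * π) * (2 * Real.sqrt (T i * R i)) := by ring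
          _ ≤ _ := mul_le_mul_of_nonneg_left h3
            (div_nonneg (by linarith [hlt i hi]) Real.two_pi_pos.le)
      obtain ⟨i, hi, hipos⟩ : ∃ i ∈ Finset.range m, 0 < T i + R i := by
        by_contra hall
        simp only [not_exists, not_and, not_lt] at hall
        linarith [Finset.sum_nonpos hall]
      have : arcSum u x r t m < ∑ i ∈ Finset.range m, (T i + R i) := by
        refine Finset.sum_lt_sum (fun j hj => ?_) ⟨i, hi, ?_⟩
        · refine (hterm j hj).1.trans (mul_le_of_le_one_left (hterm j hj).2 ?_)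
          rw [div_le_one Real.two_pi_pos]; exact (hstep j hj).le
        · refine (hterm i hi).1.trans_lt ((mul_lt_iff_lt_one_left hipos).2 ?_)
          rw [div_lt_one Real.two_pi_pos]; exact hstep i hi
      linarith
    subst hm
    exact ⟨t, ht, hsum⟩
  -- homogeneity of the stream function
  have hhom : ∀ z ∉ K, fderiv ℝ V z (z - x) = W z / 2 := by
    have hopen : IsOpen Kᶜ := h.toIsGM.isOpen_compl
    have hcl : ContinuousOn (fun z => fderiv ℝ V z (z - x)) Kᶜ := by
      have hd : ContinuousOn (fun z => fderiv ℝ u z) Kᶜ :=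
        (h.toIsGM.contDiffOn 1).continuousOn_fderiv_of_isOpen hopen le_rfl
      refine (hd.clm_apply (show Continuous (fun z : ℂ => -(Complex.I * (z - x))) by
        fun_prop).continuousOn).congr fun z hz => ?_
      exact hV.fderiv_eq z hz _
    intro z hz
    by_contra hne
    have hS : IsOpen (Kᶜ ∩ (fun z => fderiv ℝ V z (z - x) - W z / 2) ⁻¹' {0}ᶜ) :=
      (hcl.sub ((hV.cont.sub continuous_const).div_const 2).continuousOn).isOpen_inter_preimage
        hopen isOpen_compl_singleton
    have hzx : 0 < ‖z - x‖ := norm_pos_iff.2 (sub_ne_zero.2 fun hh => hz (hh ▸ hx))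
    obtain ⟨δ, hδ, hball⟩ := Metric.isOpen_iff.1 hS z ⟨hz, by simpa [sub_eq_zero] using hne⟩
    have hpos : 0 < volume (Ioo ‖z - x‖ (‖z - x‖ + δ)) := by
      rw [Real.volume_Ioo]; simpa using hδ
    obtain ⟨r, hr, hgr⟩ : ∃ r ∈ Ioo ‖z - x‖ (‖z - x‖ + δ), GoodRadius K u x r := by
      by_contra hcon
      simp only [not_exists, not_and] at hcon
      exact hpos.ne' (measure_mono_null
        (fun r hr => show ¬(0 < r → GoodRadius K u x r) from
          fun hh => hcon r hr (hh (hzx.trans hr.1))) (ae_iff.1 (hG K u h.toIsGM x).2.1))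
    obtain ⟨t, ht, hsum⟩ := hgood r hgr
    set θ := toIcoMod Real.two_pi_pos (t 0) (z - x).arg with hθ
    have hzθ : z = circleMap x ‖z - x‖ θ := by
      have hper : circleMap x ‖z - x‖ θ = circleMap x ‖z - x‖ (z - x).arg := by
        rw [hθ, toIcoMod, zsmul_eq_mul]
        exact (periodic_circleMap x ‖z - x‖).sub_int_mul_eq _
      rw [hper, circleMap, Complex.norm_mul_exp_arg_mul_I]; ring
    have hw : circleMap x r θ ∈ ball z δ := by
      rw [mem_ball, dist_eq_norm]
      nth_rewrite 1 [hzθ]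
      rw [show circleMap x r θ - circleMap x ‖z - x‖ θ = circleMap 0 (r - ‖z - x‖) θ by
        simp [circleMap]; ring, norm_circleMap_zero, abs_of_pos (sub_pos.2 hr.1)]
      linarith [hr.2]
    obtain ⟨hwK, hwne⟩ := hball hw
    have hmem := toIcoMod_mem_Ico Real.two_pi_pos (t 0) (z - x).arg
    rw [← hθ] at hmem
    have ht0 : circleMap x r (t 0) ∈ K := (ht.2.2 0 one_pos).2
    have hθI : θ ∈ Ioo (t 0) (t 0 + 2 * π) := by
      refine ⟨lt_of_le_of_ne hmem.1 fun hh => hwK (hh ▸ ht0), hmem.2⟩
    have hrel := (circle_equality hW hOA h hV hgr ht (hD r hgr.pos) hsum).2 θ hθI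
    refine hwne ?_
    show fderiv ℝ V (circleMap x r θ) (circleMap x r θ - x) - W (circleMap x r θ) / 2 = 0
    rw [fderiv_stream_radial hV hwK, hrel, hWdef, hVK _ ht0]; ring
  have hWcont : Continuous W := hV.cont.sub continuous_const
  -- along rays
  have hray : ∀ θ s r : ℝ, 0 < s → 0 < r →
      W (circleMap x s θ) / Real.sqrt s = W (circleMap x r θ) / Real.sqrt r := by
    intro θ s r hs hr
    have hcirc : Continuous (fun q : ℝ => circleMap x q θ) := by unfold circleMap; fun_prop
    refine eq_of_deriv_zero_off_zeros (φ := fun q => W (circleMap x q θ) / Real.sqrt q)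
      ((hWcont.comp hcirc).continuousOn.div Real.continuous_sqrt.continuousOn
        fun q hq => (Real.sqrt_pos.2 hq).ne') (fun q hq hne => ?_) hs hr
    have hqK : circleMap x q θ ∉ K := by
      intro hmem
      apply hne
      simp [hWdef, hVK _ hmem]
    have hc' : HasDerivAt (fun q : ℝ => circleMap x q θ) (Complex.exp (θ * Complex.I)) q := by
      unfold circleMap
      simpa using (((hasDerivAt_id q).ofReal_comp).mul_const
        (Complex.exp (θ * Complex.I))).const_add x
    have hW1 : HasDerivAt (fun q => W (circleMap x q θ))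
        (fderiv ℝ V (circleMap x q θ) (Complex.exp (θ * Complex.I))) q :=
      ((hV.diff _ hqK).hasFDerivAt.comp_hasDerivAt q hc').sub_const _
    have hval : q * fderiv ℝ V (circleMap x q θ) (Complex.exp (θ * Complex.I)) =
        W (circleMap x q θ) / 2 := by
      rw [← hhom _ hqK, circleMap_eq_smul, map_smul, smul_eq_mul]
    refine (hW1.div (Real.hasDerivAt_sqrt hq.ne') (Real.sqrt_pos.2 hq).ne').congr_deriv ?_
    have hsq := Real.sq_sqrt hq.le
    set s' := Real.sqrt q
    have hs' : 0 < s' := Real.sqrt_pos.2 hq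
    rw [div_eq_zero_iff]; left
    field_simp
    rw [hsq]; linarith
  -- a reference circle
  obtain ⟨r₀, hr₀, hg₀⟩ : ∃ r₀ ∈ Ioo (1 : ℝ) 2, GoodRadius K u x r₀ := by
    by_contra hcon
    simp only [not_exists, not_and] at hcon
    have hpos : 0 < volume (Ioo (1 : ℝ) 2) := by rw [Real.volume_Ioo]; simp
    exact hpos.ne' (measure_mono_null
      (fun r hr => show ¬(0 < r → GoodRadius K u x r) from
        fun hh => hcon r hr (hh (by linarith [hr.1]))) (ae_iff.1 (hG K u h.toIsGM x).2.1))
  obtain ⟨t, ht, hsum⟩ := hgood r₀ hg₀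
  have hr₀0 := hg₀.pos
  obtain ⟨⟨A, hA, hAeq⟩, -⟩ := circle_equality hW hOA h hV hg₀ ht (hD r₀ hr₀0) hsum
  rw [hVK _ (ht.2.2 0 one_pos).2] at hAeq
  set θ₀ := t 0 + π with hθ₀
  set B := A / Real.sqrt r₀ with hBdef
  have hB2 : B ^ 2 = 2 / π := by
    rw [hBdef, div_pow, Real.sq_sqrt hr₀0.le, hA]; field_simp
  have hB0 : B ≠ 0 := fun hh => by
    rw [hh] at hB2
    have : (0 : ℝ) < 2 / π := by positivity
    norm_num at hB2
    linarith
  have hform : ∀ r : ℝ, 0 < r → ∀ φ ∈ Icc (-π) π,
      W (circleMap x r (θ₀ + φ)) = B * Real.sqrt r * Real.cos (φ / 2) := by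
    intro r hr φ hφ
    have h1 := hray (θ₀ + φ) r r₀ hr hr₀0
    have hmem : θ₀ + φ ∈ Icc (t 0) (t 0 + 2 * π) := by
      constructor <;> simp only [hθ₀] <;> linarith [hφ.1, hφ.2]
    rw [show W (circleMap x r₀ (θ₀ + φ)) = A * Real.cos ((θ₀ + φ - θ₀) / 2) from
      hAeq _ hmem, add_sub_cancel_left] at h1
    have hsr := (Real.sqrt_pos.2 hr).ne'
    rw [div_eq_iff hsr] at h1
    rw [h1, hBdef]; ring
  -- polar coordinates around `x`
  have hpolar : ∀ z : ℂ, z ≠ x → ∃ φ ∈ Ioc (-π) π,
      φ = ((z - x) * Complex.exp (-(θ₀ * Complex.I))).arg ∧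
      z = circleMap x ‖z - x‖ (θ₀ + φ) := by
    intro z hz
    refine ⟨_, Complex.arg_mem_Ioc _, rfl, ?_⟩
    set w := (z - x) * Complex.exp (-(θ₀ * Complex.I)) with hw
    have hwn : ‖w‖ = ‖z - x‖ := by
      rw [hw, norm_mul]; simp [Complex.norm_exp]
    have h1 := Complex.norm_mul_exp_arg_mul_I w
    rw [hwn] at h1
    simp only [circleMap]
    push_cast
    rw [add_mul, Complex.exp_add, ← mul_assoc, mul_comm ((‖z - x‖ : ℂ)), mul_assoc, h1, hw,
      mul_comm (z - x), ← mul_assoc, ← Complex.exp_add]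
    simp
  have hon : ∀ r : ℝ, 0 < r → circleMap x r (θ₀ + π) ∈ K := by
    intro r hr
    obtain ⟨p, hp, hps⟩ := encard_pos.1 (lt_of_lt_of_le zero_lt_one (hc.meets x hx r hr))
    have hpx : p ≠ x := fun hh => by simp [hh] at hps; exact hr.ne hps
    obtain ⟨φ, hφ, -, hpφ⟩ := hpolar p hpx
    rw [mem_sphere, dist_eq_norm] at hps
    rw [hps] at hpφ
    have hW0 : W p = 0 := by simp [hWdef, hVK p hp]
    rw [hpφ, hform r hr φ ⟨hφ.1.le, hφ.2⟩] at hW0
    have hcos : Real.cos (φ / 2) = 0 := by
      simpa [hB0, (Real.sqrt_pos.2 hr).ne'] using hW0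
    have hφπ : φ = π := by
      by_contra hne
      have : 0 < Real.cos (φ / 2) := Real.cos_pos_of_mem_Ioo
        ⟨by linarith [hφ.1], by linarith [lt_of_le_of_ne hφ.2 hne]⟩
      linarith
    rw [hφπ] at hpφ
    exact hpφ ▸ hp
  have hoff : ∀ r : ℝ, 0 < r → ∀ φ ∈ Ioo (-π) π, circleMap x r (θ₀ + φ) ∉ K := by
    intro r hr φ hφ hmem
    have h1 : W (circleMap x r (θ₀ + φ)) = 0 := by simp [hWdef, hVK _ hmem]
    rw [hform r hr φ (Ioo_subset_Icc_self hφ)] at h1
    have : 0 < Real.cos (φ / 2) :=
      Real.cos_pos_of_mem_Ioo ⟨by linarith [hφ.1], by linarith [hφ.2]⟩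
    have hne : B * Real.sqrt r * Real.cos (φ / 2) ≠ 0 :=
      mul_ne_zero (mul_ne_zero hB0 (Real.sqrt_pos.2 hr).ne') this.ne'
    exact hne h1
  have hKray : K = ray x (θ₀ + π) := by
    ext z
    constructor
    · intro hz
      rcases eq_or_ne z x with rfl | hzx
      · exact ⟨0, self_mem_Ici, by simp⟩
      obtain ⟨φ, hφ, -, hzφ⟩ := hpolar z hzx
      have hr : 0 < ‖z - x‖ := norm_pos_iff.2 (sub_ne_zero.2 hzx)
      have hφπ : φ = π := by
        by_contra hne
        exact hoff _ hr φ ⟨hφ.1, lt_of_le_of_ne hφ.2 hne⟩ (hzφ ▸ hz)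
      exact ⟨‖z - x‖, hr.le, by rw [hφπ] at hzφ; exact hzφ.symm⟩
    · rintro ⟨r, hr, rfl⟩
      rcases (show (0 : ℝ) ≤ r from hr).eq_or_lt with rfl | hr'
      · simpa using hx
      · exact hon r hr'
  -- integrate for `u`
  set c := -B with hcdef
  have htan : ∀ r : ℝ, 0 < r → ∀ φ ∈ Ioo (-π) π,
      r * dT u x r (θ₀ + φ) = -(B * Real.sqrt r * Real.cos (φ / 2)) / 2 := by
    intro r hr φ hφ
    have h1 := hhom _ (hoff r hr φ hφ)
    rw [fderiv_stream_radial hV (hoff r hr φ hφ), hform r hr φ (Ioo_subset_Icc_self hφ)] at h1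
    linarith
  have hdu : ∀ z ∉ K, DifferentiableAt ℝ u z := fun z hz =>
    (((h.toIsGM.contDiffOn 1).contDiffAt (h.toIsGM.isOpen_compl.mem_nhds hz)).differentiableAt
      one_ne_zero)
  set k : ℝ → ℝ → ℝ := fun r φ =>
    u (circleMap x r (θ₀ + φ)) + B * Real.sqrt r * Real.sin (φ / 2) with hk
  have hkφ : ∀ r : ℝ, 0 < r → ∀ φ ∈ Ioo (-π) π, k r φ = k r 0 := by
    intro r hr φ hφ
    have hder : ∀ q ∈ Ioo (-π) π, HasDerivAt (fun p => k r p) 0 q := by
      intro q hq
      have hq' := hoff r hr q hq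
      have h1 : HasDerivAt (fun p => u (circleMap x r (θ₀ + p)))
          (r * dT u x r (θ₀ + q)) q := by
        have hc1 : HasDerivAt (fun p => circleMap x r (θ₀ + p))
            (circleMap 0 r (θ₀ + q) * Complex.I) q :=
          (hasDerivAt_circleMap x r (θ₀ + q)).comp_const_add θ₀ q
        refine ((hdu _ hq').hasFDerivAt.comp_hasDerivAt q hc1).congr_deriv ?_
        rw [show circleMap 0 r (θ₀ + q) * Complex.I =
          r • (Complex.exp ((θ₀ + q : ℝ) * Complex.I) * Complex.I) by
            simp [circleMap, Complex.real_smul]; ring, map_smul, smul_eq_mul]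
        rfl
      refine (h1.add (((hasDerivAt_id q).div_const 2).sin.const_mul
        (B * Real.sqrt r))).congr_deriv ?_
      rw [htan r hr q hq]; simp only [id_eq]; ring
    exact isOpen_Ioo.is_const_of_deriv_eq_zero isPreconnected_Ioo
      (fun q hq => (hder q hq).differentiableAt.differentiableWithinAt)
      (fun q hq => (hder q hq).deriv) hφ ⟨neg_neg_iff_pos.2 Real.pi_pos, Real.pi_pos⟩
  have hkr : ∀ r : ℝ, 0 < r → u (circleMap x r θ₀) = u (circleMap x 1 θ₀) := by
    intro r hr
    have hder : ∀ q ∈ Ioi (0 : ℝ), HasDerivAt (fun q => u (circleMap x q θ₀)) 0 q := by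
      intro q hq
      have hq' : circleMap x q θ₀ ∉ K := by
        simpa using hoff q hq 0 ⟨neg_neg_iff_pos.2 Real.pi_pos, Real.pi_pos⟩
      have hc' : HasDerivAt (fun q : ℝ => circleMap x q θ₀)
          (Complex.exp (θ₀ * Complex.I)) q := by
        unfold circleMap
        simpa using (((hasDerivAt_id q).ofReal_comp).mul_const
          (Complex.exp (θ₀ * Complex.I))).const_add x
      have h0 : HasDerivAt (fun θ => V (circleMap x q θ) - V x) 0 θ₀ := by
        refine HasDerivAt.congr_of_eventuallyEq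
          (f := fun θ => B * Real.sqrt q * Real.cos ((θ - θ₀) / 2)) ?_ ?_
        · exact ((((hasDerivAt_id θ₀).sub_const θ₀).div_const 2).cos.const_mul
            (B * Real.sqrt q)).congr_deriv (by simp)
        · filter_upwards [Ioo_mem_nhds (show θ₀ - π < θ₀ by linarith [Real.pi_pos])
            (show θ₀ < θ₀ + π by linarith [Real.pi_pos])] with θ hθ
          have := hform q hq (θ - θ₀) ⟨by linarith [hθ.1], by linarith [hθ.2]⟩
          rwa [add_sub_cancel] at this
      refine ((hdu _ hq').hasFDerivAt.comp_hasDerivAt q hc').congr_deriv ?_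
      have := (hasDerivAt_stream hV hq' (V x)).unique h0
      exact (mul_eq_zero.1 this).resolve_left (ne_of_gt hq)
    exact isOpen_Ioi.is_const_of_deriv_eq_zero (f := fun q => u (circleMap x q θ₀))
      isPreconnected_Ioi (fun q hq => (hder q hq).differentiableAt.differentiableWithinAt)
      (fun q hq => (hder q hq).deriv) hr (show (0 : ℝ) < 1 from one_pos)
  refine ⟨x, θ₀, u (circleMap x 1 θ₀), -B * Real.sqrt (π / 2), ?_, hKray, fun z hz => ?_⟩
  · refine sq_eq_one_iff.1 ?_
    rw [mul_pow, Real.sq_sqrt (by positivity), neg_sq, hB2]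
    field_simp
  · have hzx : z ≠ x := fun hh => hz (hh ▸ hx)
    obtain ⟨φ, hφ, hφdef, hzφ⟩ := hpolar z hzx
    have hr : 0 < ‖z - x‖ := norm_pos_iff.2 (sub_ne_zero.2 hzx)
    have hφ' : φ ∈ Ioo (-π) π := by
      refine ⟨hφ.1, lt_of_le_of_ne hφ.2 fun hh => hz ?_⟩
      rw [hzφ, hh]; exact hon _ hr
    have h1 := hkφ _ hr φ hφ'
    simp only [hk, zero_div, Real.sin_zero, mul_zero, add_zero] at h1
    rw [← hzφ, hkr _ hr] at h1
    rw [crackTip, ← hφdef]
    have : Real.sqrt (π / 2) * Real.sqrt (2 * ‖z - x‖ / π) = Real.sqrt ‖z - x‖ := by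
      rw [← Real.sqrt_mul (by positivity)]; congr 1; field_simp
    linear_combination h1 + B * Real.sin (φ / 2) * this

end Vale.Agent.P128
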