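import Vale.Agent.P128.Spec2
import Vale.Agent.P128.TipBasic
import Vale.Agent.P128.Competitor

/-!
# P128, piece II-b: a disconnected complement forces `u` to be locally constant
-/

open MeasureTheory Set Metric Filter
open scoped ENNReal Topology Real

noncomputable section

namespace Vale.Agent.P128

namespace SepFlat

/-- An unbounded component of the complement meets every large circle. -/
theorem exists_mem_sphere {U : Set ℂ} {z x : ℂ} (hz : z ∈ U)
    (hu : ¬ Bornology.IsBounded (connectedComponentIn U z)) {r : ℝ} (hr : dist z x ≤ r) :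
    ∃ q ∈ connectedComponentIn U z, q ∈ sphere x r := by
  obtain ⟨w, hw, hwr⟩ : ∃ w ∈ connectedComponentIn U z, r ≤ dist w x := by
    by_contra hcon
    simp only [not_exists, not_and, not_le] at hcon
    exact hu ((isBounded_closedBall (x := x) (r := r)).subset fun w hw => (hcon w hw).le)
  exact isPreconnected_connectedComponentIn.intermediate_value
    (mem_connectedComponentIn hz) hw (continuous_id.dist continuous_const).continuousOn ⟨hr, hwr⟩

/-- The complement of one crossing point on a circle is connected. -/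
theorem eq_component {K : Set ℂ} {x : ℂ} {r : ℝ} (hP : PartitionSpec) (hr : 0 < r)
    (h1 : cnt K x r = 1) {a b : ℂ} (ha : a ∈ sphere x r) (haK : a ∉ K)
    (hb : b ∈ sphere x r) (hbK : b ∉ K) :
    connectedComponentIn Kᶜ a = connectedComponentIn Kᶜ b := by
  have hfin : (K ∩ sphere x r).Finite := by
    refine encard_ne_top_iff.1 ?_
    show cnt K x r ≠ ⊤
    rw [h1]
    exact ENat.one_ne_top
  have hne : (K ∩ sphere x r).Nonempty := by
    refine encard_pos.1 ?_
    show 0 < cnt K x r
    rw [h1]
    exact zero_lt_one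
  obtain ⟨hex, hall⟩ := hP K x r hr hfin
  obtain ⟨t, m, ht⟩ := hex hne
  obtain rfl : m = 1 := by
    have := (hall t m ht).1
    rw [h1] at this
    exact_mod_cast this
  obtain ⟨⟨-, -, hfree⟩, ht0⟩ := ht.2.2 0 zero_lt_one
  rw [ht.2.1] at hfree
  set S := circleMap x r '' Ioo (t 0) (t 0 + 2 * π)
  have hS : IsPreconnected S :=
    isPreconnected_Ioo.image _ (continuous_circleMap x r).continuousOn
  have hSK : S ⊆ Kᶜ := by
    rintro _ ⟨θ, hθ, rfl⟩
    exact hfree θ hθ
  have hmem : ∀ p ∈ sphere x r, p ∉ K → p ∈ S := by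
    intro p hp hpK
    rw [← abs_of_pos hr, ← range_circleMap] at hp
    obtain ⟨θ, rfl⟩ := hp
    obtain ⟨θ', hθ', he⟩ :=
      (periodic_circleMap x r).exists_mem_Ico Real.two_pi_pos θ (t 0)
    rcases hθ'.1.eq_or_lt with h | h
    · exact absurd (he ▸ h ▸ ht0) hpK
    · exact ⟨θ', ⟨h, hθ'.2⟩, he.symm⟩
  exact connectedComponentIn_eq
    (hS.subset_connectedComponentIn (hmem a ha haK) hSK (hmem b hb hbK))

end SepFlat

open SepFlat in
/-- II-b. -/
theorem sepFlat (hMany : GenManyCompSpec) (hS : GenStreamSpec)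
    (hM : GenMonoSpec) (hT : GenTipValueSpec) (hN : NoBoundedSpec) (hP : PartitionSpec) :
    SepFlatSpec := by
  intro K u h hnc
  by_cases hKc : IsPreconnected K
  swap
  · exact hMany K u h hKc
  rcases K.eq_empty_or_nonempty with hK | ⟨x, hx⟩
  · exact absurd (by rw [hK, compl_empty]; exact isPreconnected_univ) hnc
  obtain ⟨V, hV⟩ := hS K u h
  have hbal : Balanced K V := fun p hp q hq =>
    (hV.const p hp q (hKc.subset_connectedComponentIn hp subset_rfl hq)).symm
  obtain ⟨hmono, hends⟩ := hM K u V h hV x hx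
  obtain ⟨L, hL0, hLt, -⟩ := hends atTop (Or.inl rfl)
  rcases hL0.eq_or_lt with hL | hL
  · subst hL
    refine gradSq_eq_zero_of_dir h x fun r hr => ?_
    have hy : yrat K u x r ≤ 0 := ge_of_tendsto hLt (by
      filter_upwards [eventually_ge_atTop r] with s hs
      exact hmono hbal hr (lt_of_lt_of_le hr hs) hs)
    rw [yrat, div_le_iff₀ hr, zero_mul] at hy
    exact hy
  · exfalso
    obtain ⟨-, hmost⟩ := hT K u V h hV hbal x hx atTop (Or.inl rfl) L hL hLt
    have hnc' : ∃ z ∈ Kᶜ, ∃ w ∈ Kᶜ, connectedComponentIn Kᶜ z ≠ connectedComponentIn Kᶜ w := by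
      obtain ⟨z, hz⟩ : (Kᶜ : Set ℂ).Nonempty := h.dense_compl.nonempty
      by_contra hcon
      simp only [not_exists, not_and, not_not] at hcon
      refine hnc ?_
      have : Kᶜ = connectedComponentIn Kᶜ z := (connectedComponentIn_subset _ _).antisymm'
        fun w hw => (hcon z hz w hw) ▸ mem_connectedComponentIn hw
      rw [this]
      exact isPreconnected_connectedComponentIn
    obtain ⟨z, hz, w, hw, hne⟩ := hnc'
    obtain ⟨R, hR, r, hr1, hr2, hr3⟩ := ((eventually_ge_atTop (max (max (dist z x) (dist w x)) 1)).and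
      (Most.exists_window (Or.inl rfl) hmost one_pos)).exists
    have hR1 : 1 ≤ R := (le_max_right _ _).trans hR
    obtain ⟨a, ha, has⟩ := exists_mem_sphere hz (hN K u h z hz)
      (show dist z x ≤ r from (((le_max_left _ _).trans (le_max_left _ _)).trans hR).trans hr1)
    obtain ⟨b, hb, hbs⟩ := exists_mem_sphere hw (hN K u h w hw)
      (show dist w x ≤ r from (((le_max_right _ _).trans (le_max_left _ _)).trans hR).trans hr1)
    refine hne ?_
    rw [connectedComponentIn_eq ha, connectedComponentIn_eq hb]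
    exact eq_component hP (by linarith) hr3 has (connectedComponentIn_subset _ _ ha) hbs
      (connectedComponentIn_subset _ _ hb)

end Vale.Agent.P128
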