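import Vale.Agent.P128.Stream.Cut

/-!
# P128, piece H: the stream function

The stream potential is constant along every arc contained in `K`: test the Euler-Lagrange equation
with a cutoff of the potential of the arc, which jumps across the arc only, and let the cutoff
exhaust the plane minus the two endpoints.
-/

open MeasureTheory Set Metric Filter
open scoped ENNReal Topology Real

noncomputable section

namespace Vale.Agent.P128.StreamAux

variable {K : Set ℂ} {u V : ℂ → ℝ} {g : ℝ → ℂ} {T : ℝ} {p q : ℂ}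

/-- The test identity for a cutoff vanishing near the endpoints of the arc. -/
theorem cutoff_identity (hT : TestSpec) (h : IsGM K u)
    (hweak : ∀ ψ : ℂ → ℝ, ContDiff ℝ 1 ψ → HasCompactSupport ψ →
      (∫ z, V z * fderiv ℝ ψ z 1) = ∫ z, grd K u Complex.I z * ψ z ∧
        (∫ z, V z * fderiv ℝ ψ z Complex.I) = -∫ z, grd K u 1 z * ψ z)
    (hVc : Continuous V) (d : ArcData K g T p q) {ζ : ℂ → ℝ} (hζ : ContDiff ℝ 1 ζ)
    (hζs : HasCompactSupport ζ) (hp : p ∉ tsupport ζ) (hq : q ∉ tsupport ζ) :
    (∫ z, V z * fderiv ℝ ζ z (Ev p q z)) +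
      ∫ z in Kᶜ, arcPot g T z * gradInner u ζ z = 0 := by
  have hK := h.isClosed
  have hKm : MeasurableSet Kᶜ := hK.measurableSet.compl
  set X : ℂ → ℝ := fun z => ζ z * ex p q z with hXd
  set Y : ℂ → ℝ := fun z => ζ z * ey p q z with hYd
  have hX : ContDiff ℝ 1 X := contDiff_mul_cutoff hζ hp hq fun z => contDiffAt_ex
  have hY : ContDiff ℝ 1 Y := contDiff_mul_cutoff hζ hp hq fun z => contDiffAt_ey
  have hXs : HasCompactSupport X := hζs.mul_right
  have hYs : HasCompactSupport Y := hζs.mul_right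
  set φ : ℂ → ℝ := fun z => ζ z * arcPot g T z with hφd
  have hΦ := contDiffOn_arcPot d hK
  have hfd : ∀ z ∈ Kᶜ,
      fderiv ℝ φ z 1 = -Y z + arcPot g T z * fderiv ℝ ζ z 1 ∧
      fderiv ℝ φ z Complex.I = X z + arcPot g T z * fderiv ℝ ζ z Complex.I := by
    intro z hz
    have h1 : HasFDerivAt φ _ z := (hζ.differentiable one_ne_zero z).hasFDerivAt.mul
      ((hΦ.differentiableOn one_ne_zero z hz).differentiableAt
        (hK.isOpen_compl.mem_nhds hz)).hasFDerivAt
    obtain ⟨e1, eI⟩ := arcPot_fderiv d hK hz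
    constructor <;> simp [h1.fderiv, e1, eI, hXd, hYd]
  obtain ⟨C, hC0, hC⟩ := exists_arcPot_sq_bound d hK
  obtain ⟨R, hR0, hR⟩ := hζs.isCompact.isBounded.subset_ball_lt 0 0
  have hζg : HasCompactSupport fun z => fderiv ℝ ζ z := hζs.fderiv ℝ
  obtain ⟨M, hM⟩ := (hζ.continuous_fderiv one_ne_zero).bounded_above_of_compact_support hζg
  have hM0 : 0 ≤ M := (norm_nonneg _).trans (hM 0)
  have hfin : dirichlet K φ univ < ⊤ := by
    refine lt_of_le_of_lt (b := ∫⁻ z in univ \ K, (ENNReal.ofReal (2 * (X z ^ 2 + Y z ^ 2)) +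
      ENNReal.ofReal (4 * M ^ 2) * (ball (0 : ℂ) R).indicator
        (fun z => ENNReal.ofReal (arcPot g T z ^ 2)) z)) ?_ ?_
    · refine setLIntegral_mono' (MeasurableSet.univ.diff hK.measurableSet) fun z hz => ?_
      obtain ⟨e1, eI⟩ := hfd z hz.2
      rw [gradSq, e1, eI]
      by_cases hzR : z ∈ ball (0 : ℂ) R
      · rw [indicator_of_mem hzR, ← ENNReal.ofReal_mul (by positivity),
          ← ENNReal.ofReal_add (by positivity) (by positivity)]
        refine ENNReal.ofReal_le_ofReal ?_
        have b1 : |fderiv ℝ ζ z 1| ≤ M := by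
          simpa using ((fderiv ℝ ζ z).le_opNorm 1).trans (by simpa using hM z)
        have b2 : |fderiv ℝ ζ z Complex.I| ≤ M := by
          simpa using ((fderiv ℝ ζ z).le_opNorm Complex.I).trans (by simpa using hM z)
        have s1 := sq_le_sq' (abs_le.1 b1).1 (abs_le.1 b1).2
        have s2 := sq_le_sq' (abs_le.1 b2).1 (abs_le.1 b2).2
        nlinarith [sq_nonneg (Y z + arcPot g T z * fderiv ℝ ζ z 1),
          sq_nonneg (X z - arcPot g T z * fderiv ℝ ζ z Complex.I),
          mul_le_mul_of_nonneg_left (add_le_add s1 s2) (sq_nonneg (arcPot g T z))]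
      · rw [indicator_of_notMem hzR, mul_zero, add_zero,
          fderiv_of_notMem_tsupport (𝕜 := ℝ) (fun hh => hzR (hR hh))]
        refine ENNReal.ofReal_le_ofReal ?_
        simp only [zero_apply, mul_zero, add_zero, neg_sq]
        nlinarith [sq_nonneg (X z), sq_nonneg (Y z)]
    · rw [lintegral_add_left (by have := hX.continuous; have := hY.continuous; fun_prop),
        lintegral_const_mul' _ _ ENNReal.ofReal_ne_top, lintegral_indicator measurableSet_ball,
        Measure.restrict_restrict measurableSet_ball]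
      refine ENNReal.add_lt_top.2 ⟨?_, ENNReal.mul_lt_top ENNReal.ofReal_lt_top ?_⟩
      · refine lt_of_le_of_lt (setLIntegral_le_lintegral _ _) ?_
        have hi : Integrable fun z => 2 * (X z ^ 2 + Y z ^ 2) := by
          refine Continuous.integrable_of_hasCompactSupport
            (by have := hX.continuous; have := hY.continuous; fun_prop) (hζs.mono ?_)
          intro z hz hz'
          exact hz (by simp [hXd, hYd, hz'])
        exact hi.lintegral_lt_top
      · refine lt_of_le_of_lt ?_ (lt_of_le_of_lt (hC 0 R hR0).1 ENNReal.ofReal_lt_top)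
        refine lintegral_mono_set fun z hz => ⟨hz.1, hz.2.2⟩
  have hφl : LocallyLipschitzOn Kᶜ φ := by
    intro z hz
    obtain ⟨c, t, ht, hl⟩ := ((hζ.contDiffAt).mul
      (hΦ.contDiffAt (hK.isOpen_compl.mem_nhds hz))).exists_lipschitzOnWith
    exact ⟨c, t, nhdsWithin_le_nhds ht, hl⟩
  obtain ⟨hint, hzero⟩ := hT K u h φ hφl hζs.mul_right hfin
  set S : ℂ → ℝ := fun z => grd K u Complex.I z * X z - grd K u 1 z * Y z with hSd
  have iX : Integrable fun z => grd K u Complex.I z * X z :=
    ((locallyIntegrable_grd h Complex.I (Or.inr rfl)).integrable_smul_left_of_hasCompactSupport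
      hX.continuous hXs).congr (Eventually.of_forall fun z => mul_comm _ _)
  have iY : Integrable fun z => grd K u 1 z * Y z :=
    ((locallyIntegrable_grd h 1 (Or.inl rfl)).integrable_smul_left_of_hasCompactSupport
      hY.continuous hYs).congr (Eventually.of_forall fun z => mul_comm _ _)
  have hS : Integrable S := iX.sub iY
  have hsplit : ∀ z ∈ Kᶜ, arcPot g T z * gradInner u ζ z = gradInner u φ z - S z := by
    intro z hz
    obtain ⟨e1, eI⟩ := hfd z hz
    simp only [gradInner, e1, eI, hSd, grd, indicator_of_mem hz]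
    ring
  rw [setIntegral_congr_fun hKm hsplit, integral_sub hint hS.integrableOn, hzero, zero_sub,
    setIntegral_eq_integral_of_forall_compl_eq_zero fun z hz => ?_]
  · have wX := (hweak X hX hXs).1
    have wY := (hweak Y hY hYs).2
    have hpt : ∀ z, V z * fderiv ℝ ζ z (Ev p q z) =
        V z * fderiv ℝ X z 1 + V z * fderiv ℝ Y z Complex.I := by
      intro z
      by_cases hz : z ∈ tsupport ζ
      · have hzp : z ≠ p := fun e => hp (e ▸ hz)
        have hzq : z ≠ q := fun e => hq (e ▸ hz)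
        have dX : HasFDerivAt X _ z := (hζ.differentiable one_ne_zero z).hasFDerivAt.mul
          ((contDiffAt_ex hzp hzq).differentiableAt one_ne_zero).hasFDerivAt
        have dY : HasFDerivAt Y _ z := (hζ.differentiable one_ne_zero z).hasFDerivAt.mul
          ((contDiffAt_ey hzp hzq).differentiableAt one_ne_zero).hasFDerivAt
        rw [dX.fderiv, dY.fderiv, fderiv_Ev]
        simp only [add_apply, smul_apply, smul_eq_mul]
        linear_combination (-(V z) * ζ z) * div_ex_ey hzp hzq
      · rw [fderiv_of_notMem_tsupport (𝕜 := ℝ) hz,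
          fderiv_of_notMem_tsupport (𝕜 := ℝ) (f := X) (fun hh => hz (tsupport_mul_subset_left hh)),
          fderiv_of_notMem_tsupport (𝕜 := ℝ) (f := Y) (fun hh => hz (tsupport_mul_subset_left hh))]
        simp
    simp only [hpt]
    have cX : Continuous fun z => V z * fderiv ℝ X z 1 :=
      hVc.mul ((hX.continuous_fderiv one_ne_zero).clm_apply continuous_const)
    have cY : Continuous fun z => V z * fderiv ℝ Y z Complex.I :=
      hVc.mul ((hY.continuous_fderiv one_ne_zero).clm_apply continuous_const)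
    rw [integral_add (cX.integrable_of_hasCompactSupport
        (hXs.fderiv_apply (𝕜 := ℝ) 1).mul_left)
      (cY.integrable_of_hasCompactSupport (hYs.fderiv_apply (𝕜 := ℝ) Complex.I).mul_left),
      wX, wY, integral_sub iX iY]
    ring
  · simp only [notMem_compl_iff] at hz
    simp [hSd, grd, hz]

/-- Weighted arithmetic-geometric mean for the error term of the cutoff. -/
theorem lintegral_cross_le (hG : GrowthSpec) (h : IsGM K u) {S : Set ℂ} {c : ℂ} {ρ A l : ℝ}
    (hS : S ⊆ ball c ρ) (hρ : 0 < ρ) (hl : 0 < l) (hA : 0 ≤ A)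
    (hΦ : ∫⁻ z in S \ K, ENNReal.ofReal (arcPot g T z ^ 2) ≤ ENNReal.ofReal A) :
    ∫⁻ z in S \ K, ENNReal.ofReal
        (|arcPot g T z| * (|fderiv ℝ u z 1| + |fderiv ℝ u z Complex.I|)) ≤
      ENNReal.ofReal (l * A + 2 * π * ρ / l) := by
  have hD : ∫⁻ z in S \ K, ENNReal.ofReal (gradSq u z) ≤ ENNReal.ofReal (2 * π * ρ) :=
    (lintegral_mono_set (sdiff_subset_sdiff_left hS)).trans (energy_ball_le hG h c hρ)
  calc _ ≤ ∫⁻ z in S \ K, (ENNReal.ofReal l * ENNReal.ofReal (arcPot g T z ^ 2) +
        ENNReal.ofReal l⁻¹ * ENNReal.ofReal (gradSq u z)) := by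
        refine lintegral_mono fun z => ?_
        rw [← ENNReal.ofReal_mul hl.le, ← ENNReal.ofReal_mul (by positivity),
          ← ENNReal.ofReal_add (by positivity) (mul_nonneg (by positivity) (gradSq_nonneg u z))]
        refine ENNReal.ofReal_le_ofReal ?_
        set a := |arcPot g T z|
        set x := |fderiv ℝ u z 1|
        set y := |fderiv ℝ u z Complex.I|
        rw [gradSq, ← sq_abs (arcPot g T z), ← sq_abs (fderiv ℝ u z 1),
          ← sq_abs (fderiv ℝ u z Complex.I)]
        rw [show l * a ^ 2 + l⁻¹ * (x ^ 2 + y ^ 2) = a * (x + y) +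
          ((l * a / 2 - x) ^ 2 + (l * a / 2 - y) ^ 2 + (l * a) ^ 2 / 2) / l by field_simp; ring]
        exact le_add_of_nonneg_right (by positivity)
    _ = ENNReal.ofReal l * (∫⁻ z in S \ K, ENNReal.ofReal (arcPot g T z ^ 2)) +
        ENNReal.ofReal l⁻¹ * ∫⁻ z in S \ K, ENNReal.ofReal (gradSq u z) := by
        rw [lintegral_add_right _ ((by
            unfold gradSq
            have := measurable_fderiv_apply_const ℝ u 1
            have := measurable_fderiv_apply_const ℝ u Complex.I
            fun_prop : Measurable fun z => ENNReal.ofReal l⁻¹ * ENNReal.ofReal (gradSq u z))),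
          lintegral_const_mul' _ _ ENNReal.ofReal_ne_top,
          lintegral_const_mul' _ _ ENNReal.ofReal_ne_top]
    _ ≤ ENNReal.ofReal l * ENNReal.ofReal A + ENNReal.ofReal l⁻¹ * ENNReal.ofReal (2 * π * ρ) :=
        add_le_add (mul_le_mul_right hΦ _) (mul_le_mul_right hD _)
    _ = _ := by
        rw [← ENNReal.ofReal_mul hl.le, ← ENNReal.ofReal_mul (by positivity),
          ← ENNReal.ofReal_add (by positivity) (by positivity)]
        congr 1
        ring

/-- Far away from the arc its potential is small. -/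
theorem arcPot_far_le (d : ArcData K g T p q) (hK : IsClosed K) {z : ℂ} (hz : z ∉ K) {ε : ℝ}
    (hε : 0 < ε) (hεz : ε⁻¹ ≤ ‖z‖) (hε2 : 2 * ε * (‖p‖ + T) ≤ 1) :
    |arcPot g T z| ≤ T * ε := by
  refine (arcPot_abs_le d hK hz).trans ?_
  have hsmall : ∫ t in Icc 0 T, ‖g t - z‖ ^ (-1 : ℝ) ≤ 2 * ε * T := by
    calc _ ≤ ∫ _ in Icc 0 T, 2 * ε := by
          refine setIntegral_mono_on (norm_inv_integrable d hK hz _)
            (integrableOn_const measure_Icc_lt_top.ne) measurableSet_Icc fun t ht => ?_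
          have h1 : ‖g t‖ ≤ ‖p‖ + T := by
            have := d.lip.dist_le_mul t 0
            rw [NNReal.coe_one, one_mul, d.source, dist_eq_norm, Real.dist_eq, sub_zero,
              abs_of_nonneg ht.1] at this
            have := norm_le_insert' (g t) p
            linarith [ht.2]
          have h2 : (2 * ε)⁻¹ ≤ ‖g t - z‖ := by
            have h3 := norm_sub_norm_le z (g t)
            rw [norm_sub_rev] at h3
            have h4 : ‖p‖ + T ≤ (2 * ε)⁻¹ := by
              rw [← one_div, le_div_iff₀ (by positivity)]; linarith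
            have h5 : ε⁻¹ = (2 * ε)⁻¹ + (2 * ε)⁻¹ := by field_simp; ring
            linarith
          rw [Real.rpow_neg_one]
          simpa using inv_anti₀ (by positivity) h2
      _ = 2 * ε * T := by
          simp [Real.volume_real_Icc, max_eq_left d.pos.le, mul_comm]
  calc _ ≤ (2 * π)⁻¹ * (2 * ε * T) := mul_le_mul_of_nonneg_left hsmall (by positivity)
    _ = π⁻¹ * (T * ε) := by ring
    _ ≤ T * ε := mul_le_of_le_one_left (by have := d.pos; positivity)
        (inv_le_one_of_one_le₀ (by linarith [Real.pi_gt_three]))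

theorem tendsto_far (hVb : ∀ z, |V z| ≤ 12 * Real.sqrt ‖z‖) :
    Tendsto (fun ε : ℝ => ∫ z, V z * fderiv ℝ (cut ε 0) z (Ev p q z)) (𝓝[>] 0) (𝓝 0) := by
  obtain ⟨M, hM0, hM⟩ := exists_fderiv_eta_bound
  set D := ‖q - p‖
  set C := 12 * Real.sqrt 2 * M * (2 * π)⁻¹ * (4 * D) * (4 * π) with hC
  refine squeeze_zero_norm' (a := fun ε => C * Real.sqrt ε) ?_ ?_
  · filter_upwards [self_mem_nhdsWithin, nhdsWithin_le_nhds (eventually_lt_nhds
      (show (0 : ℝ) < (2 * (‖p‖ + ‖q‖ + 1))⁻¹ by positivity))] with ε hε hε'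
    have hε0 : 0 < ε := hε
    have hbig : 2 * ε * (‖p‖ + ‖q‖ + 1) ≤ 1 := by
      have := (lt_div_iff₀ (show (0 : ℝ) < 2 * (‖p‖ + ‖q‖ + 1) by positivity)).1
        (by rwa [one_div])
      linarith
    set r := 2 / ε with hr
    set B := 12 * Real.sqrt r * (ε * M * ((2 * π)⁻¹ * (4 * D * ε ^ 2)))
    have hsupp : ∀ z, z ∉ closedBall (0 : ℂ) r → V z * fderiv ℝ (cut ε 0) z (Ev p q z) = 0 := by
      intro z hz
      rw [mem_closedBall_zero_iff, not_le, hr, div_lt_iff₀ hε0] at hz
      rw [fderiv_cut_eq_zero hε0.le (Or.inr (by rw [sub_zero]; linarith))]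
      simp
    rw [← setIntegral_eq_integral_of_forall_compl_eq_zero hsupp]
    refine (norm_setIntegral_le_of_norm_le_const (C := B) measure_closedBall_lt_top
      fun z hz => ?_).trans (le_of_eq ?_)
    · by_cases hzs : ε * ‖z‖ < 1
      · rw [fderiv_cut_eq_zero hε0.le (Or.inl (by rwa [sub_zero]))]
        simp only [zero_apply, mul_zero, norm_zero]
        positivity
      rw [not_lt] at hzs
      rw [mem_closedBall_zero_iff] at hz
      rw [norm_mul]
      refine mul_le_mul ((hVb z).trans ?_) ((ContinuousLinearMap.le_opNorm _ _).trans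
        (mul_le_mul (norm_fderiv_cut_le hM hε0.le 0 z) ?_ (norm_nonneg _) (by positivity)))
          (norm_nonneg _) (by positivity)
      · exact mul_le_mul_of_nonneg_left (Real.sqrt_le_sqrt hz) (by norm_num)
      · rw [norm_Ev]
        refine mul_le_mul_of_nonneg_left ?_ (by positivity)
        have hz0 : 0 < ‖z‖ := by nlinarith
        have hzp : ‖z‖ / 2 ≤ ‖z - p‖ := by
          have := norm_sub_norm_le z p
          nlinarith [norm_nonneg q]
        have hzq : ‖z‖ / 2 ≤ ‖z - q‖ := by
          have := norm_sub_norm_le z q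
          nlinarith [norm_nonneg p]
        have e : kap p q z = (q - p) / ((z - q) * (z - p)) := by
          rw [kap, inv_sub_inv (norm_pos_iff.1 (lt_of_lt_of_le (by positivity) hzq))
            (norm_pos_iff.1 (lt_of_lt_of_le (by positivity) hzp))]
          congr 1; ring
        rw [e, norm_div, norm_mul]
        calc D / (‖z - q‖ * ‖z - p‖) ≤ D / (‖z‖ / 2 * (‖z‖ / 2)) :=
              div_le_div_of_nonneg_left (norm_nonneg _) (by positivity)
                (mul_le_mul hzq hzp (by positivity) (norm_nonneg _))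
          _ = 4 * D * (1 / ‖z‖) ^ 2 := by field_simp; ring
          _ ≤ 4 * D * ε ^ 2 := by
              refine mul_le_mul_of_nonneg_left (pow_le_pow_left₀ (by positivity) ?_ 2)
                (by positivity)
              rw [div_le_iff₀ hz0]; linarith
    · rw [measureReal_def, Complex.volume_closedBall, ENNReal.toReal_mul, ENNReal.toReal_pow,
        ENNReal.toReal_ofReal (by positivity)]
      simp only [B, hC, hr]
      rw [show 2 / ε = 2 * ε⁻¹ from div_eq_mul_inv _ _, Real.sqrt_mul (by norm_num)]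
      have hs : Real.sqrt ε⁻¹ * ε = Real.sqrt ε := by
        rw [Real.sqrt_inv]
        field_simp
        exact (Real.sq_sqrt hε0.le).symm
      rw [ENNReal.coe_toReal, NNReal.coe_real_pi, ← hs]
      field_simp
      ring
  · simpa using ((Real.continuous_sqrt.tendsto 0).mono_left nhdsWithin_le_nhds).const_mul C

/-- The stream potential takes the same value at both ends of the arc. -/
theorem eq_of_arc (hT : TestSpec) (hG : GrowthSpec) (h : IsGM K u) (hVc : Continuous V)
    (hVb : ∀ z, |V z| ≤ 12 * Real.sqrt ‖z‖)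
    (hweak : ∀ ψ : ℂ → ℝ, ContDiff ℝ 1 ψ → HasCompactSupport ψ →
      (∫ z, V z * fderiv ℝ ψ z 1) = ∫ z, grd K u Complex.I z * ψ z ∧
        (∫ z, V z * fderiv ℝ ψ z Complex.I) = -∫ z, grd K u 1 z * ψ z)
    (d : ArcData K g T p q) (hpq : p ≠ q) : V p = V q := by
  have hK := h.isClosed
  have hKm : MeasurableSet Kᶜ := hK.measurableSet.compl
  obtain ⟨M, hM0, hM⟩ := exists_fderiv_eta_bound
  obtain ⟨C, hC0, hC⟩ := exists_arcPot_sq_bound d hK
  have hd0 : 0 < ‖q - p‖ := norm_pos_iff.2 (sub_ne_zero.2 hpq.symm)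
  set ρ₀ := ‖p‖ + ‖q‖ + T + 3 with hρ₀
  have hρ₀pos : 0 < ρ₀ := by have := d.pos; positivity
  set ζ : ℝ → ℂ → ℝ := fun ε z => cut ε 0 z - cut ε⁻¹ p z - cut ε⁻¹ q z with hζd
  set P : ℝ → ℂ → ℝ → ℝ := fun a c _ => ∫ z, V z * fderiv ℝ (cut a c) z (Ev p q z) with hP
  set Q : ℝ → ℝ := fun ε => ∫ z in Kᶜ, arcPot g T z * gradInner u (ζ ε) z with hQ
  have hevent : ∀ᶠ ε : ℝ in 𝓝[>] 0, 0 < ε ∧ 2 * ε * ρ₀ ≤ 1 ∧ 4 * ε < ‖q - p‖ := by
    filter_upwards [self_mem_nhdsWithin, nhdsWithin_le_nhds (eventually_lt_nhds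
      (show (0 : ℝ) < min (2 * ρ₀)⁻¹ (‖q - p‖ / 4) by positivity))] with ε hε hε'
    rw [lt_min_iff, inv_eq_one_div, lt_div_iff₀ (by positivity), lt_div_iff₀ (by norm_num)] at hε'
    exact ⟨hε, by linarith [hε'.1], by linarith [hε'.2]⟩
  have hcd : ∀ ε, ContDiff ℝ 1 (ζ ε) := fun ε =>
    ((cut_contDiff ε 0).sub (cut_contDiff ε⁻¹ p)).sub (cut_contDiff ε⁻¹ q)
  have hfd : ∀ ε z, fderiv ℝ (ζ ε) z = fderiv ℝ (cut ε 0) z - fderiv ℝ (cut ε⁻¹ p) z -
      fderiv ℝ (cut ε⁻¹ q) z := by
    intro ε z
    have hh : ∀ a c, HasFDerivAt (cut a c) (fderiv ℝ (cut a c) z) z := fun a c =>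
      ((cut_contDiff a c).differentiable one_ne_zero z).hasFDerivAt
    exact (((hh ε 0).sub (hh ε⁻¹ p)).sub (hh ε⁻¹ q)).fderiv
  have hid : ∀ᶠ ε : ℝ in 𝓝[>] 0,
      P ε 0 0 - P ε⁻¹ p 0 - P ε⁻¹ q 0 + Q ε = 0 := by
    filter_upwards [hevent] with ε ⟨hε, hεb, hεd⟩
    have hεi : 0 < ε⁻¹ := inv_pos.2 hε
    have hfar : ∀ c : ℂ, (c = p ∨ c = q) → ∀ z, ‖z - c‖ < ε → cut ε 0 z = 1 := by
      intro c hc z hz
      refine cut_of_le hε.le ?_
      have h1 := norm_le_insert' z c
      have h2 : ‖c‖ ≤ ‖p‖ + ‖q‖ := by rcases hc with rfl | rfl <;> simp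
      have := d.pos
      rw [sub_zero]
      have : ε ≤ 1 := by nlinarith [norm_nonneg p, norm_nonneg q]
      nlinarith
    have hone : ∀ c z : ℂ, ‖z - c‖ < ε → cut ε⁻¹ c z = 1 := by
      intro c z hz
      refine cut_of_le hεi.le ?_
      rw [inv_mul_le_iff₀ hε]
      linarith
    have hzero : ∀ c c' z : ℂ, ‖c' - c‖ = ‖q - p‖ → ‖z - c‖ < ε → cut ε⁻¹ c' z = 0 := by
      intro c c' z hcc hz
      refine cut_of_ge hεi.le ?_
      have h1 := norm_sub_le_norm_sub_add_norm_sub c' z c
      rw [norm_sub_rev c' z] at h1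
      rw [← div_eq_inv_mul, le_div_iff₀ hε]
      linarith
    have hvan : ∀ c : ℂ, (c = p ∨ c = q) → c ∉ tsupport (ζ ε) := by
      intro c hc
      rw [notMem_tsupport_iff_eventuallyEq]
      filter_upwards [ball_mem_nhds c hε] with z hz
      rw [mem_ball, dist_eq_norm] at hz
      rcases hc with rfl | rfl
      · simp [hζd, hfar c (Or.inl rfl) z hz, hone c z hz, hzero c q z rfl hz]
      · simp [hζd, hfar c (Or.inr rfl) z hz, hone c z hz, hzero c p z (norm_sub_rev _ _) hz]
    have hcs : HasCompactSupport (ζ ε) :=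
      ((cut_hasCompactSupport hε 0).sub (cut_hasCompactSupport hεi p)).sub
        (cut_hasCompactSupport hεi q)
    have key := cutoff_identity hT h hweak hVc d (hcd ε) hcs (hvan p (Or.inl rfl))
      (hvan q (Or.inr rfl))
    have hi : ∀ a c, 0 < a → p ∉ tsupport (fderiv ℝ (cut a c)) →
        q ∉ tsupport (fderiv ℝ (cut a c)) →
        Integrable fun z => V z * fderiv ℝ (cut a c) z (Ev p q z) := by
      intro a c ha hp hq
      refine Continuous.integrable_of_hasCompactSupport (hVc.mul ?_)
        (((cut_hasCompactSupport ha c).fderiv ℝ).mono ?_)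
      · refine continuous_iff_continuousAt.2 fun z => ?_
        by_cases hz : z ∈ tsupport (fderiv ℝ (cut a c))
        · have hzp : z ≠ p := fun e => hp (e ▸ hz)
          have hzq : z ≠ q := fun e => hq (e ▸ hz)
          simp only [fderiv_Ev]
          have c1 := (contDiffAt_ex hzp hzq).continuousAt
          have c2 := (contDiffAt_ey hzp hzq).continuousAt
          have c3 := (cut_contDiff a c).continuous_fderiv one_ne_zero
          fun_prop
        · refine (continuousAt_const (y := (0 : ℝ))).congr ?_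
          filter_upwards [(isClosed_tsupport _).isOpen_compl.mem_nhds hz] with w hw
          simp [image_eq_zero_of_notMem_tsupport hw]
      · intro z hz hz'
        exact hz (by simp [hz'])
    have hA : ∀ c : ℂ, (c = p ∨ c = q) → c ∉ tsupport (fderiv ℝ (cut ε 0)) := by
      intro c hc
      rw [notMem_tsupport_iff_eventuallyEq]
      filter_upwards [eventually_eventually_nhds.2 (eventually_of_mem (ball_mem_nhds c hε)
        fun z hz => hfar c hc z (by rwa [mem_ball, dist_eq_norm] at hz))] with z hz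
      rw [EventuallyEq.fderiv_eq (f := fun _ => (1 : ℝ)) hz]; simp
    have hB : ∀ c c' : ℂ, (c' = c ∨ ‖c' - c‖ = ‖q - p‖) →
        c ∉ tsupport (fderiv ℝ (cut ε⁻¹ c')) := by
      intro c c' hcc
      rw [notMem_tsupport_iff_eventuallyEq]
      rcases hcc with rfl | hcc
      · filter_upwards [eventually_eventually_nhds.2 (eventually_of_mem (ball_mem_nhds c' hε)
          fun z hz => hone c' z (by rwa [mem_ball, dist_eq_norm] at hz))] with z hz
        rw [EventuallyEq.fderiv_eq (f := fun _ => (1 : ℝ)) hz]; simp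
      · filter_upwards [eventually_eventually_nhds.2 (eventually_of_mem (ball_mem_nhds c hε)
          fun z hz => hzero c c' z hcc (by rwa [mem_ball, dist_eq_norm] at hz))] with z hz
        rw [EventuallyEq.fderiv_eq (f := fun _ => (0 : ℝ)) hz]; simp
    have i1 := hi ε 0 hε (hA p (Or.inl rfl)) (hA q (Or.inr rfl))
    have i2 := hi ε⁻¹ p hεi (hB p p (Or.inl rfl)) (hB q p (Or.inr (norm_sub_rev _ _)))
    have i3 := hi ε⁻¹ q hεi (hB p q (Or.inr rfl)) (hB q q (Or.inl rfl))
    have e : (∫ z, V z * fderiv ℝ (ζ ε) z (Ev p q z)) = P ε 0 0 - P ε⁻¹ p 0 - P ε⁻¹ q 0 := by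
      simp only [hP, hfd, sub_apply, mul_sub]
      rw [integral_sub, integral_sub i1 i2]
      exacts [i1.sub i2, i3]
    rw [← e]
    exact key
  have hQ0 : Tendsto Q (𝓝[>] 0) (𝓝 0) := by
    refine squeeze_zero_norm'
      (a := fun ε => M * (9 * π) * (T ^ 2 + 1) * ε ^ (1 / 2 : ℝ) +
        2 * M * (9 * C + 6 * π) * ε ^ (1 / 8 : ℝ)) ?_ ?_
    · filter_upwards [hevent] with ε ⟨hε, hεb, hεd⟩
      have hεi : 0 < ε⁻¹ := inv_pos.2 hε
      set W : ℂ → ℝ≥0∞ := fun z => ENNReal.ofReal
        (|arcPot g T z| * (|fderiv ℝ u z 1| + |fderiv ℝ u z Complex.I|)) with hW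
      set S0 : Set ℂ := ball 0 (3 / ε) \ ball 0 ε⁻¹ with hS0
      set ind : Set ℂ → ℝ → ℂ → ℝ≥0∞ := fun S a z =>
        S.indicator (fun z => ENNReal.ofReal (a * M) * W z) z with hind
      have hb : ∀ z ∈ Kᶜ, ‖arcPot g T z * gradInner u (ζ ε) z‖ₑ ≤
          ind S0 ε z + (ind (ball p (3 * ε)) ε⁻¹ z + ind (ball q (3 * ε)) ε⁻¹ z) := by
        intro z _
        have h3 : ∀ a c, 0 < a → ∀ S : Set ℂ, (1 ≤ a * ‖z - c‖ → a * ‖z - c‖ ≤ 2 → z ∈ S) →
            ‖arcPot g T z * gradInner u (cut a c) z‖ₑ ≤ ind S a z := by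
          intro a c ha S hS
          by_cases h0 : fderiv ℝ (cut a c) z = 0
          · simp [gradInner, h0]
          have hlo : 1 ≤ a * ‖z - c‖ :=
            le_of_not_gt fun hh => h0 (fderiv_cut_eq_zero ha.le (Or.inl hh))
          have hhi : a * ‖z - c‖ ≤ 2 :=
            le_of_not_gt fun hh => h0 (fderiv_cut_eq_zero ha.le (Or.inr hh))
          simp only [hind, hW]
          rw [indicator_of_mem (hS hlo hhi), ← ENNReal.ofReal_mul (by positivity),
            Real.enorm_eq_ofReal_abs]
          refine ENNReal.ofReal_le_ofReal ?_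
          have n1 : |fderiv ℝ (cut a c) z 1| ≤ a * M := by
            simpa using ((fderiv ℝ (cut a c) z).le_opNorm 1).trans
              (by simpa using norm_fderiv_cut_le hM ha.le c z)
          have n2 : |fderiv ℝ (cut a c) z Complex.I| ≤ a * M := by
            simpa using ((fderiv ℝ (cut a c) z).le_opNorm Complex.I).trans
              (by simpa using norm_fderiv_cut_le hM ha.le c z)
          rw [gradInner, abs_mul, mul_left_comm]
          refine mul_le_mul_of_nonneg_left ((abs_add_le _ _).trans ?_) (abs_nonneg _)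
          rw [abs_mul, abs_mul, mul_add, mul_comm (a * M) |fderiv ℝ u z 1|,
            mul_comm (a * M) |fderiv ℝ u z Complex.I|]
          exact add_le_add (mul_le_mul_of_nonneg_left n1 (abs_nonneg _))
            (mul_le_mul_of_nonneg_left n2 (abs_nonneg _))
        have e : arcPot g T z * gradInner u (ζ ε) z = arcPot g T z * gradInner u (cut ε 0) z -
            (arcPot g T z * gradInner u (cut ε⁻¹ p) z +
              arcPot g T z * gradInner u (cut ε⁻¹ q) z) := by
          simp only [gradInner, hfd, sub_apply]; ring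
        rw [e]
        refine (enorm_sub_le).trans (add_le_add ?_ ((enorm_add_le _ _).trans (add_le_add ?_ ?_)))
        · refine h3 ε 0 hε _ fun a b => ?_
          rw [sub_zero] at a b
          refine ⟨?_, ?_⟩
          · rw [mem_ball_zero_iff, lt_div_iff₀ hε]; linarith
          · rw [mem_ball_zero_iff, not_lt, inv_le_iff_one_le_mul₀' hε]; exact a
        all_goals
          refine h3 ε⁻¹ _ hεi _ fun _ b => ?_
          rw [inv_mul_le_iff₀ hε] at b
          rw [mem_ball, dist_eq_norm]
          linarith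
      have hpiece : ∀ (S : Set ℂ) (a : ℝ), MeasurableSet S → 0 ≤ a → ∀ B : ℝ,
          (∫⁻ z in S \ K, W z ≤ ENNReal.ofReal B) →
          ∫⁻ z in Kᶜ, ind S a z ≤ ENNReal.ofReal (a * M * B) := by
        intro S a hS ha B hB
        simp only [hind]
        rw [lintegral_indicator hS, Measure.restrict_restrict hS,
          lintegral_const_mul' _ _ ENNReal.ofReal_ne_top, ENNReal.ofReal_mul (p := a * M)
            (by positivity), ← sdiff_eq]
        exact mul_le_mul_right hB _
      have hS0Φ : ∫⁻ z in S0 \ K, ENNReal.ofReal (arcPot g T z ^ 2) ≤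
          ENNReal.ofReal (9 * π * T ^ 2) := by
        calc _ ≤ ∫⁻ _ in S0 \ K, ENNReal.ofReal ((T * ε) ^ 2) := by
              refine setLIntegral_mono measurable_const fun z hz => ENNReal.ofReal_le_ofReal ?_
              rw [← sq_abs]
              refine pow_le_pow_left₀ (abs_nonneg _) (arcPot_far_le d hK hz.2 hε ?_ ?_) 2
              · simpa [hS0] using hz.1.2
              · nlinarith [norm_nonneg q]
          _ ≤ ENNReal.ofReal ((T * ε) ^ 2) * volume (ball (0 : ℂ) (3 / ε)) := by
              rw [setLIntegral_const]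
              exact mul_le_mul_right (measure_mono fun z hz => hz.1.1) _
          _ = _ := by
              rw [volume_ball_real _ (by positivity), ← ENNReal.ofReal_mul (by positivity)]
              congr 1
              field_simp
              ring
      have p0 := hpiece S0 ε (measurableSet_ball.diff measurableSet_ball) hε.le _
        (lintegral_cross_le hG h (c := 0) (ρ := 3 / ε) (l := ε ^ (-(1 / 2) : ℝ))
          (sdiff_subset) (by positivity) (by positivity) (by positivity) hS0Φ)
      have psmall : ∀ c : ℂ, (c = p ∨ c = q) → ∫⁻ z in Kᶜ, ind (ball c (3 * ε)) ε⁻¹ z ≤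
          ENNReal.ofReal (ε⁻¹ * M * (ε ^ (-(1 / 8) : ℝ) * (C * (3 * ε) ^ (5 / 4 : ℝ)) +
            2 * π * (3 * ε) / ε ^ (-(1 / 8) : ℝ))) := fun c hc =>
        hpiece _ _ measurableSet_ball hεi.le _
          (lintegral_cross_le hG h subset_rfl (by positivity) (by positivity) (by positivity)
            ((hC c (3 * ε) (by positivity)).2 hc))
      have hlin : ENNReal.ofReal ‖Q ε‖ ≤ ENNReal.ofReal _ + (ENNReal.ofReal _ + ENNReal.ofReal _) :=
        calc ENNReal.ofReal ‖Q ε‖ = ‖Q ε‖ₑ := ofReal_norm _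
          _ ≤ ∫⁻ z in Kᶜ, ‖arcPot g T z * gradInner u (ζ ε) z‖ₑ :=
              enorm_integral_le_lintegral_enorm _
          _ ≤ ∫⁻ z in Kᶜ, (ind S0 ε z +
                (ind (ball p (3 * ε)) ε⁻¹ z + ind (ball q (3 * ε)) ε⁻¹ z)) :=
              setLIntegral_mono' hKm hb
          _ ≤ _ := by
              have hWm : ∀ S a, MeasurableSet S → AEMeasurable (ind S a) (volume.restrict Kᶜ) := by
                intro S a hS
                have m0 : AEMeasurable (arcPot g T) (volume.restrict Kᶜ) :=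
                  (contDiffOn_arcPot d hK).continuousOn.aemeasurable hKm
                have m1 := measurable_fderiv_apply_const ℝ u 1
                have m2 := measurable_fderiv_apply_const ℝ u Complex.I
                refine AEMeasurable.indicator ?_ hS
                simp only [hW]
                fun_prop
              rw [lintegral_add_left' (hWm _ _ (measurableSet_ball.diff measurableSet_ball)),
                lintegral_add_left' (hWm _ _ measurableSet_ball)]
              exact add_le_add p0 (add_le_add (psmall p (Or.inl rfl)) (psmall q (Or.inr rfl)))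
      have hT0 := d.pos
      rw [← ENNReal.ofReal_add (by positivity) (by positivity),
        ← ENNReal.ofReal_add (by positivity) (by positivity),
        ENNReal.ofReal_le_ofReal_iff (by positivity)] at hlin
      refine hlin.trans ?_
      have e3 : (3 : ℝ) ^ (5 / 4 : ℝ) ≤ 9 :=
        (Real.rpow_le_rpow_of_exponent_le (by norm_num)
          (show (5 / 4 : ℝ) ≤ (2 : ℝ) by norm_num)).trans (by norm_num)
      set a := ε ^ (1 / 2 : ℝ) with ha
      set b := ε ^ (1 / 8 : ℝ) with hb'
      have ha0 : 0 < a := Real.rpow_pos_of_pos hε _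
      have hb0 : 0 < b := Real.rpow_pos_of_pos hε _
      have ea : a * a = ε := by rw [ha, ← Real.rpow_add hε]; norm_num
      have eb : (3 * ε) ^ (5 / 4 : ℝ) = (3 : ℝ) ^ (5 / 4 : ℝ) * (ε * (b * b)) := by
        rw [Real.mul_rpow (by norm_num) hε.le, hb', ← Real.rpow_add hε,
          ← Real.rpow_one_add' hε.le (by norm_num)]
        norm_num
      have f1 : ε * M * (ε ^ (-(1 / 2) : ℝ) * (9 * π * T ^ 2) +
          2 * π * (3 / ε) / ε ^ (-(1 / 2) : ℝ)) = M * a * (9 * π * T ^ 2 + 6 * π) := by
        rw [Real.rpow_neg hε.le, ← ha, ← ea]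
        field_simp
        ring
      have f2 : ε⁻¹ * M * (ε ^ (-(1 / 8) : ℝ) * (C * (3 * ε) ^ (5 / 4 : ℝ)) +
          2 * π * (3 * ε) / ε ^ (-(1 / 8) : ℝ)) =
            M * b * (C * (3 : ℝ) ^ (5 / 4 : ℝ) + 6 * π) := by
        rw [Real.rpow_neg hε.le, ← hb', eb]
        field_simp
        ring
      rw [f1, f2]
      have g1 : M * a * (9 * π * T ^ 2 + 6 * π) ≤ M * (9 * π) * (T ^ 2 + 1) * a := by
        nlinarith [mul_nonneg (mul_nonneg hM0 ha0.le) Real.pi_pos.le]
      have g2 : M * b * (C * (3 : ℝ) ^ (5 / 4 : ℝ) + 6 * π) ≤ M * (9 * C + 6 * π) * b := by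
        nlinarith [mul_le_mul_of_nonneg_left e3 (mul_nonneg (mul_nonneg hM0 hb0.le) hC0)]
      linarith
    · have hp : ∀ a : ℝ, 0 < a → Tendsto (fun ε : ℝ => ε ^ a) (𝓝[>] 0) (𝓝 0) := fun a ha => by
        simpa [Real.zero_rpow ha.ne'] using
          ((Real.continuousAt_rpow_const 0 a (Or.inr ha.le)).tendsto).mono_left nhdsWithin_le_nhds
      simpa using ((hp (1 / 2) (by norm_num)).const_mul (M * (9 * π) * (T ^ 2 + 1))).add
        ((hp (1 / 8) (by norm_num)).const_mul (2 * M * (9 * C + 6 * π)))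
  have hlq : Tendsto (fun ε : ℝ => P ε⁻¹ q 0) (𝓝[>] 0) (𝓝 (flux * V q)) :=
    tendsto_flux hVc hpq
  have hlp : Tendsto (fun ε : ℝ => P ε⁻¹ p 0) (𝓝[>] 0) (𝓝 (-(flux * V p))) := by
    refine (tendsto_flux hVc hpq.symm).neg.congr fun ε => ?_
    simp only [hP]
    rw [← integral_neg]
    refine integral_congr_ae (Eventually.of_forall fun z => ?_)
    simp [Ev_swap p q z]
  have htot := (((tendsto_far (p := p) (q := q) hVb).sub hlp).sub hlq).add hQ0
  have := tendsto_nhds_unique (htot.congr' hid) tendsto_const_nhds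
  have h2 : flux * (V p - V q) = 0 := by linarith
  rcases mul_eq_zero.1 h2 with h3 | h3
  · exact absurd h3 flux_ne_zero
  · linarith

theorem arcData_of_arcIn (hG : GrowthSpec) (h : IsGM K u) {γ : ℝ → ℂ}
    (a : ArcIn K γ T p q) (hpq : p ≠ q) : ∃ g, ArcData K g T p q := by
  have hT0 : 0 < T := by
    rcases a.nonneg.eq_or_lt with e | e
    · subst e; exact absurd (a.source.symm.trans a.target) hpq
    · exact e
  set g : ℝ → ℂ := IccExtend a.nonneg fun t => γ t with hg
  have hgt : ∀ t ∈ Icc 0 T, g t = γ t := fun t ht => IccExtend_of_mem _ _ ht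
  have h0 : (0 : ℝ) ∈ Icc 0 T := left_mem_Icc.2 a.nonneg
  have h1 : T ∈ Icc 0 T := right_mem_Icc.2 a.nonneg
  refine ⟨g, ⟨hT0, ?_, fun t ht => (hgt t ht).symm ▸ a.maps ht, (hgt 0 h0).trans a.source,
    (hgt T h1).trans a.target, fun t ht e => ?_, fun t ht e => ?_, fun c s hs => ?_⟩⟩
  · have := a.lip.to_restrict.comp (LipschitzWith.projIcc a.nonneg)
    rwa [one_mul] at this
  · rw [hgt t (Ioc_subset_Icc_self ht), ← a.source] at e
    exact ht.1.ne' (a.inj (Ioc_subset_Icc_self ht) h0 e)
  · rw [hgt t (Ico_subset_Icc_self ht), ← a.target] at e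
    exact ht.2.ne (a.inj (Ico_subset_Icc_self ht) h1 e)
  · refine le_trans (le_of_eq_of_le ?_ (a.time _ measurableSet_ball)) (time_ball_le hG h c hs)
    congr 1
    ext t
    simp only [mem_inter_iff, mem_preimage, and_congr_right_iff]
    intro ht
    rw [hgt t ht]

end Vale.Agent.P128.StreamAux

namespace Vale.Agent.P128

open StreamAux

/-- S06: the stream function exists. -/
theorem stream (hT : TestSpec) (hG : GrowthSpec) (hC : ComponentsSpec) : StreamSpec := by
  intro K u h
  obtain ⟨V, hV0, hVc, hVh, hVd, hweak⟩ := exists_potential hT hG h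
  refine ⟨V, hVc, fun z hz => (hVd z hz).1, fun z hz => (hVd z hz).2, fun p hp q hq => ?_⟩
  by_cases hpq : p = q
  · rw [hpq]
  obtain ⟨γ, T, ha⟩ := (hC K u h).arc p hp q hq
  obtain ⟨g, d⟩ := arcData_of_arcIn hG h ha hpq
  refine (eq_of_arc hT hG h hVc (fun z => ?_) hweak d hpq).symm
  simpa [hV0] using hVh z 0

end Vale.Agent.P128
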