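import Vale.Agent.P128.TipBasic

/-!
# P128: the cap bound and the tip value `L = 1`

`cap`: near an end where `D/r → L > 0` one arc carries the whole circle, so `H(r) ≤ (1 + o(1)) r`.
`tipValue`: in the balanced case the tip shift competitor, in both directions, forces `L = 1`.
-/

open MeasureTheory Set Metric Filter
open scoped ENNReal Topology Real

noncomputable section

namespace Vale.Agent.P128

variable {K : Set ℂ} {u V : ℂ → ℝ} {x : ℂ} {r η L : ℝ}

/-- Algebra: two numbers with almost maximal geometric mean are almost equal. -/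
theorem half_bound {T R L η : ℝ} (hT : 0 ≤ T) (hR : 0 ≤ R) (hη : 0 ≤ η) (hL : 3 * η ≤ L)
    (hsum : T + R ≤ L + η) (hgm : L - 3 * η ≤ 2 * Real.sqrt (T * R)) :
    T ≤ (L + η + Real.sqrt (8 * η * L)) / 2 := by
  have h1 : (L - 3 * η) ^ 2 ≤ 4 * (T * R) := by
    calc (L - 3 * η) ^ 2 ≤ (2 * Real.sqrt (T * R)) ^ 2 := by
          exact pow_le_pow_left₀ (by linarith) hgm 2
      _ = 4 * (T * R) := by rw [mul_pow, Real.sq_sqrt (mul_nonneg hT hR)]; ring
  have h2 : (T - R) ^ 2 ≤ 8 * η * L := by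
    have : (T + R) ^ 2 ≤ (L + η) ^ 2 := pow_le_pow_left₀ (by linarith) hsum 2
    nlinarith [sq_nonneg η]
  have h3 : T - R ≤ Real.sqrt (8 * η * L) :=
    (le_abs_self _).trans ((Real.sqrt_sq_eq_abs _).ge.trans (Real.sqrt_le_sqrt h2))
  linarith

/-- The estimate on one near-equality radius. -/
theorem cap_radius (hCone : ConeSpec) (hPart : PartitionSpec) (h : IsGM K u)
    (hc : CompStructure K) (hx : x ∈ K) (hη : 0 < η) (hL : 3 * η ≤ L)
    (hne : NearEq K u x η L r) (hy : L - η ≤ yrat K u x r) :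
    len K x r ≤
      r * (1 + (2 * η + Real.sqrt (8 * η * L) + 2 * π * (2 * η) / (L + η))) := by
  obtain ⟨hg, hsum, harc⟩ := hne
  have hr := hg.pos
  obtain ⟨t, m, ht⟩ := exists_partition hPart hc hx hg
  have hm : 0 < m := ht.1
  set a : ℕ → ℝ := fun i => (t (i + 1) - t i) / (2 * π) with ha
  set T : ℕ → ℝ := fun i => tauArc u x r (t i) (t (i + 1)) with hT
  set R : ℕ → ℝ := fun i => rhoArc u x r (t i) (t (i + 1)) with hR
  have hlt : ∀ i ∈ Finset.range m, t i < t (i + 1) := fun i hi =>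
    (ht.2.2 i (Finset.mem_range.1 hi)).1.1
  have ha0 : ∀ i ∈ Finset.range m, 0 ≤ a i := fun i hi =>
    div_nonneg (sub_nonneg.2 (hlt i hi).le) Real.two_pi_pos.le
  have hT0 : ∀ i ∈ Finset.range m, 0 ≤ T i := fun i hi => tauArc_nonneg u x hr.le (hlt i hi).le
  have hR0 : ∀ i ∈ Finset.range m, 0 ≤ R i := fun i hi => rhoArc_nonneg u x hr.le (hlt i hi).le
  have hasum : ∑ i ∈ Finset.range m, a i = 1 := by
    simp only [ha, ← Finset.sum_div, Finset.sum_range_sub t m, ht.2.1]
    field_simp; ring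
  have hTR : ∑ i ∈ Finset.range m, (T i + R i) ≤ L + η := by
    rw [Finset.sum_add_distrib, sum_tauArc hg ht, sum_rhoArc hg ht]
    linarith [(abs_le.1 hsum).2]
  have harc' : L - η ≤ ∑ i ∈ Finset.range m, a i * (2 * Real.sqrt (T i * R i)) := by
    refine (harc t m ht).trans (le_of_eq (Finset.sum_congr rfl fun i _ => ?_))
    simp only [ha, hT, hR]; field_simp
  obtain ⟨b, hb, hbmax⟩ := Finset.exists_max_image (Finset.range m) a
    ⟨0, Finset.mem_range.2 hm⟩
  have hgm : ∀ i ∈ Finset.range m, 2 * Real.sqrt (T i * R i) ≤ T i + R i := fun i hi => by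
    nlinarith [Real.sq_sqrt (mul_nonneg (hT0 i hi) (hR0 i hi)),
      Real.sqrt_nonneg (T i * R i), sq_nonneg (T i - R i), hT0 i hi, hR0 i hi]
  -- the longest arc is almost everything
  have hab : L - η ≤ a b * (L + η) := by
    refine harc'.trans ?_
    calc _ ≤ ∑ i ∈ Finset.range m, a b * (T i + R i) := by
          refine Finset.sum_le_sum fun i hi => ?_
          exact mul_le_mul (hbmax i hi) (hgm i hi) (by positivity) (ha0 b hb)
      _ ≤ _ := by rw [← Finset.mul_sum]; exact mul_le_mul_of_nonneg_left hTR (ha0 b hb)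
  have hba : (1 - a b) * (L + η) ≤ 2 * η := by nlinarith
  have hab1 : a b ≤ 1 := hasum ▸ Finset.single_le_sum (fun i hi => ha0 i hi) hb
  -- and its two energies are almost equal
  have hsplit := harc'
  rw [← Finset.add_sum_erase _ _ hb] at hsplit
  have hrest : ∑ i ∈ (Finset.range m).erase b, a i * (2 * Real.sqrt (T i * R i)) ≤
      (1 - a b) * (L + η) := by
    calc _ ≤ ∑ i ∈ (Finset.range m).erase b, (1 - a b) * (T i + R i) := by
          refine Finset.sum_le_sum fun i hi => ?_
          have hi' := Finset.mem_of_mem_erase hi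
          have : a i ≤ 1 - a b := by
            have h2 := Finset.add_sum_erase (Finset.range m) a hb
            have h3 := Finset.single_le_sum
              (fun j hj => ha0 j (Finset.mem_of_mem_erase hj)) hi
            linarith
          exact mul_le_mul this (hgm i hi') (by positivity) (by linarith)
      _ ≤ _ := by
        rw [← Finset.mul_sum]
        refine mul_le_mul_of_nonneg_left (le_trans ?_ hTR) (by linarith)
        exact Finset.sum_le_sum_of_subset_of_nonneg (Finset.erase_subset _ _)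
          fun i hi _ => add_nonneg (hT0 i hi) (hR0 i hi)
  have hb2 : L - 3 * η ≤ 2 * Real.sqrt (T b * R b) := by
    nlinarith [mul_le_of_le_one_left (show 0 ≤ 2 * Real.sqrt (T b * R b) by positivity) hab1]
  have hbsum : T b + R b ≤ L + η :=
    (Finset.single_le_sum (fun i hi => add_nonneg (hT0 i hi) (hR0 i hi)) hb).trans hTR
  have hTb := half_bound (hT0 b hb) (hR0 b hb) hη.le hL hbsum hb2
  have hcone := (hCone K u h x r hg).1 (t b) (t (b + 1)) (ht.2.2 b (Finset.mem_range.1 hb)).1
  have hy' : r * (L - η) ≤ dir K u x r := by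
    have := mul_le_mul_of_nonneg_left hy hr.le
    rwa [yrat, mul_div_cancel₀ _ hr.ne'] at this
  have hgap : 2 * π - (t (b + 1) - t b) ≤ 2 * π * (2 * η) / (L + η) := by
    rw [le_div_iff₀ (by linarith)]
    have : t (b + 1) - t b = a b * (2 * π) := by simp only [ha]; field_simp
    rw [this]; nlinarith [Real.two_pi_pos]
  have e1 : 2 * r * T b ≤ r * (L + η + Real.sqrt (8 * η * L)) := by
    nlinarith [mul_le_mul_of_nonneg_left hTb hr.le]
  have e2 : r * (2 * π - (t (b + 1) - t b)) ≤ r * (2 * π * (2 * η) / (L + η)) :=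
    mul_le_mul_of_nonneg_left hgap hr.le
  linarith

theorem cap (hCone : ConeSpec) (hPart : PartitionSpec) (hComp : ComponentsSpec) : CapSpec := by
  intro K u h x hx l hl L hL htend hmost η₀ hη₀
  have hc := hComp K u h
  set η₁ := min (η₀ / 4) 1 with hη₁
  have hη₁0 : 0 < η₁ := lt_min (by linarith) one_pos
  have hcont : Tendsto (fun η : ℝ => 2 * η + Real.sqrt (8 * η * L) + 2 * π * (2 * η) / (L + η))
      (𝓝[>] 0) (𝓝 0) := by
    have : ContinuousAt
        (fun η : ℝ => 2 * η + Real.sqrt (8 * η * L) + 2 * π * (2 * η) / (L + η)) 0 :=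
      ContinuousAt.add (by fun_prop) (ContinuousAt.div (by fun_prop) (by fun_prop) (by simp [hL.ne']))
    simpa using this.tendsto.mono_left nhdsWithin_le_nhds
  obtain ⟨η, hsmall, hη0, hηL⟩ := ((hcont.eventually (gt_mem_nhds hη₁0)).and
    (Ioo_mem_nhdsGT (show (0 : ℝ) < L / 3 by linarith))).exists
  have hev : Most l (fun r => NearEq K u x η L r ∧ L - η ≤ yrat K u x r) :=
    (hmost η hη0).and_of (Most.of_eventually hl
      (htend.eventually (Ici_mem_nhds (show L - η < L by linarith)))) hl.eventually_pos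
  filter_upwards [hev.exists_window hl hη₁0, hl.eventually_pos] with R hR hR0
  obtain ⟨r, hRr, hrR, hne, hy⟩ := hR
  have hrad := cap_radius hCone hPart h hc hx hη0 (by linarith) hne hy
  have h0 : 0 < r := hR0.trans_le hRr
  calc len K x R ≤ len K x r := len_mono h hRr
    _ ≤ r * (1 + η₁) := hrad.trans (mul_le_mul_of_nonneg_left (by linarith) h0.le)
    _ ≤ (1 + η₁) * R * (1 + η₁) := mul_le_mul_of_nonneg_right hrR (by linarith)
    _ ≤ (1 + η₀) * R := by
      nlinarith [mul_le_mul_of_nonneg_left (min_le_right (η₀ / 4) 1) hη₁0.le,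
        min_le_left (η₀ / 4) 1]

/-- Cauchy-Schwarz on an interval. -/
theorem abs_integral_mul_le {a b : ℝ} (hab : a ≤ b) {f g : ℝ → ℝ}
    (hf : IntervalIntegrable (fun θ => f θ ^ 2) volume a b)
    (hg : IntervalIntegrable (fun θ => g θ ^ 2) volume a b)
    (hfg : IntervalIntegrable (fun θ => f θ * g θ) volume a b) :
    |∫ θ in a..b, f θ * g θ| ≤
      Real.sqrt (∫ θ in a..b, f θ ^ 2) * Real.sqrt (∫ θ in a..b, g θ ^ 2) := by
  have key : ∀ s : ℝ, 0 ≤ (∫ θ in a..b, f θ ^ 2) * (s * s) +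
      (2 * ∫ θ in a..b, f θ * g θ) * s + ∫ θ in a..b, g θ ^ 2 := by
    intro s
    have h0 : 0 ≤ ∫ θ in a..b, (s * f θ + g θ) ^ 2 :=
      intervalIntegral.integral_nonneg hab fun _ _ => sq_nonneg _
    have he : (fun θ => (s * f θ + g θ) ^ 2) =
        fun θ => (s * s * f θ ^ 2 + 2 * s * (f θ * g θ)) + g θ ^ 2 := by funext θ; ring
    rw [he, intervalIntegral.integral_add ((hf.const_mul _).add (hfg.const_mul _)) hg,
      intervalIntegral.integral_add (hf.const_mul _) (hfg.const_mul _),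
      intervalIntegral.integral_const_mul, intervalIntegral.integral_const_mul] at h0
    linarith
  have hd := discrim_le_zero key
  rw [discrim] at hd
  have hF : 0 ≤ ∫ θ in a..b, f θ ^ 2 := intervalIntegral.integral_nonneg hab fun _ _ => sq_nonneg _
  rw [← Real.sqrt_mul hF, ← Real.sqrt_sq_eq_abs]
  exact Real.sqrt_le_sqrt (by nlinarith)

/-- A function of square at most the sum of two integrable ones is integrable. -/
theorem intervalIntegrable_mul {a b : ℝ} {f g : ℝ → ℝ} (hfm : Measurable f) (hgm : Measurable g)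
    (hf : IntervalIntegrable (fun θ => f θ ^ 2) volume a b)
    (hg : IntervalIntegrable (fun θ => g θ ^ 2) volume a b) :
    IntervalIntegrable (fun θ => f θ * g θ) volume a b := by
  refine (hf.add hg).mono_fun' (hfm.mul hgm).aestronglyMeasurable (ae_of_all _ fun θ => ?_)
  simp only [Real.norm_eq_abs, abs_mul]
  nlinarith [sq_nonneg (|f θ| - |g θ|), sq_abs (f θ), sq_abs (g θ), abs_nonneg (f θ),
    abs_nonneg (g θ)]

/-- The moments of one circle with a single crossing. -/
theorem one_arc_moments (hW : WirtingerSpec) (hOA : OneArcSpec) (h : IsGM K u)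
    (hV : IsStream K u V) (hg : GoodRadius K u x r) {t : ℕ → ℝ} (ht : IsPartition K x r t 1)
    {η₁ M : ℝ} (hdef : r * (tauC u x r + rhoC u x r) - dir K u x r ≤ η₁ * r)
    (hM : tauC u x r + rhoC u x r ≤ M) :
    r * tauC u x r ≤ dir K u x r / 2 + (2 * Real.sqrt (4 * η₁ * M) + η₁) * r ∧
    |(∫ θ in (t 0)..(t 0 + 2 * π), (r * dT u x r θ) ^ 2 * Real.cos (θ - (t 0 + π))) -
      dir K u x r / 4| ≤ (2 * Real.sqrt (4 * η₁ * M) + η₁) * r := by
  have hr := hg.pos
  set a := t 0 with ha
  set b := t 0 + 2 * π with hb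
  have hab : a ≤ b := by rw [ha, hb]; linarith [Real.two_pi_pos]
  have hb1 : t 1 = b := ht.2.1
  set W : ℝ → ℝ := fun θ => V (circleMap x r θ) - V (circleMap x r a) with hWdef
  set f : ℝ → ℝ := fun θ => r * dT u x r θ with hf
  set g : ℝ → ℝ := fun θ => r * dR u x r θ with hgdef
  set c : ℝ → ℝ := fun θ => Real.cos (θ - (a + π)) with hcdef
  have hWc : Continuous W := (hV.cont.comp (continuous_circleMap x r)).sub continuous_const
  have hcc : Continuous c := by fun_prop
  have hWa : W a = 0 := by simp [hWdef]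
  have hWb : W b = 0 := by simp [hWdef, hb, ← ha, periodic_circleMap x r a]
  have hWd : ∀ θ ∈ Ioo a b, HasDerivAt W (g θ) θ := by
    intro θ hθ
    have hz : circleMap x r θ ∉ K := (ht.2.2 0 one_pos).1.2.2 θ (by simpa [hb1] using hθ)
    have hcomp := ((hV.diff _ hz).hasFDerivAt.comp_hasDerivAt θ (hasDerivAt_circleMap x r θ))
    refine (hcomp.sub_const _).congr_deriv ?_
    rw [hV.fderiv_eq _ hz]
    have : -(Complex.I * (circleMap 0 r θ * Complex.I)) = r • Complex.exp (θ * Complex.I) := by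
      simp [circleMap, Complex.real_smul]; linear_combination
        (-(r : ℂ) * Complex.exp (θ * Complex.I)) * Complex.I_mul_I
    rw [this, map_smul, smul_eq_mul]; rfl
  have hfm : Measurable f := (measurable_dT u x r).const_mul r
  have hgm : Measurable g := (measurable_dR u x r).const_mul r
  have hf2 : IntervalIntegrable (fun θ => f θ ^ 2) volume a b := by
    simpa [hf, mul_pow] using (hg.intT a b).const_mul (r ^ 2)
  have hg2 : IntervalIntegrable (fun θ => g θ ^ 2) volume a b := by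
    simpa [hgdef, mul_pow] using (hg.intR a b).const_mul (r ^ 2)
  have hW2 : IntervalIntegrable (fun θ => W θ ^ 2) volume a b := (hWc.pow 2).intervalIntegrable _ _
  have hfW := intervalIntegrable_mul hfm hWc.measurable hf2 hW2
  have hfWc : IntervalIntegrable (fun θ => c θ * (f θ * W θ)) volume a b :=
    hfW.continuousOn_mul hcc.continuousOn
  have hf2c : IntervalIntegrable (fun θ => c θ * f θ ^ 2) volume a b :=
    hf2.continuousOn_mul hcc.continuousOn
  have hW2c : IntervalIntegrable (fun θ => c θ * W θ ^ 2) volume a b :=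
    hW2.continuousOn_mul hcc.continuousOn
  set e : ℝ → ℝ := fun θ => f θ + W θ / 2 with hedef
  have he2' : (fun θ => e θ ^ 2) = fun θ => (f θ ^ 2 + f θ * W θ) + (1 / 4) * W θ ^ 2 := by
    funext θ; simp only [hedef]; ring
  have he2 : IntervalIntegrable (fun θ => e θ ^ 2) volume a b := by
    rw [he2']; exact (hf2.add hfW).add (hW2.const_mul _)
  have hem : Measurable e := hfm.add (hWc.measurable.div_const 2)
  have heW := intervalIntegrable_mul hem hWc.measurable he2 hW2
  have hceW : IntervalIntegrable (fun θ => c θ * (e θ * W θ)) volume a b :=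
    heW.continuousOn_mul hcc.continuousOn
  have hce2 : IntervalIntegrable (fun θ => c θ * e θ ^ 2) volume a b :=
    he2.continuousOn_mul hcc.continuousOn
  obtain ⟨hwir, hmom, -⟩ := hW a b W g (by rw [ha, hb]; linarith [Real.two_pi_pos])
    hWc.continuousOn hWd hg2
  set A := ∫ θ in a..b, f θ ^ 2 with hAdef
  set B := ∫ θ in a..b, g θ ^ 2 with hBdef
  set P := ∫ θ in a..b, W θ ^ 2 with hPdef
  set Cw := ∫ θ in a..b, c θ * W θ ^ 2 with hCw
  set X := ∫ θ in a..b, e θ ^ 2 with hX
  set Q := B - P / 4 with hQ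
  have hQ0 : 0 ≤ Q := by
    have := hwir (Or.inl ⟨hWa, hWb⟩)
    rw [show (b - a) / π = 2 by rw [ha, hb]; field_simp; ring] at this
    simp only [hQ]; linarith
  have hX0 : 0 ≤ X := intervalIntegral.integral_nonneg hab fun _ _ => sq_nonneg _
  have hA : A = r * tauC u x r := by
    rw [hAdef, ← tauArc_period u x r a, tauArc, ← intervalIntegral.integral_const_mul]
    congr 1; funext θ; simp only [hf]; ring
  have hB : B = r * rhoC u x r := by
    rw [hBdef, ← rhoArc_period u x r a, rhoArc, ← intervalIntegral.integral_const_mul]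
    congr 1; funext θ; simp only [hgdef]; ring
  have hD : dir K u x r = -∫ θ in a..b, f θ * W θ := hOA K u V h hV x r hg t ht
  have hXval : X = A + (∫ θ in a..b, f θ * W θ) + P / 4 := by
    rw [hX, he2', intervalIntegral.integral_add (hf2.add hfW) (hW2.const_mul _),
      intervalIntegral.integral_add hf2 hfW, intervalIntegral.integral_const_mul]
    ring
  have hsum : X + Q ≤ η₁ * r := by rw [mul_add, ← hA, ← hB] at hdef; simp only [hQ]; linarith
  have hP : P ≤ 4 * (r * M) := by
    have hA0 : 0 ≤ A := intervalIntegral.integral_nonneg hab fun _ _ => sq_nonneg _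
    have := mul_le_mul_of_nonneg_left hM hr.le
    rw [mul_add, ← hA, ← hB] at this
    simp only [hQ] at hQ0; linarith
  set S := Real.sqrt (4 * η₁ * M) * r with hS
  have hroot : ∀ z : ℝ, 0 ≤ z → z ≤ η₁ * r → Real.sqrt z * Real.sqrt P ≤ S := by
    intro z hz hzle
    rw [← Real.sqrt_mul hz, hS, ← Real.sqrt_sq hr.le, ← Real.sqrt_mul' _ (sq_nonneg r)]
    refine Real.sqrt_le_sqrt ?_
    have hP0 : 0 ≤ P := intervalIntegral.integral_nonneg hab fun _ _ => sq_nonneg _
    calc z * P ≤ (η₁ * r) * (4 * (r * M)) := mul_le_mul hzle hP hP0 (hz.trans hzle)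
      _ = 4 * η₁ * M * r ^ 2 := by ring
  have hI1 : |∫ θ in a..b, e θ * W θ| ≤ S :=
    (abs_integral_mul_le hab he2 hW2 heW).trans (hroot X hX0 (by linarith))
  have hI2 : |∫ θ in a..b, c θ * (e θ * W θ)| ≤ S := by
    have hcW2 : IntervalIntegrable (fun θ => (c θ * W θ) ^ 2) volume a b :=
      ((hcc.mul hWc).pow 2).intervalIntegrable _ _
    have hle : ∫ θ in a..b, (c θ * W θ) ^ 2 ≤ P := by
      refine intervalIntegral.integral_mono_on hab hcW2 hW2 fun θ _ => ?_
      rw [mul_pow]; exact mul_le_of_le_one_left (sq_nonneg _) (Real.cos_sq_le_one _)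
    have h1 := abs_integral_mul_le hab he2 hcW2
      (intervalIntegrable_mul hem (hcc.mul hWc).measurable he2 hcW2)
    rw [show (fun θ => c θ * (e θ * W θ)) = fun θ => e θ * (c θ * W θ) by funext θ; ring]
    exact h1.trans (((mul_le_mul_of_nonneg_left (Real.sqrt_le_sqrt hle)
      (Real.sqrt_nonneg _))).trans (hroot X hX0 (by linarith)))
  have hI3 : |∫ θ in a..b, c θ * e θ ^ 2| ≤ η₁ * r := by
    calc |∫ θ in a..b, c θ * e θ ^ 2| ≤ ∫ θ in a..b, |c θ * e θ ^ 2| :=
          intervalIntegral.abs_integral_le_integral_abs hab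
      _ ≤ X := by
        refine intervalIntegral.integral_mono_on hab hce2.abs he2 fun θ _ => ?_
        rw [abs_mul, abs_of_nonneg (sq_nonneg (e θ))]
        exact mul_le_of_le_one_left (sq_nonneg _) (Real.abs_cos_le_one _)
      _ ≤ _ := by linarith
  have hI4 : |Cw - P / 2| ≤ S := by
    have := hmom hWa hWb rfl
    exact this.trans (hroot Q hQ0 (by linarith))
  have hIfW : (∫ θ in a..b, f θ * W θ) = (∫ θ in a..b, e θ * W θ) - P / 2 := by
    rw [show (fun θ => f θ * W θ) = fun θ => e θ * W θ - (1 / 2) * W θ ^ 2 by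
      funext θ; simp only [hedef]; ring,
      intervalIntegral.integral_sub heW (hW2.const_mul _), intervalIntegral.integral_const_mul]
    ring
  have hCu : (∫ θ in a..b, c θ * f θ ^ 2) =
      (∫ θ in a..b, c θ * e θ ^ 2) - (∫ θ in a..b, c θ * (e θ * W θ)) + Cw / 4 := by
    rw [show (fun θ => c θ * f θ ^ 2) =
      fun θ => (c θ * e θ ^ 2 - c θ * (e θ * W θ)) + (1 / 4) * (c θ * W θ ^ 2) by
      funext θ; simp only [hedef]; ring,
      intervalIntegral.integral_add (hce2.sub hceW) (hW2c.const_mul _),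
      intervalIntegral.integral_sub hce2 hceW, intervalIntegral.integral_const_mul]
    ring
  have hE : (2 * Real.sqrt (4 * η₁ * M) + η₁) * r = 2 * S + η₁ * r := by rw [hS]; ring
  have hS0 : 0 ≤ S := mul_nonneg (Real.sqrt_nonneg _) hr.le
  rw [show (fun θ => (r * dT u x r θ) ^ 2 * Real.cos (θ - (t 0 + π))) = fun θ => c θ * f θ ^ 2 by
    funext θ; simp only [hcdef, hf, ha]; ring, hCu, hE, ← hA]
  constructor
  · rw [hD, hIfW]; rw [hIfW] at hXval
    linarith [(abs_le.1 hI1).1, (abs_le.1 hI1).2]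
  · rw [hD, hIfW, abs_le]
    constructor <;> linarith [(abs_le.1 hI1).1, (abs_le.1 hI1).2, (abs_le.1 hI2).1,
      (abs_le.1 hI2).2, (abs_le.1 hI3).1, (abs_le.1 hI3).2, (abs_le.1 hI4).1, (abs_le.1 hI4).2]

/-- The tip shift inequality on one radius. -/
theorem tip_radius (hW : WirtingerSpec) (hOA : OneArcSpec) (hTS : TipShiftSpec)
    (hPart : PartitionSpec) (hE : EilenbergSpec) (h : IsGM K u) (hc : CompStructure K)
    (hV : IsStream K u V) (hx : x ∈ K) (hne : NearEq K u x η L r) (hcnt : cnt K x r = 1)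
    (hη : 0 < η) (hy : |yrat K u x r - L| ≤ η) {δ : ℝ} (hδ : |δ| ≤ 1 / 2) :
    0 ≤ δ * (1 - δ ^ 2) + (2 * δ ^ 2 - δ) * L +
      (6 * (2 * Real.sqrt (4 * (2 * η) * (L + η)) + 2 * η) + 2 * η) := by
  obtain ⟨hg, hsum, -⟩ := hne
  have hr := hg.pos
  obtain ⟨t, m, ht⟩ := exists_partition hPart hc hx hg
  have hm : m = 1 := by
    have := ((hPart K x r hr hg.fin).2 t m ht).1
    rw [hcnt] at this; exact_mod_cast this
  subst hm
  set D := dir K u x r with hDdef
  have hyD : D = r * yrat K u x r := by rw [hDdef, yrat, mul_div_cancel₀ _ hr.ne']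
  have hy' := abs_le.1 hy
  have hs' := abs_le.1 hsum
  have hdef : r * (tauC u x r + rhoC u x r) - D ≤ 2 * η * r := by
    rw [hyD, ← mul_sub, mul_comm (2 * η) r]
    exact mul_le_mul_of_nonneg_left (by linarith) hr.le
  obtain ⟨h1, h2⟩ := one_arc_moments hW hOA h hV hg ht hdef (show _ ≤ L + η by linarith)
  set E := (2 * Real.sqrt (4 * (2 * η) * (L + η)) + 2 * η) with hEdef
  set A := r * tauC u x r with hAdef
  set Cu := ∫ θ in (t 0)..(t 0 + 2 * π), (r * dT u x r θ) ^ 2 * Real.cos (θ - (t 0 + π)) with hCu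
  have hts := hTS K u h x r hg t ht δ (by linarith)
  have hfin : IntervalIntegrable (fun θ => (r * dT u x r θ) ^ 2) volume (t 0) (t 0 + 2 * π) := by
    simpa [mul_pow] using (hg.intT _ _).const_mul (r ^ 2)
  have hδ2 : δ ^ 2 ≤ 1 / 4 := by
    rw [← sq_abs]; nlinarith [abs_nonneg δ]
  have hval : 2 * r * (∫ θ in (t 0)..(t 0 + 2 * π), r * dT u x r θ ^ 2 *
      ((1 - 2 * δ * Real.cos (θ - (t 0 + π)) + δ ^ 2) / (1 - δ ^ 2))) =
      2 * ((1 + δ ^ 2) * A - 2 * δ * Cu) / (1 - δ ^ 2) := by
    rw [← intervalIntegral.integral_const_mul]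
    rw [show (fun θ => 2 * r * (r * dT u x r θ ^ 2 *
        ((1 - 2 * δ * Real.cos (θ - (t 0 + π)) + δ ^ 2) / (1 - δ ^ 2)))) =
      fun θ => (2 * (1 + δ ^ 2) / (1 - δ ^ 2)) * (r * dT u x r θ) ^ 2 -
        (4 * δ / (1 - δ ^ 2)) * ((r * dT u x r θ) ^ 2 * Real.cos (θ - (t 0 + π))) by
      funext θ; ring,
      intervalIntegral.integral_sub (hfin.const_mul _)
        ((hfin.mul_continuousOn (by fun_prop)).const_mul _),
      intervalIntegral.integral_const_mul, intervalIntegral.integral_const_mul]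
    have : (∫ θ in (t 0)..(t 0 + 2 * π), (r * dT u x r θ) ^ 2) = A := by
      rw [hAdef, ← tauArc_period u x r (t 0), tauArc, ← intervalIntegral.integral_const_mul]
      congr 1; funext θ; ring
    rw [this, ← hCu]; ring
  have hlen : r ≤ len K x r := le_len hE h hc hx hr
  have hpos : 0 < 1 - δ ^ 2 := by linarith
  rw [hval] at hts
  have h3 : (D - δ * r) * (1 - δ ^ 2) ≤ 2 * ((1 + δ ^ 2) * A - 2 * δ * Cu) :=
    (le_div_iff₀ hpos).1 (by linarith)
  have h4 : 2 * (1 + δ ^ 2) * A ≤ 2 * (1 + δ ^ 2) * (D / 2 + E * r) :=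
    mul_le_mul_of_nonneg_left h1 (by positivity)
  have h5 : -(δ * (Cu - D / 4)) ≤ 1 / 2 * (E * r) := by
    refine (neg_le_abs _).trans ?_
    rw [abs_mul]; exact mul_le_mul hδ h2 (abs_nonneg _) (by norm_num)
  have h6 : (1 + δ ^ 2) * (E * r) ≤ 5 / 4 * (E * r) :=
    mul_le_mul_of_nonneg_right (by linarith) (by positivity)
  have h7 : 0 ≤ δ * r * (1 - δ ^ 2) + (2 * δ ^ 2 - δ) * D + 6 * (E * r) := by
    nlinarith [show 0 ≤ E * r by positivity]
  rw [hyD] at h7
  have h8 : 0 ≤ δ * (1 - δ ^ 2) + (2 * δ ^ 2 - δ) * yrat K u x r + 6 * E :=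
    nonneg_of_mul_nonneg_right (by linarith) hr
  have h9 : |2 * δ ^ 2 - δ| ≤ 1 := by
    rw [abs_le]; constructor <;> nlinarith [abs_le.1 hδ]
  have h10 : (2 * δ ^ 2 - δ) * (yrat K u x r - L) ≤ η := by
    refine (le_abs_self _).trans ?_
    rw [abs_mul]; simpa using mul_le_mul h9 hy (abs_nonneg _) zero_le_one
  linarith

theorem tipValue (hMono : MonoSpec) (hComp : ComponentsSpec) (hE : EilenbergSpec)
    (hCone : ConeSpec) (hPart : PartitionSpec) (hW : WirtingerSpec) (hOA : OneArcSpec)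
    (hTS : TipShiftSpec) : TipValueSpec := by
  intro K u V h hV hb x hx l hl L hL htend
  have := hl.neBot
  have hc := hComp K u h
  have hmost : ∀ η > 0, Most l (NearEq K u x η L) := by
    obtain ⟨L', -, hL', hm⟩ := (hMono K u V h hV x hx).2 l (by
      rcases hl with rfl | rfl
      · exact Or.inl rfl
      · exact Or.inr ⟨rfl, hb⟩)
    rwa [tendsto_nhds_unique htend hL']
  have hcap := cap hCone hPart hComp K u h x hx l hl L hL htend hmost
  have hone : Most l (fun r => cnt K x r = 1) := by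
    intro ε hε
    have hev := hl.eventually_forall_Icc (hcap (ε / 4) (by linarith))
    filter_upwards [hev, hl.eventually_pos] with R hR hR0
    have h2 := hR (2 * R) ⟨by linarith, le_rfl⟩
    have h1 := le_len hE h hc hx hR0
    have hsub : {r | r ∈ Icc R (2 * R) ∧ ¬cnt K x r = 1} ⊆
        {r | r ∈ Ioo R (2 * R) ∧ ¬cnt K x r = 1} ∪ {R, 2 * R} := by
      rintro r ⟨⟨hr1, hr2⟩, hn⟩
      rcases hr1.eq_or_lt with h' | h'
      · exact Or.inr (Or.inl h'.symm)
      rcases hr2.eq_or_lt with h'' | h''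
      · exact Or.inr (Or.inr h'')
      exact Or.inl ⟨⟨h', h''⟩, hn⟩
    refine (measure_mono hsub).trans ((measure_union_le _ _).trans ?_)
    rw [((Set.finite_singleton (2 * R)).insert R).measure_zero volume, add_zero]
    refine (volume_two_le_cnt hE h hc hx hR0).trans (ENNReal.ofReal_le_ofReal ?_)
    nlinarith [mul_pos hε hR0]
  refine ⟨?_, hone⟩
  -- for each small shift, the error terms disappear
  have hlim : ∀ δ : ℝ, |δ| ≤ 1 / 2 → 0 ≤ δ * (1 - δ ^ 2) + (2 * δ ^ 2 - δ) * L := by
    intro δ hδ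
    have hc0 : Tendsto (fun η : ℝ => δ * (1 - δ ^ 2) + (2 * δ ^ 2 - δ) * L +
        (6 * (2 * Real.sqrt (4 * (2 * η) * (L + η)) + 2 * η) + 2 * η)) (𝓝[>] 0)
        (𝓝 (δ * (1 - δ ^ 2) + (2 * δ ^ 2 - δ) * L)) := by
      have hcont : Continuous (fun η : ℝ => δ * (1 - δ ^ 2) + (2 * δ ^ 2 - δ) * L +
        (6 * (2 * Real.sqrt (4 * (2 * η) * (L + η)) + 2 * η) + 2 * η)) := by fun_prop
      simpa using (hcont.tendsto 0).mono_left nhdsWithin_le_nhds
    refine ge_of_tendsto hc0 ?_
    filter_upwards [self_mem_nhdsWithin] with η hη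
    have hη' : (0 : ℝ) < η := hη
    have hy : ∀ᶠ r in l, |yrat K u x r - L| ≤ η :=
      (htend.eventually (closedBall_mem_nhds L hη')).mono fun r hr => by
        simpa [Metric.mem_closedBall, Real.dist_eq] using hr
    obtain ⟨R, r, -, -, ⟨hne, hcnt⟩, hyr⟩ := (((((hmost η hη').and_of hone hl.eventually_pos).and_of
      (Most.of_eventually hl hy) hl.eventually_pos).exists_window hl one_pos)).exists
    exact tip_radius hW hOA hTS hPart hE h hc hV hx hne hcnt hη' hyr hδ
  by_contra hne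
  rcases lt_or_gt_of_ne hne with hlt | hgt
  · -- `L < 1`: a negative shift is profitable
    set s := min (1 / 2) ((1 - L) / (2 * (2 * L + 1))) with hs
    have hs0 : 0 < s := lt_min (by norm_num) (by apply div_pos <;> linarith)
    have hs1 : s ≤ 1 / 2 := min_le_left _ _
    have hs2 : s * (2 * (2 * L + 1)) ≤ 1 - L :=
      (le_div_iff₀ (by linarith)).1 (min_le_right _ _)
    have := hlim (-s) (by rwa [abs_neg, abs_of_pos hs0])
    nlinarith [mul_le_mul_of_nonneg_left hs2 hs0.le, mul_pos hs0 hs0,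
      mul_le_mul_of_nonneg_left hs1 (mul_pos hs0 hs0).le]
  · set s := min (1 / 2) ((L - 1) / (2 * (2 * L + 1))) with hs
    have hs0 : 0 < s := lt_min (by norm_num) (by apply div_pos <;> linarith)
    have hs1 : s ≤ 1 / 2 := min_le_left _ _
    have hs2 : s * (2 * (2 * L + 1)) ≤ L - 1 :=
      (le_div_iff₀ (by linarith)).1 (min_le_right _ _)
    have := hlim s (by rwa [abs_of_pos hs0])
    nlinarith [mul_le_mul_of_nonneg_left hs2 hs0.le, mul_pos hs0 hs0,
      mul_le_mul_of_nonneg_left hs1 (mul_pos hs0 hs0).le]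

end Vale.Agent.P128
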