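import Vale.Agent.P128.Spec
import Vale.Agent.P128.Circle.Wirtinger

/-!
# P128 piece D: Wirtinger inequalities, moment form and equality case

All three clauses come from the tangent identity
`∫ (W' + T W) ^ 2 = ∫ W' ^ 2 - k ^ 2 * ∫ W ^ 2`, `T = k tan (k (θ - m))`, `k ↑ 1/2`.
-/

open MeasureTheory Set Filter
open scoped Topology Real

noncomputable section

namespace Vale.Agent.P128

/-- Cauchy-Schwarz on an interval, squared form. -/
theorem sq_integral_mul_le {a b : ℝ} {f g : ℝ → ℝ} (hab : a ≤ b)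
    (hff : IntervalIntegrable (fun x => f x ^ 2) volume a b)
    (hfg : IntervalIntegrable (fun x => f x * g x) volume a b)
    (hgg : IntervalIntegrable (fun x => g x ^ 2) volume a b) :
    (∫ x in a..b, f x * g x) ^ 2 ≤ (∫ x in a..b, f x ^ 2) * ∫ x in a..b, g x ^ 2 := by
  have key : ∀ l : ℝ, 0 ≤ (∫ x in a..b, g x ^ 2) * (l * l) +
      (2 * ∫ x in a..b, f x * g x) * l + ∫ x in a..b, f x ^ 2 := by
    intro l
    have h : 0 ≤ ∫ x in a..b, (g x ^ 2 * (l * l) + 2 * (f x * g x) * l + f x ^ 2) :=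
      intervalIntegral.integral_nonneg hab fun x _ => by nlinarith [sq_nonneg (l * g x + f x)]
    have i1 := hgg.mul_const (l * l)
    have i2 := (hfg.const_mul 2).mul_const l
    rw [intervalIntegral.integral_add (i1.add i2) hff, intervalIntegral.integral_add i1 i2,
      intervalIntegral.integral_mul_const, intervalIntegral.integral_mul_const,
      intervalIntegral.integral_const_mul] at h
    exact h
  have hd := discrim_le_zero key
  rw [discrim] at hd
  nlinarith [hd]

/-- Data of a function with square integrable derivative on an open interval. -/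
theorem primitive_of_hasDerivAt {a b : ℝ} {W W' : ℝ → ℝ} (hab : a ≤ b)
    (hc : ContinuousOn W (Icc a b)) (hd : ∀ θ ∈ Ioo a b, HasDerivAt W (W' θ) θ)
    (h2 : IntervalIntegrable (fun θ => W' θ ^ 2) volume a b) :
    IntervalIntegrable W' volume a b ∧ ∀ x ∈ Icc a b, W x = W a + ∫ t in a..x, W' t := by
  have hint : IntervalIntegrable W' volume a b := by
    rw [intervalIntegrable_iff_integrableOn_Ioo_of_le hab] at h2 ⊢
    have h1 : IntegrableOn (fun _ : ℝ => (1 : ℝ)) (Ioo a b) :=
      integrableOn_const (by simp [Real.volume_Ioo])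
    refine Integrable.mono' (h1.add h2) ?_ ?_
    · refine (measurable_deriv W).aestronglyMeasurable.congr ?_
      filter_upwards [ae_restrict_mem measurableSet_Ioo] with x hx using (hd x hx).deriv
    · refine .of_forall fun x => ?_
      simp only [Pi.add_apply, Real.norm_eq_abs]
      nlinarith [sq_nonneg (|W' x| - 1), sq_abs (W' x), abs_nonneg (W' x)]
  refine ⟨hint, fun x hx => ?_⟩
  rw [intervalIntegral.integral_eq_sub_of_hasDerivAt_of_le hx.1
    (hc.mono (Icc_subset_Icc_right hx.2)) (fun y hy => hd y ⟨hy.1, hy.2.trans_le hx.2⟩)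
    (hint.mono_set (by rw [uIcc_of_le hx.1, uIcc_of_le hab]; exact Icc_subset_Icc_right hx.2))]
  ring

/-- The multiplier of the tangent identity. -/
def tanMul (k m θ : ℝ) : ℝ := k * Real.tan (k * (θ - m))

theorem cos_mul_sub_pos {a k θ : ℝ} (hk : 0 ≤ k) (hk2 : k < 1 / 2)
    (hθ : θ ∈ Icc a (a + 2 * π)) : 0 < Real.cos (k * (θ - (a + π))) := by
  have h1 : k * (θ - (a + π)) ≤ k * π := mul_le_mul_of_nonneg_left (by linarith [hθ.2]) hk
  have h2 : k * (-π) ≤ k * (θ - (a + π)) := mul_le_mul_of_nonneg_left (by linarith [hθ.1]) hk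
  have h3 : k * π < π / 2 := by nlinarith [Real.pi_pos]
  exact Real.cos_pos_of_mem_Ioo ⟨by linarith, by linarith⟩

theorem tanMul_hasDerivAt {k m θ : ℝ} (h : Real.cos (k * (θ - m)) ≠ 0) :
    HasDerivAt (tanMul k m) (k ^ 2 + tanMul k m θ ^ 2) θ := by
  have hid : HasDerivAt (fun y : ℝ => k * (y - m)) (k * 1) θ :=
    ((hasDerivAt_id θ).sub_const m).const_mul k
  refine (((Real.hasDerivAt_tan h).comp θ hid).const_mul k).congr_deriv ?_
  have hs := Real.sin_sq_add_cos_sq (k * (θ - m))
  simp only [tanMul, Real.tan_eq_sin_div_cos]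
  field_simp
  linear_combination (-k ^ 2) * hs

theorem tanMul_contDiffOn {a k : ℝ} (hk : 0 ≤ k) (hk2 : k < 1 / 2) :
    ContDiffOn ℝ 1 (tanMul k (a + π)) (Icc a (a + 2 * π)) := fun θ hθ => by
  have h : ContDiffAt ℝ 1 (fun y => k * (y - (a + π))) θ := by fun_prop
  exact (contDiffAt_const.mul
    ((Real.contDiffAt_tan.2 (cos_mul_sub_pos hk hk2 hθ).ne').comp θ h)).contDiffWithinAt

section Full

variable {a : ℝ} {W W' : ℝ → ℝ}

/-- Hypotheses on an interval of length `2π`. -/
structure FullData (a : ℝ) (W W' : ℝ → ℝ) : Prop where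
  cont : ContinuousOn W (Icc a (a + 2 * π))
  hasDeriv : ∀ θ ∈ Ioo a (a + 2 * π), HasDerivAt W (W' θ) θ
  sq : IntervalIntegrable (fun θ => W' θ ^ 2) volume a (a + 2 * π)
  left : W a = 0
  right : W (a + 2 * π) = 0

theorem FullData.le (_h : FullData a W W') : a ≤ a + 2 * π := by linarith [Real.pi_pos]

theorem FullData.contU (h : FullData a W W') : ContinuousOn W (uIcc a (a + 2 * π)) := by
  rw [uIcc_of_le h.le]; exact h.cont

/-- The tangent identity. -/
theorem FullData.identity (h : FullData a W W') {k : ℝ} (hk : 0 ≤ k) (hk2 : k < 1 / 2) :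
    IntervalIntegrable (fun θ => (W' θ + tanMul k (a + π) θ * W θ) ^ 2) volume a (a + 2 * π) ∧
    ∫ θ in a..(a + 2 * π), (W' θ + tanMul k (a + π) θ * W θ) ^ 2 =
      (∫ θ in a..(a + 2 * π), W' θ ^ 2) - k ^ 2 * ∫ θ in a..(a + 2 * π), W θ ^ 2 := by
  set T := tanMul k (a + π) with hT
  obtain ⟨hg, hV⟩ := primitive_of_hasDerivAt h.le h.cont h.hasDeriv h.sq
  have hTac : AbsolutelyContinuousOnInterval T a (a + 2 * π) :=
    ContDiffOn.absolutelyContinuousOnInterval
      (by rw [uIcc_of_le h.le]; exact tanMul_contDiffOn hk hk2)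
  have hTc : ContinuousOn T (uIcc a (a + 2 * π)) := hTac.continuousOn
  have hWc := h.contU
  have key := hTac.integral_deriv_mul_eq_sub
    ((primitive_ac h.le hg hV).mul (primitive_ac h.le hg hV))
  simp only [Pi.mul_apply, h.left, h.right, mul_zero, sub_zero] at key
  have hae : ∀ᵐ x, x ∈ uIoc a (a + 2 * π) → deriv T x * (W x * W x) + T x * deriv (W * W) x =
      (k ^ 2 + T x ^ 2) * W x ^ 2 + 2 * (T x * W x) * W' x := by
    filter_upwards [primitive_deriv h.le hg hV] with x hx hmem
    have hxI : x ∈ Icc a (a + 2 * π) := by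
      rw [uIoc_of_le h.le] at hmem; exact Ioc_subset_Icc_self hmem
    rw [(tanMul_hasDerivAt (cos_mul_sub_pos hk hk2 hxI).ne').deriv,
      ((hx hmem).mul (hx hmem)).deriv]
    ring
  rw [intervalIntegral.integral_congr_ae hae] at key
  have i1 : IntervalIntegrable (fun x => (k ^ 2 + T x ^ 2) * W x ^ 2) volume a (a + 2 * π) :=
    ((continuousOn_const.add (hTc.pow 2)).mul (hWc.pow 2)).intervalIntegrable
  have i2 : IntervalIntegrable (fun x => 2 * (T x * W x) * W' x) volume a (a + 2 * π) :=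
    hg.continuousOn_mul (continuousOn_const.mul (hTc.mul hWc))
  have i3 : IntervalIntegrable (fun x => k ^ 2 * W x ^ 2) volume a (a + 2 * π) :=
    (continuousOn_const.mul (hWc.pow 2)).intervalIntegrable
  have hfun : (fun θ => (W' θ + T θ * W θ) ^ 2) = fun θ =>
      ((k ^ 2 + T θ ^ 2) * W θ ^ 2 + 2 * (T θ * W θ) * W' θ + W' θ ^ 2) - k ^ 2 * W θ ^ 2 := by
    funext θ; ring
  rw [hfun]
  refine ⟨((i1.add i2).add h.sq).sub i3, ?_⟩
  rw [intervalIntegral.integral_sub ((i1.add i2).add h.sq) i3,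
    intervalIntegral.integral_add (i1.add i2) h.sq, key, zero_add,
    intervalIntegral.integral_const_mul]

theorem cos_half_le {x k : ℝ} (hk : 0 ≤ k) (hk2 : k ≤ 1 / 2) (hx : |x| ≤ π) :
    Real.cos (x / 2) ≤ Real.cos (k * x) := by
  rw [← Real.cos_abs (x / 2), ← Real.cos_abs (k * x)]
  refine Real.cos_le_cos_of_nonneg_of_le_pi (abs_nonneg _) ?_ ?_
  · rw [abs_div, abs_two]; linarith [Real.pi_pos]
  · rw [abs_div, abs_two, abs_mul, abs_of_nonneg hk]; nlinarith [abs_nonneg x]

theorem sin_abs_le {x k : ℝ} (hk : 0 ≤ k) (hk2 : k ≤ 1 / 2) (hx : |x| ≤ π) :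
    |Real.sin (k * x)| ≤ |Real.sin (x / 2)| := by
  have hc := cos_half_le hk hk2 hx
  have hx2 := abs_le.1 hx
  have h0 : 0 ≤ Real.cos (x / 2) :=
    Real.cos_nonneg_of_mem_Icc ⟨by linarith [hx2.1], by linarith [hx2.2]⟩
  refine sq_le_sq.1 ?_
  nlinarith [Real.sin_sq_add_cos_sq (k * x), Real.sin_sq_add_cos_sq (x / 2)]

theorem tan_mul_sin_abs_le {x k : ℝ} (hk : 0 ≤ k) (hk2 : k ≤ 1 / 2) (hx : |x| ≤ π) :
    |k * Real.tan (k * x) * Real.sin x| ≤ 1 := by
  rcases eq_or_ne (Real.sin x) 0 with h0 | h0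
  · simp [h0]
  have hdouble : Real.sin x = 2 * Real.sin (x / 2) * Real.cos (x / 2) := by
    rw [← Real.sin_two_mul]; congr 1; ring
  have hx2 := abs_le.1 hx
  have hch : 0 < Real.cos (x / 2) := by
    refine lt_of_le_of_ne
      (Real.cos_nonneg_of_mem_Icc ⟨by linarith [hx2.1], by linarith [hx2.2]⟩) ?_
    intro h; exact h0 (by rw [hdouble, ← h, mul_zero])
  have hck : 0 < Real.cos (k * x) := hch.trans_le (cos_half_le hk hk2 hx)
  have hs := sin_abs_le hk hk2 hx
  have hs1 := Real.abs_sin_le_one (x / 2)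
  rw [Real.tan_eq_sin_div_cos, hdouble, abs_mul, abs_mul, abs_div, abs_mul, abs_mul,
    abs_of_pos hck, abs_of_pos hch, abs_of_nonneg hk, abs_two]
  calc k * (|Real.sin (k * x)| / Real.cos (k * x)) *
        (2 * |Real.sin (x / 2)| * Real.cos (x / 2))
      ≤ (1 / 2) * (|Real.sin (x / 2)| / Real.cos (x / 2)) *
        (2 * |Real.sin (x / 2)| * Real.cos (x / 2)) := by
        gcongr
        exact cos_half_le hk hk2 hx
    _ = |Real.sin (x / 2)| * |Real.sin (x / 2)| := by field_simp
    _ ≤ 1 := mul_le_one₀ hs1 (abs_nonneg _) hs1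

/-- A sequence increasing to `1/2`. -/
def halfSeq (n : ℕ) : ℝ := 1 / 2 - 1 / ((n : ℝ) + 4)

theorem halfSeq_mem (n : ℕ) : 0 ≤ halfSeq n ∧ halfSeq n < 1 / 2 := by
  have h4 : (4 : ℝ) ≤ (n : ℝ) + 4 := by linarith [(Nat.cast_nonneg n : (0 : ℝ) ≤ n)]
  have : 1 / ((n : ℝ) + 4) ≤ 1 / 4 := one_div_le_one_div_of_le (by norm_num) h4
  have : 0 < 1 / ((n : ℝ) + 4) := by positivity
  constructor <;> simp only [halfSeq] <;> linarith

theorem halfSeq_tendsto : Tendsto halfSeq atTop (𝓝 (1 / 2)) := by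
  have h : Tendsto (fun n : ℕ => 1 / ((n : ℝ) + 4)) atTop (𝓝 0) := by
    have := (tendsto_one_div_add_atTop_nhds_zero_nat (𝕜 := ℝ)).comp (tendsto_add_atTop_nat 3)
    refine this.congr fun n => ?_
    simp only [Function.comp_apply]; push_cast; ring
  have h2 := (tendsto_const_nhds (x := (1 / 2 : ℝ))).sub h
  rw [sub_zero] at h2
  exact h2

theorem excess_tendsto (h : FullData a W W') :
    Tendsto (fun n => ∫ θ in a..(a + 2 * π),
      (W' θ + tanMul (halfSeq n) (a + π) θ * W θ) ^ 2) atTop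
      (𝓝 ((∫ θ in a..(a + 2 * π), W' θ ^ 2) - (∫ θ in a..(a + 2 * π), W θ ^ 2) / 4)) := by
  refine Tendsto.congr (fun n => ((h.identity (halfSeq_mem n).1 (halfSeq_mem n).2).2).symm) ?_
  have := tendsto_const_nhds (x := ∫ θ in a..(a + 2 * π), W' θ ^ 2) (f := (atTop : Filter ℕ))
  have h2 := this.sub ((halfSeq_tendsto.pow 2).mul_const (∫ θ in a..(a + 2 * π), W θ ^ 2))
  convert h2 using 2
  ring

/-- The moment inequality. -/
theorem FullData.moment (h : FullData a W W') :
    |(∫ θ in a..(a + 2 * π), Real.cos (θ - (a + π)) * W θ ^ 2) -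
        (∫ θ in a..(a + 2 * π), W θ ^ 2) / 2| ≤
      Real.sqrt ((∫ θ in a..(a + 2 * π), W' θ ^ 2) - (∫ θ in a..(a + 2 * π), W θ ^ 2) / 4) *
        Real.sqrt (∫ θ in a..(a + 2 * π), W θ ^ 2) := by
  set b := a + 2 * π with hb
  set s : ℝ → ℝ := fun θ => Real.sin (θ - (a + π)) with hs
  set c : ℝ → ℝ := fun θ => Real.cos (θ - (a + π)) with hc
  obtain ⟨hg, hV⟩ := primitive_of_hasDerivAt h.le h.cont h.hasDeriv h.sq
  have hWc := h.contU
  have hsC : ContinuousOn s (uIcc a b) := by fun_prop
  have hcC : ContinuousOn c (uIcc a b) := by fun_prop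
  have i1 : IntervalIntegrable (fun θ => c θ * W θ ^ 2) volume a b :=
    (hcC.mul (hWc.pow 2)).intervalIntegrable
  have iW : IntervalIntegrable (fun θ => W θ ^ 2) volume a b := (hWc.pow 2).intervalIntegrable
  have i2 : IntervalIntegrable (fun θ => W' θ * (s θ * W θ)) volume a b :=
    hg.mul_continuousOn (hsC.mul hWc)
  -- `∫ W' sin W = -1/2 ∫ cos W²`
  have hibp : ∫ θ in a..b, W' θ * (s θ * W θ) = -((∫ θ in a..b, c θ * W θ ^ 2) / 2) := by
    have hsac : AbsolutelyContinuousOnInterval s a b :=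
      ContDiffOn.absolutelyContinuousOnInterval (by fun_prop)
    have key := hsac.integral_deriv_mul_eq_sub
      ((primitive_ac h.le hg hV).mul (primitive_ac h.le hg hV))
    have hWb : W b = 0 := h.right
    simp only [Pi.mul_apply, h.left, hWb, mul_zero, sub_zero] at key
    have hae : ∀ᵐ x, x ∈ uIoc a b → deriv s x * (W x * W x) + s x * deriv (W * W) x =
        c x * W x ^ 2 + 2 * (W' x * (s x * W x)) := by
      filter_upwards [primitive_deriv h.le hg hV] with x hx hmem
      have hsd : HasDerivAt s (c x * 1) x :=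
        (Real.hasDerivAt_sin _).comp x ((hasDerivAt_id x).sub_const (a + π))
      rw [hsd.deriv, ((hx hmem).mul (hx hmem)).deriv]
      ring
    rw [intervalIntegral.integral_congr_ae hae, intervalIntegral.integral_add i1 (i2.const_mul 2),
      intervalIntegral.integral_const_mul] at key
    linarith
  set B : ℕ → ℝ := fun n =>
    ∫ θ in a..b, (W' θ + tanMul (halfSeq n) (a + π) θ * W θ) * (s θ * W θ) with hB
  have hlim : Tendsto B atTop
      (𝓝 (-((∫ θ in a..b, c θ * W θ ^ 2) / 2) + ∫ θ in a..b, (1 - c θ) / 2 * W θ ^ 2)) := by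
    have hT : ∀ n, ContinuousOn (tanMul (halfSeq n) (a + π)) (uIcc a b) := fun n => by
      rw [uIcc_of_le h.le]
      exact (tanMul_contDiffOn (halfSeq_mem n).1 (halfSeq_mem n).2).continuousOn
    have hsplit : ∀ n, B n = -((∫ θ in a..b, c θ * W θ ^ 2) / 2) +
        ∫ θ in a..b, tanMul (halfSeq n) (a + π) θ * s θ * W θ ^ 2 := by
      intro n
      have i3 : IntervalIntegrable
          (fun θ => tanMul (halfSeq n) (a + π) θ * s θ * W θ ^ 2) volume a b :=
        (((hT n).mul hsC).mul (hWc.pow 2)).intervalIntegrable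
      rw [← hibp, ← intervalIntegral.integral_add i2 i3]
      exact intervalIntegral.integral_congr fun θ _ => by ring
    refine Tendsto.congr (fun n => (hsplit n).symm) ?_
    refine Tendsto.const_add _ ?_
    refine intervalIntegral.tendsto_integral_filter_of_dominated_convergence (fun θ => W θ ^ 2)
      (.of_forall fun n => ?_) (.of_forall fun n => .of_forall fun θ hθ => ?_) iW ?_
    · exact ((((hT n).mul hsC).mul (hWc.pow 2)).mono uIoc_subset_uIcc).aestronglyMeasurable
        measurableSet_uIoc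
    · rw [uIoc_of_le h.le] at hθ
      have hx : |θ - (a + π)| ≤ π := abs_le.2 ⟨by linarith [hθ.1], by linarith [hθ.2]⟩
      rw [Real.norm_eq_abs, abs_mul, abs_of_nonneg (sq_nonneg (W θ))]
      exact mul_le_of_le_one_left (sq_nonneg _)
        (tan_mul_sin_abs_le (halfSeq_mem n).1 (halfSeq_mem n).2.le hx)
    · have hne : ∀ᵐ θ : ℝ, θ ≠ b := by simp [ae_iff, measure_singleton]
      filter_upwards [hne] with θ hθb hθ
      rw [uIoc_of_le h.le] at hθ
      set x := θ - (a + π) with hx
      have hxlt : θ < a + 2 * π := lt_of_le_of_ne hθ.2 hθb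
      have hcx : 0 < Real.cos (1 / 2 * x) :=
        Real.cos_pos_of_mem_Ioo ⟨by linarith [hθ.1], by linarith⟩
      have hmul : Tendsto (fun n => halfSeq n * x) atTop (𝓝 (1 / 2 * x)) :=
        halfSeq_tendsto.mul_const x
      have ht := (halfSeq_tendsto.mul
        ((Real.continuousAt_tan.2 hcx.ne').tendsto.comp hmul)).mul_const (Real.sin x)
      have hval : 1 / 2 * Real.tan (1 / 2 * x) * Real.sin x = (1 - Real.cos x) / 2 := by
        have h2 : Real.sin x = 2 * Real.sin (1 / 2 * x) * Real.cos (1 / 2 * x) := by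
          rw [← Real.sin_two_mul]; congr 1; ring
        have h3 : Real.cos x = 1 - 2 * Real.sin (1 / 2 * x) ^ 2 := by
          have := Real.cos_two_mul (1 / 2 * x)
          have hh : 2 * (1 / 2 * x) = x := by ring
          rw [hh] at this
          linarith [Real.sin_sq_add_cos_sq (1 / 2 * x)]
        rw [Real.tan_eq_sin_div_cos, h2, h3]
        have hy := hcx.ne'
        generalize Real.cos (1 / 2 * x) = C at hy ⊢
        generalize Real.sin (1 / 2 * x) = D
        field_simp
        ring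
      rw [hval] at ht
      exact ht.mul_const (W θ ^ 2)
  have hB2 : ∀ n, B n ^ 2 ≤ (∫ θ in a..b, (W' θ + tanMul (halfSeq n) (a + π) θ * W θ) ^ 2) *
      ∫ θ in a..b, W θ ^ 2 := by
    intro n
    have hq := (h.identity (halfSeq_mem n).1 (halfSeq_mem n).2).1
    have hT : ContinuousOn (tanMul (halfSeq n) (a + π)) (uIcc a b) := by
      rw [uIcc_of_le h.le]
      exact (tanMul_contDiffOn (halfSeq_mem n).1 (halfSeq_mem n).2).continuousOn
    have hsW : IntervalIntegrable (fun θ => (s θ * W θ) ^ 2) volume a b :=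
      ((hsC.mul hWc).pow 2).intervalIntegrable
    have hqs : IntervalIntegrable
        (fun θ => (W' θ + tanMul (halfSeq n) (a + π) θ * W θ) * (s θ * W θ)) volume a b :=
      (hg.add (hT.mul hWc).intervalIntegrable).mul_continuousOn (hsC.mul hWc)
    refine (sq_integral_mul_le h.le hq hqs hsW).trans (mul_le_mul_of_nonneg_left ?_
      (intervalIntegral.integral_nonneg h.le fun θ _ => sq_nonneg _))
    refine intervalIntegral.integral_mono_on h.le hsW iW fun θ _ => ?_
    rw [mul_pow]
    exact mul_le_of_le_one_left (sq_nonneg _) (Real.sin_sq_le_one _)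
  have hfin := le_of_tendsto_of_tendsto' (hlim.pow 2)
    ((excess_tendsto h).mul_const (∫ θ in a..b, W θ ^ 2)) hB2
  have hval : ∫ θ in a..b, (1 - c θ) / 2 * W θ ^ 2 =
      (∫ θ in a..b, W θ ^ 2) / 2 - (∫ θ in a..b, c θ * W θ ^ 2) / 2 := by
    rw [← intervalIntegral.integral_div, ← intervalIntegral.integral_div,
      ← intervalIntegral.integral_sub (iW.div_const 2) (i1.div_const 2)]
    exact intervalIntegral.integral_congr fun θ _ => by ring
  rw [hval] at hfin
  have hI : 0 ≤ ∫ θ in a..b, W θ ^ 2 :=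
    intervalIntegral.integral_nonneg h.le fun θ _ => sq_nonneg _
  rw [← Real.sqrt_mul' _ hI]
  refine Real.abs_le_sqrt ?_
  calc _ = (-((∫ θ in a..b, c θ * W θ ^ 2) / 2) + ((∫ θ in a..b, W θ ^ 2) / 2 -
        (∫ θ in a..b, c θ * W θ ^ 2) / 2)) ^ 2 := by ring
    _ ≤ _ := hfin

/-- The equality case. -/
theorem FullData.equality (h : FullData a W W')
    (heq : (∫ θ in a..(a + 2 * π), W' θ ^ 2) ≤ (∫ θ in a..(a + 2 * π), W θ ^ 2) / 4) :
    ∃ A : ℝ, ∀ θ ∈ Icc a (a + 2 * π), W θ = A * Real.cos ((θ - (a + π)) / 2) := by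
  set m := a + π with hm
  obtain ⟨hg, -⟩ := primitive_of_hasDerivAt h.le h.cont h.hasDeriv h.sq
  have hconst : ∀ c d, a < c → c ≤ d → d < a + 2 * π →
      W c / Real.cos ((c - m) / 2) = W d / Real.cos ((d - m) / 2) := by
    intro c d hc hcd hd
    have hin : ∀ θ ∈ Icc c d, 0 < Real.cos ((θ - m) / 2) := fun θ hθ =>
      Real.cos_pos_of_mem_Ioo ⟨by linarith [hθ.1], by linarith [hθ.2]⟩
    have hhalf : ContinuousOn (fun θ => 1 / Real.cos ((θ - m) / 2)) (Icc c d) :=
      continuousOn_const.div (by fun_prop) fun θ hθ => (hin θ hθ).ne'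
    have hi2 : IntervalIntegrable (fun θ => (1 / Real.cos ((θ - m) / 2)) ^ 2) volume c d :=
      (hhalf.pow 2).intervalIntegrable_of_Icc hcd
    set M := ∫ θ in c..d, (1 / Real.cos ((θ - m) / 2)) ^ 2 with hM
    have hM0 : 0 ≤ M := intervalIntegral.integral_nonneg hcd fun θ _ => sq_nonneg _
    set G : ℕ → ℝ → ℝ := fun n θ => W θ / Real.cos (halfSeq n * (θ - m)) with hG
    have hstep : ∀ n, (G n d - G n c) ^ 2 ≤
        (∫ θ in a..(a + 2 * π), (W' θ + tanMul (halfSeq n) m θ * W θ) ^ 2) * M := by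
      intro n
      obtain ⟨hk, hk2⟩ := halfSeq_mem n
      set k := halfSeq n with hkdef
      have hI : Icc c d ⊆ Icc a (a + 2 * π) := Icc_subset_Icc hc.le hd.le
      have hsub : uIcc c d ⊆ uIcc a (a + 2 * π) := by
        rw [uIcc_of_le hcd, uIcc_of_le h.le]; exact hI
      have hpos : ∀ θ ∈ Icc c d, 0 < Real.cos (k * (θ - m)) :=
        fun θ hθ => cos_mul_sub_pos hk hk2 (hI hθ)
      have hinv : ContinuousOn (fun θ => 1 / Real.cos (k * (θ - m))) (Icc c d) :=
        continuousOn_const.div (by fun_prop) fun θ hθ => (hpos θ hθ).ne'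
      have hT : ContinuousOn (tanMul k m) (Icc c d) :=
        (tanMul_contDiffOn hk hk2).continuousOn.mono hI
      have hqf : IntervalIntegrable (fun θ => (W' θ + tanMul k m θ * W θ) *
          (1 / Real.cos (k * (θ - m)))) volume c d :=
        ((hg.mono_set hsub).add ((hT.mul (h.cont.mono hI)).intervalIntegrable_of_Icc hcd)
          ).mul_continuousOn (by rwa [uIcc_of_le hcd])
      have hi : IntervalIntegrable (fun θ => (1 / Real.cos (k * (θ - m))) ^ 2) volume c d :=
        (hinv.pow 2).intervalIntegrable_of_Icc hcd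
      have hder : ∀ θ ∈ Ioo c d, HasDerivAt (G n)
          ((W' θ + tanMul k m θ * W θ) * (1 / Real.cos (k * (θ - m)))) θ := by
        intro θ hθ
        have hθI := Ioo_subset_Icc_self hθ
        have hcd' : HasDerivAt (fun y => Real.cos (k * (y - m)))
            (-Real.sin (k * (θ - m)) * (k * 1)) θ :=
          (Real.hasDerivAt_cos _).comp θ (((hasDerivAt_id θ).sub_const m).const_mul k)
        refine ((h.hasDeriv θ ⟨by linarith [hθ.1], by linarith [hθ.2]⟩).div hcd'
          (hpos θ hθI).ne').congr_deriv ?_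
        have := hpos θ hθI
        simp only [tanMul, Real.tan_eq_sin_div_cos]
        field_simp
        ring
      have hGc : ContinuousOn (G n) (Icc c d) :=
        (h.cont.mono hI).div (by fun_prop) fun θ hθ => (hpos θ hθ).ne'
      rw [← intervalIntegral.integral_eq_sub_of_hasDerivAt_of_le hcd hGc hder hqf]
      have hq := (h.identity hk hk2).1
      refine (sq_integral_mul_le hcd (hq.mono_set hsub) hqf hi).trans ?_
      refine mul_le_mul ?_ ?_ (intervalIntegral.integral_nonneg hcd fun θ _ => sq_nonneg _)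
        (intervalIntegral.integral_nonneg h.le fun θ _ => sq_nonneg _)
      · exact intervalIntegral.integral_mono_interval hc.le hcd hd.le
          (.of_forall fun θ => sq_nonneg _) hq
      · refine intervalIntegral.integral_mono_on hcd hi hi2 fun θ hθ => ?_
        have h2 := hI hθ
        refine pow_le_pow_left₀ (one_div_pos.2 (hpos θ hθ)).le
          (one_div_le_one_div_of_le (hin θ hθ) (cos_half_le hk hk2.le ?_)) 2
        exact abs_le.2 ⟨by linarith [h2.1], by linarith [h2.2]⟩
    have hlimG : ∀ θ, c ≤ θ → θ ≤ d →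
        Tendsto (fun n => G n θ) atTop (𝓝 (W θ / Real.cos ((θ - m) / 2))) := by
      intro θ h1 h2
      have hmul : Tendsto (fun n => halfSeq n * (θ - m)) atTop (𝓝 ((θ - m) / 2)) := by
        have := halfSeq_tendsto.mul_const (θ - m)
        convert this using 2
        ring
      exact tendsto_const_nhds.div ((Real.continuous_cos.tendsto _).comp hmul)
        (hin θ ⟨h1, h2⟩).ne'
    have hfin := le_of_tendsto_of_tendsto'
      (((hlimG d hcd le_rfl).sub (hlimG c le_rfl hcd)).pow 2)
      ((excess_tendsto h).mul_const M) hstep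
    have hzero := hfin.trans (mul_nonpos_of_nonpos_of_nonneg (by linarith) hM0)
    have := pow_eq_zero_iff (n := 2) two_ne_zero |>.1 (le_antisymm hzero (sq_nonneg _))
    linarith
  refine ⟨W m, fun θ hθ => ?_⟩
  rcases eq_or_lt_of_le hθ.1 with rfl | h1
  · have : (a - m) / 2 = -(π / 2) := by rw [hm]; ring
    rw [h.left, this, Real.cos_neg, Real.cos_pi_div_two, mul_zero]
  rcases eq_or_lt_of_le hθ.2 with rfl | h2
  · have : (a + 2 * π - m) / 2 = π / 2 := by rw [hm]; ring
    rw [h.right, this, Real.cos_pi_div_two, mul_zero]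
  have hcθ : 0 < Real.cos ((θ - m) / 2) :=
    Real.cos_pos_of_mem_Ioo ⟨by linarith, by linarith⟩
  have key : W θ / Real.cos ((θ - m) / 2) = W m / Real.cos ((m - m) / 2) := by
    rcases le_total θ m with hle | hle
    · exact hconst θ m h1 hle (by linarith [Real.pi_pos])
    · exact (hconst m θ (by linarith [Real.pi_pos]) hle h2).symm
  simp only [sub_self, zero_div, Real.cos_zero, div_one] at key
  rw [← key, div_mul_cancel₀ _ hcθ.ne']

end Full

/-- Piece D. -/
theorem wirtinger : WirtingerSpec := by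
  intro a b W W' hab hc hd h2
  obtain ⟨hg, hV⟩ := primitive_of_hasDerivAt hab.le hc hd h2
  refine ⟨?_, ?_, ?_⟩
  · rintro (⟨ha, hb⟩ | hm)
    · exact wirtinger_dirichlet hab hg h2 hV ha hb
    · exact wirtinger_mean_zero hab hg h2 hV hm
  · rintro ha hb rfl
    exact FullData.moment ⟨hc, hd, h2, ha, hb⟩
  · rintro ha hb rfl heq
    exact FullData.equality ⟨hc, hd, h2, ha, hb⟩ heq

end Vale.Agent.P128
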