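import Vale.Agent.P128.Key
import Vale.Agent.P128.Leaf
import Vale.Agent.P128.Ends
import Vale.Agent.P128.Main
import Vale.Agent.P128.Main2
import Vale.Agent.P128.Bridge
import Vale.Agent.P128.Competitor
import Vale.Agent.P128.Growth
import Vale.Agent.P128.Measure
import Vale.Agent.P128.Wirtinger
import Vale.Agent.P128.Components
import Vale.Agent.P128.Continuum
import Vale.Agent.P128.Mono
import Vale.Agent.P128.Tip
import Vale.Agent.P128.Sep2.NoBounded
import Vale.Agent.P128.SepFlat
import Vale.Agent.P128.FlatGeometry
import Vale.Agent.P128.OneComp
import Vale.Agent.P128.Circle.Energy
import Vale.Agent.P128.Circle.OneArc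
import Vale.Agent.P128.Circle.Flux
import Vale.Agent.P128.Cone
import Vale.Agent.P128.Network
import Vale.Agent.P128.Rigidity
import Vale.Agent.P128.Stream

/-!
# P128: assembly
-/

open MeasureTheory Set Metric Filter
open scoped ENNReal Topology Real

noncomputable section

namespace Vale.Agent.P128

/-- The open case from the pieces that are listed as hypotheses. -/
theorem openClassification_of (hKey : KeySpec) (hLiou : LiouvilleSpec)
    (hEnds : EndsSpec) (hLeaf : LeafSpec) :
    OpenClassificationSpec := by
  have hCone := cone replace_spec wirtinger
  have hTS := tipShift replace_spec wirtinger
  have hG := growth cut_spec eilenbergSpec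
  have hC := components hKey hG
  have hStream := stream test_spec hG hC
  have hComps := Circle.compIdentity test_spec
  have hEB := Circle.energyBound_of_comps hComps cut_spec coareaSpec wirtinger
  have hMono := mono hG partition hEB eilenbergSpec hC
  have hCap := cap hCone partition hC
  have hOA := Circle.oneArc_of_comps hComps
  have hRig := rigidity hG partition hC hEB hOA wirtinger
  have hTip := tipValue hMono hC eilenbergSpec hCone partition wirtinger hOA hTS
  have hOne := oneComp hStream hMono hCap hEnds noFlat_spec hCone hEB hG eilenbergSpec hC partition
  exact openClassification hLiou hStream hMono noFlat_spec hEnds hTip hOne hLeaf hRig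

/-- The whole classification from the remaining inputs. -/
theorem classification_of_pieces : ClassificationSpec := by
  have hG := growth cut_spec eilenbergSpec
  have hKey := key replace_spec test_spec hG
  have hLiou := liouville hG
  have hC := components hKey hG
  have hLeaf := leaf hG hC
  have hStream := stream test_spec hG hC
  have hComps := Circle.compIdentity test_spec
  have hEB := Circle.energyBound_of_comps hComps cut_spec coareaSpec wirtinger
  have hMono := mono hG partition hEB eilenbergSpec hC
  have hCone := cone replace_spec wirtinger
  have hTS := tipShift replace_spec wirtinger
  have hCap := cap hCone partition hC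
  have hEnds := ends hG eilenbergSpec hC hCone (network replace_spec) partition
  have hOA := Circle.oneArc_of_comps hComps
  have hTip := tipValue hMono hC eilenbergSpec hCone partition wirtinger hOA hTS
  have hMany : GenManyCompSpec :=
    manyComp hStream hMono hCap hEnds hCone hEB hG eilenbergSpec hC partition
  have hNB := noBounded genReplace hStream hMono hEnds hTip hMany
  have hFlat := sepFlat hMany hStream hMono hTip hNB partition
  exact classification_of (openClassification_of hKey hLiou hEnds hLeaf)
    (disconnected_of hFlat (flatGeometry genReplace hEnds))

end Vale.Agent.P128
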