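import Vale.Agent.P128.Problem

/-!
# P128: definitions for global Mumford-Shah minimisers in the plane

The plane is `ℂ` (Euclidean norm, Lebesgue `volume`, length `μH[1]`).

Two notions of global minimiser are used.
* `Pair` / `IsGlobalMinimizer`: the one of the problem (`u ∈ W^{1,2}_loc` with weak gradient).
* `IsGM`: the working notion: `u` is a harmonic function off `K` and competitors are only the
  locally Lipschitz ones.
-/

open MeasureTheory Set Metric Filter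
open scoped ENNReal Topology Real RealInnerProductSpace

noncomputable section

namespace Vale.Agent.P128

/-- `(u, K)` is a crack-tip pair (up to a rigid motion), the equality holding off `K`. -/
def IsCrackTip (K : Set ℂ) (u : ℂ → ℝ) : Prop :=
  ∃ a θ k, ∃ s : ℝ, (s = 1 ∨ s = -1) ∧ K = ray a (θ + π) ∧
    ∀ z ∉ K, u z = crackTip a θ k s z

/-! ## Working notions -/

/-- `|∇f|²`. -/
def gradSq (f : ℂ → ℝ) (z : ℂ) : ℝ :=
  (fderiv ℝ f z 1) ^ 2 + (fderiv ℝ f z Complex.I) ^ 2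

/-- `∇f · ∇g`. -/
def gradInner (f g : ℂ → ℝ) (z : ℂ) : ℝ :=
  fderiv ℝ f z 1 * fderiv ℝ g z 1 + fderiv ℝ f z Complex.I * fderiv ℝ g z Complex.I

/-- Dirichlet energy of `f` in `S \ K`. -/
def dirichlet (K : Set ℂ) (f : ℂ → ℝ) (S : Set ℂ) : ℝ≥0∞ :=
  ∫⁻ z in S \ K, ENNReal.ofReal (gradSq f z)

/-- Energy of `(f, K)` in `S`. -/
def energy (K : Set ℂ) (f : ℂ → ℝ) (S : Set ℂ) : ℝ≥0∞ :=
  dirichlet K f S + μH[1] (K ∩ S)

/-- Locally Lipschitz competitor `(v, L)` of `(u, K)` in `ball c r`. -/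
def Competes (K : Set ℂ) (u : ℂ → ℝ) (L : Set ℂ) (v : ℂ → ℝ) (c : ℂ) (r : ℝ) : Prop :=
  IsClosed L ∧ LocallyLipschitzOn Lᶜ v ∧
    (∃ C : Set ℂ, IsCompact C ∧ C ⊆ ball c r ∧ L \ C = K \ C ∧ ∀ z ∉ C ∪ K, v z = u z) ∧
    KeepsSeparation K L c r

/-- Reduced global minimiser, working notion. -/
structure IsGM (K : Set ℂ) (u : ℂ → ℝ) : Prop where
  isClosed : IsClosed K
  harmonic : InnerProductSpace.HarmonicOnNhd u Kᶜ
  finite : ∀ (c : ℂ) (r : ℝ), energy K u (ball c r) < ⊤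
  reduced : IsReduced K
  minimal : ∀ (c : ℂ) (r : ℝ), 0 < r → ∀ L v, Competes K u L v c r →
    energy K u (ball c r) ≤ energy L v (ball c r)

/-- The open case of the classification: the complement of `K` is connected. -/
structure OpenCase (K : Set ℂ) (u : ℂ → ℝ) : Prop extends IsGM K u where
  conn : IsPreconnected Kᶜ

/-- `D(x, r) = ∫_{B(x,r) \ K} |∇u|²`. -/
def dir (K : Set ℂ) (u : ℂ → ℝ) (x : ℂ) (r : ℝ) : ℝ := (dirichlet K u (ball x r)).toReal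

/-- `H(x, r) = H¹(K ∩ B(x,r))`. -/
def len (K : Set ℂ) (x : ℂ) (r : ℝ) : ℝ := (μH[1] (K ∩ ball x r)).toReal

/-- `y(x, r) = D(x, r) / r`. -/
def yrat (K : Set ℂ) (u : ℂ → ℝ) (x : ℂ) (r : ℝ) : ℝ := dir K u x r / r

/-- `N(x, r)`, the number of points of `K` on the circle. -/
def cnt (K : Set ℂ) (x : ℂ) (r : ℝ) : ℕ∞ := (K ∩ sphere x r).encard

/-- Tangential derivative of `u` at angle `θ` of the circle. -/
def dT (u : ℂ → ℝ) (x : ℂ) (r θ : ℝ) : ℝ :=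
  fderiv ℝ u (circleMap x r θ) (Complex.exp (θ * Complex.I) * Complex.I)

/-- Radial derivative of `u` at angle `θ` of the circle. -/
def dR (u : ℂ → ℝ) (x : ℂ) (r θ : ℝ) : ℝ :=
  fderiv ℝ u (circleMap x r θ) (Complex.exp (θ * Complex.I))

/-- `∫ u_τ² ds` over the arc `(a, b)`. -/
def tauArc (u : ℂ → ℝ) (x : ℂ) (r a b : ℝ) : ℝ := ∫ θ in a..b, r * dT u x r θ ^ 2

/-- `∫ u_r² ds` over the arc `(a, b)`. -/
def rhoArc (u : ℂ → ℝ) (x : ℂ) (r a b : ℝ) : ℝ := ∫ θ in a..b, r * dR u x r θ ^ 2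

/-- `∫ u_τ² ds` over the whole circle. -/
def tauC (u : ℂ → ℝ) (x : ℂ) (r : ℝ) : ℝ := tauArc u x r 0 (2 * π)

/-- `∫ u_r² ds` over the whole circle. -/
def rhoC (u : ℂ → ℝ) (x : ℂ) (r : ℝ) : ℝ := rhoArc u x r 0 (2 * π)

/-- A radius at which circle calculus is possible. -/
structure GoodRadius (K : Set ℂ) (u : ℂ → ℝ) (x : ℂ) (r : ℝ) : Prop where
  pos : 0 < r
  fin : (K ∩ sphere x r).Finite
  intT : ∀ a b : ℝ, IntervalIntegrable (fun θ => dT u x r θ ^ 2) volume a b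
  intR : ∀ a b : ℝ, IntervalIntegrable (fun θ => dR u x r θ ^ 2) volume a b
  deriv : HasDerivAt (dir K u x) (tauC u x r + rhoC u x r) r

/-- The open arc `(a, b)` of the circle is free of `K`. -/
def IsFreeArc (K : Set ℂ) (x : ℂ) (r a b : ℝ) : Prop :=
  a < b ∧ b ≤ a + 2 * π ∧ ∀ θ ∈ Ioo a b, circleMap x r θ ∉ K

/-- `t 0 < ⋯ < t m = t 0 + 2π` are the angles of the points of `K` on the circle. -/
def IsPartition (K : Set ℂ) (x : ℂ) (r : ℝ) (t : ℕ → ℝ) (m : ℕ) : Prop :=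
  0 < m ∧ t m = t 0 + 2 * π ∧
    ∀ i < m, IsFreeArc K x r (t i) (t (i + 1)) ∧ circleMap x r (t i) ∈ K

/-- `Σ_j 2 a_j √(τ_j ρ_j)`, `a_j` the angle of the arc `j` over `2π`. -/
def arcSum (u : ℂ → ℝ) (x : ℂ) (r : ℝ) (t : ℕ → ℝ) (m : ℕ) : ℝ :=
  ∑ i ∈ Finset.range m, (t (i + 1) - t i) / π *
    Real.sqrt (tauArc u x r (t i) (t (i + 1)) * rhoArc u x r (t i) (t (i + 1)))

/-- Two antipodal points, or three at mutual angles `2π/3`, up to `ε`. -/
def IsRegularStar (ε : ℝ) (t : ℕ → ℝ) (m : ℕ) : Prop :=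
  (m = 2 ∨ m = 3) ∧ ∀ i < m, |t (i + 1) - t i - 2 * π / m| ≤ ε

/-- `V` is a stream function of `u`: continuous, `u + iV` holomorphic off `K`, constant on each
component of `K`. -/
structure IsStream (K : Set ℂ) (u V : ℂ → ℝ) : Prop where
  cont : Continuous V
  diff : ∀ z ∉ K, DifferentiableAt ℝ V z
  fderiv_eq : ∀ z ∉ K, ∀ w : ℂ, fderiv ℝ V z w = fderiv ℝ u z (-(Complex.I * w))
  const : ∀ p ∈ K, ∀ q ∈ connectedComponentIn K p, V q = V p

/-- All components of `K` have the same stream value. -/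
def Balanced (K : Set ℂ) (V : ℂ → ℝ) : Prop := ∀ p ∈ K, ∀ q ∈ K, V p = V q

/-- `K` has no nonempty compact relatively open subset. -/
def NoPiece (K : Set ℂ) : Prop :=
  ∀ C : Set ℂ, C ⊆ K → IsCompact C → IsClosed (K \ C) → C = ∅

/-- An injective unit speed path in `K` from `p` to `q`. -/
structure ArcIn (K : Set ℂ) (γ : ℝ → ℂ) (T : ℝ) (p q : ℂ) : Prop where
  nonneg : 0 ≤ T
  lip : LipschitzOnWith 1 γ (Icc 0 T)
  inj : InjOn γ (Icc 0 T)
  maps : MapsTo γ (Icc 0 T) K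
  source : γ 0 = p
  target : γ T = q
  time : ∀ A : Set ℂ, MeasurableSet A → volume (Icc 0 T ∩ γ ⁻¹' A) ≤ μH[1] (K ∩ A)

/-- The set of connected components of `K`. -/
def comps (K : Set ℂ) : Set (Set ℂ) := (fun p => connectedComponentIn K p) '' K

/-- Structure of the components of `K`. -/
structure CompStructure (K : Set ℂ) : Prop where
  finite : (comps K).Finite
  unbounded : ∀ p ∈ K, ¬ Bornology.IsBounded (connectedComponentIn K p)
  closedComp : ∀ p ∈ K, IsClosed (connectedComponentIn K p)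
  openComp : ∀ p ∈ K, ∃ δ > 0, K ∩ ball p δ ⊆ connectedComponentIn K p
  arc : ∀ p ∈ K, ∀ q ∈ connectedComponentIn K p, ∃ γ T, ArcIn K γ T p q
  meets : ∀ x ∈ K, ∀ r : ℝ, 0 < r → 1 ≤ cnt K x r
  reach : ∀ (x : ℂ) (r : ℝ), ∀ p ∈ K ∩ closedBall x r,
    ∃ q ∈ sphere x r, q ∈ connectedComponentIn (K ∩ closedBall x r) p
  count : ∀ x : ℂ, ∀ᶠ r : ℝ in atTop, (comps K).encard ≤ cnt K x r

/-- Two continua in `K` meeting only at `x`. -/
def TwoBranches (K : Set ℂ) (x : ℂ) : Prop :=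
  ∃ Q₁ Q₂ : Set ℂ, (IsCompact Q₁ ∧ IsConnected Q₁ ∧ Q₁ ⊆ K ∧ Q₁.Nontrivial) ∧
    (IsCompact Q₂ ∧ IsConnected Q₂ ∧ Q₂ ⊆ K ∧ Q₂.Nontrivial) ∧ Q₁ ∩ Q₂ = {x}

/-- `P` holds for most radii near the end `l` (`atTop` or `𝓝[>] 0`), in measure. -/
def Most (l : Filter ℝ) (P : ℝ → Prop) : Prop :=
  ∀ ε > 0, ∀ᶠ R in l, volume {r | r ∈ Icc R (2 * R) ∧ ¬P r} ≤ ENNReal.ofReal (ε * R)

/-- The two ends of the scale axis. -/
def IsEnd (l : Filter ℝ) : Prop := l = atTop ∨ l = 𝓝[>] (0 : ℝ)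

/-- Near equality in the monotonicity formula. -/
def NearEq (K : Set ℂ) (u : ℂ → ℝ) (x : ℂ) (η L r : ℝ) : Prop :=
  GoodRadius K u x r ∧ |tauC u x r + rhoC u x r - L| ≤ η ∧
    ∀ t m, IsPartition K x r t m → L - η ≤ arcSum u x r t m

end Vale.Agent.P128
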