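import Vale.Agent.P128.Assemble
import Vale.Agent.P128.Ends
import Vale.Agent.P128.Regularity.Assemble
import Vale.Agent.P128.Regularity.LineDecay
import Vale.Agent.P128.Regularity.LineGraph
import Vale.Agent.P128.Regularity.StarDecay
import Vale.Agent.P128.Regularity.TipDecay

/-!
# P128: Question 1, the regularity of reduced minimizers
-/

noncomputable section

namespace Vale.Agent.P128

open Regularity

/-- The branch count at infinity. -/
theorem endsSpec : EndsSpec :=
  have hG := growth cut_spec eilenbergSpec
  ends hG eilenbergSpec (components (key replace_spec test_spec hG) hG)
    (cone replace_spec wirtinger) (network replace_spec) partition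

/-- The case of a connected complement. -/
theorem openClassificationSpec : OpenClassificationSpec :=
  have hG := growth cut_spec eilenbergSpec
  have hKey := key replace_spec test_spec hG
  openClassification_of hKey (liouville hG) endsSpec (leaf hG (components hKey hG))

/-- The case of a disconnected complement. -/
theorem disconnectedSpec : DisconnectedSpec := by
  have hG := growth cut_spec eilenbergSpec
  have hC := components (key replace_spec test_spec hG) hG
  have hStream := stream test_spec hG hC
  have hComps := Circle.compIdentity test_spec
  have hEB := Circle.energyBound_of_comps hComps cut_spec coareaSpec wirtinger
  have hMono := mono hG partition hEB eilenbergSpec hC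
  have hCone := cone replace_spec wirtinger
  have hTS := tipShift replace_spec wirtinger
  have hCap := cap hCone partition hC
  have hOA := Circle.oneArc_of_comps hComps
  have hTip := tipValue hMono hC eilenbergSpec hCone partition wirtinger hOA hTS
  have hMany : GenManyCompSpec :=
    manyComp hStream hMono hCap endsSpec hCone hEB hG eilenbergSpec hC partition
  have hNB := noBounded genReplace hStream hMono endsSpec hTip hMany
  have hFlat := sepFlat hMany hStream hMono hTip hNB partition
  exact disconnected_of hFlat (flatGeometry genReplace endsSpec)

/-- The classification used by the regularity stage. -/
theorem classSpec : ClassSpec :=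
  classSpec_of bridge openClassificationSpec disconnectedSpec

/-- Question 1: near each of its points a reduced crack set is one of the three models. -/
theorem q1 : Q1Spec :=
  q1_of classSpec lineGraph (lineDecay lineTopo) starDecay (tipDecay translate)

end Vale.Agent.P128
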