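import Vale.Agent.P128.Key.Zero
import Vale.Agent.P128.Key.RemovableGen

/-!
# P128 piece E: no compact piece, and the empty crack set
-/

open MeasureTheory Set Metric Filter Function
open scoped Topology Real RealInnerProductSpace ContDiff

noncomputable section

namespace Vale.Agent.P128

namespace KeyAux

variable {K C : Set ℂ} {u : ℂ → ℝ}

theorem norm_cgrad (g : ℂ → ℝ) (z : ℂ) : ‖cgrad g z‖ = ‖grad g z‖ := by
  rw [grad_eq_conj]; simp

theorem differentiableAt_cgrad_of {g : ℂ → ℝ} {U : Set ℂ} (hU : IsOpen U)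
    (hg : ContDiffOn ℝ ∞ g U) (hl : ∀ z ∈ U, lap g z = 0) {z : ℂ} (hz : z ∈ U) :
    DifferentiableAt ℂ (cgrad g) z := by
  have h2 : ∀ y ∈ U, ContDiffAt ℝ 2 g y := fun y hy =>
    (hg.contDiffAt (hU.mem_nhds hy)).of_le (WithTop.coe_le_coe.2 le_top)
  have hh : InnerProductSpace.HarmonicAt g z := by
    refine ⟨h2 z hz, ?_⟩
    filter_upwards [hU.mem_nhds hz] with y hy
    rw [lap_eq_laplacian (h2 y hy)]
    exact hl y hy
  exact HarmonicAt.differentiableAt_complex_partial hh

theorem moll_mem (δ : ℝ) (w : ℂ) : 0 ≤ Removable.moll δ w ∧ Removable.moll δ w ≤ 1 :=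
  ⟨Real.smoothTransition.nonneg _, Real.smoothTransition.le_one _⟩

theorem mass_eq {δ : ℝ} (hδ : 0 < δ) : Removable.mass δ = δ ^ 2 * Removable.mass 1 := by
  have h : ∀ w : ℂ, Removable.moll δ w = Removable.moll 1 (δ⁻¹ • w) := fun w => by
    simp only [Removable.moll, Removable.prof, norm_smul, norm_inv, Real.norm_eq_abs,
      abs_of_pos hδ]
    congr 1
    field_simp
  rw [Removable.mass, Removable.mass, integral_congr_ae (Eventually.of_forall h),
    Measure.integral_comp_inv_smul_of_nonneg volume (Removable.moll 1) hδ.le,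
    Complex.finrank_real_complex, smul_eq_mul]

/-- An entire function with `∫_{B_r} |f|² = O(r)` vanishes. -/
theorem eq_zero_of_growth {f : ℂ → ℂ} (hf : Differentiable ℂ f) {c : ℝ}
    (hb : ∀ r : ℝ, 1 ≤ r → ∫ z in ball (0 : ℂ) r, ‖f z‖ ^ 2 ≤ c * r) (z : ℂ) : f z = 0 := by
  by_contra hne
  have ha : 0 < ‖f z‖ := norm_pos_iff.2 hne
  have hm : 0 < Removable.mass 1 := Removable.mass_pos one_pos
  set m := Removable.mass 1
  set a := ‖f z‖
  have hc : 0 ≤ c := by
    have h1 := hb 1 le_rfl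
    rw [mul_one] at h1
    exact le_trans (integral_nonneg fun _ => by positivity) h1
  set ε : ℝ := π / (m * a) with hε
  have hε0 : 0 < ε := by positivity
  set δ : ℝ := ‖z‖ + 1 + 4 * ε * c / (m * a) with hδdef
  have hδ1 : ‖z‖ + 1 ≤ δ := le_add_of_nonneg_right (by positivity)
  have hδ : 0 < δ := lt_of_lt_of_le (by positivity) hδ1
  set g : ℂ → ℂ := fun t => f (z + t) with hg
  have hgd : Differentiable ℂ g := hf.comp (differentiable_id.const_add z)
  have hgc : Continuous g := hgd.continuous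
  have hmean := Removable.integral_radial hδ hgd.differentiableOn (g := g)
  have hint1 : IntegrableOn (fun t => ‖g t‖) (closedBall 0 δ) :=
    hgc.norm.continuousOn.integrableOn_compact (isCompact_closedBall _ _)
  have hint2 : IntegrableOn (fun t => ‖g t‖ ^ 2) (closedBall 0 δ) :=
    (hgc.norm.pow 2).continuousOn.integrableOn_compact (isCompact_closedBall _ _)
  have hle : δ ^ 2 * m * a ≤ ∫ t in closedBall 0 δ, ‖g t‖ := by
    have e : ‖∫ t, Removable.moll δ t • g t‖ = δ ^ 2 * m * a := by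
      rw [hmean, norm_smul, Real.norm_eq_abs, abs_of_pos (Removable.mass_pos hδ), mass_eq hδ]
      simp [hg, a, m]
    rw [← e, ← integral_indicator measurableSet_closedBall]
    refine norm_integral_le_of_norm_le ((integrable_indicator_iff measurableSet_closedBall).2 hint1)
      (Eventually.of_forall fun t => ?_)
    by_cases ht : t ∈ closedBall (0 : ℂ) δ
    · rw [indicator_of_mem ht, norm_smul, Real.norm_eq_abs, abs_of_nonneg (moll_mem δ t).1]
      exact mul_le_of_le_one_left (norm_nonneg _) (moll_mem δ t).2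
    · rw [indicator_of_notMem ht,
        image_eq_zero_of_notMem_tsupport fun h => ht (Removable.moll_support hδ.le h)]
      simp
  have hsq : ∫ t in closedBall 0 δ, ‖g t‖ ^ 2 ≤ c * (2 * δ) := by
    have hpre : (fun t => z + t) ⁻¹' closedBall z δ = closedBall 0 δ := by
      ext t; simp [dist_eq_norm]
    have h1 := (measurePreserving_add_left volume z).setIntegral_preimage_emb
      (measurableEmbedding_addLeft z) (fun y => ‖f y‖ ^ 2) (closedBall z δ)
    rw [hpre] at h1
    rw [show (∫ t in closedBall 0 δ, ‖g t‖ ^ 2) = ∫ y in closedBall z δ, ‖f y‖ ^ 2 from h1]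
    refine le_trans ?_ (hb (2 * δ) (by linarith [norm_nonneg z]))
    refine setIntegral_mono_set ?_ (Eventually.of_forall fun y => by positivity)
      (LE.le.eventuallyLE ?_)
    · exact ((hf.continuous.norm.pow 2).continuousOn.integrableOn_compact
        (isCompact_closedBall 0 (2 * δ))).mono_set ball_subset_closedBall
    · exact closedBall_subset_ball' (by rw [dist_zero_right]; linarith)
  have hamgm : ∫ t in closedBall 0 δ, ‖g t‖ ≤
      ε / 2 * (∫ t in closedBall 0 δ, ‖g t‖ ^ 2) + 1 / (2 * ε) * (π * δ ^ 2) := by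
    have hk : IntegrableOn (fun _ : ℂ => 1 / (2 * ε)) (closedBall 0 δ) :=
      continuous_const.continuousOn.integrableOn_compact (isCompact_closedBall _ _)
    calc ∫ t in closedBall 0 δ, ‖g t‖
        ≤ ∫ t in closedBall 0 δ, (ε / 2 * ‖g t‖ ^ 2 + 1 / (2 * ε)) := by
          refine setIntegral_mono_on hint1 ((hint2.const_mul _).add hk) measurableSet_closedBall
            fun t _ => ?_
          field_simp
          nlinarith [sq_nonneg (ε * ‖g t‖ - 1)]
      _ = _ := by
          rw [integral_add (hint2.const_mul _) hk, integral_const_mul, setIntegral_const,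
            smul_eq_mul, measureReal_def, Complex.volume_closedBall]
          simp [ENNReal.toReal_ofReal hδ.le]
          ring
  have h2 : δ ^ 2 * m * a ≤ ε * c * δ + δ ^ 2 * m * a / 2 := by
    refine hle.trans (hamgm.trans ?_)
    refine add_le_add ?_ (le_of_eq ?_)
    · calc ε / 2 * _ ≤ ε / 2 * (c * (2 * δ)) := mul_le_mul_of_nonneg_left hsq (by positivity)
        _ = ε * c * δ := by ring
    · rw [hε]; field_simp
  have h3 : δ * (m * a) ≤ 2 * (ε * c) := by
    refine le_of_mul_le_mul_left ?_ hδ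
    nlinarith [h2]
  have h4 : δ * (m * a) = (‖z‖ + 1) * (m * a) + 4 * (ε * c) := by
    rw [hδdef]; field_simp
  nlinarith [mul_pos hm ha, norm_nonneg z, mul_nonneg hε0.le hc]

theorem integral_grad_sq (hG : GrowthSpec) (hu : IsGM K u) {r : ℝ} (hr : 0 < r) :
    ∫ z in ball (0 : ℂ) r, ‖grad u z‖ ^ 2 ≤ 2 * π * r := by
  obtain ⟨-, h2, h3⟩ := (hG K u hu 0).1 r hr
  have hd : dir K u 0 r = ∫ z in ball (0 : ℂ) r, ‖grad u z‖ ^ 2 := by
    rw [dir, dirichlet, setLIntegral_congr (sdiff_null_ae_eq_self hu.volume_eq_zero),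
      integral_eq_lintegral_of_nonneg_ae (Eventually.of_forall fun z => by positivity)
        (integrableOn_gradSq hu 0 r).aestronglyMeasurable]
    simp only [gradSq_eq]
  linarith

/-- A compact piece of positive length cannot be the whole crack. -/
theorem not_whole (hR : ReplaceSpec) (hG : GrowthSpec) (hu : IsGM K u) (hCK : C ⊆ K)
    (hC : IsCompact C) (hKo : IsClosed (K \ C)) (hempty : K \ C = ∅) (S : Split K u C)
    (hpos : 0 < (μH[1] C).toReal) : False := by
  have hh : ContDiff ℝ ∞ S.h := by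
    have := S.smooth_h
    rwa [hempty, compl_empty, contDiffOn_univ] at this
  have hd : Differentiable ℂ (cgrad S.h) := fun z =>
    differentiableAt_cgrad_of isOpen_univ hh.contDiffOn
      (fun y _ => S.harm_h y (by rw [hempty]; exact notMem_empty y)) (mem_univ z)
  have hWi : Integrable (fun z => ‖grad S.W z‖ ^ 2) :=
    (memLp_two_iff_integrable_sq_norm S.memL2.aestronglyMeasurable).1 S.memL2
  have hh0 : ∀ z, grad S.h z = 0 := by
    intro z
    rw [← norm_eq_zero, ← norm_cgrad, norm_eq_zero]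
    refine eq_zero_of_growth hd (c := 4 * π + 2 * ∫ y, ‖grad S.W y‖ ^ 2) (fun r hr => ?_) z
    simp only [norm_cgrad]
    have hb : ∀ᵐ y ∂volume.restrict (ball (0 : ℂ) r),
        ‖grad S.h y‖ ^ 2 ≤ 2 * ‖grad u y‖ ^ 2 + 2 * ‖grad S.W y‖ ^ 2 := by
      refine ae_restrict_of_ae ?_
      filter_upwards [ae_grad_split hu hC.isClosed hCK hKo S] with y hy
      have : ‖grad S.h y‖ ≤ ‖grad u y‖ + ‖grad S.W y‖ := by
        rw [eq_sub_of_add_eq hy.symm]; exact norm_sub_le _ _
      nlinarith [norm_nonneg (grad S.h y), sq_nonneg (‖grad u y‖ - ‖grad S.W y‖)]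
    have hu2 : IntegrableOn (fun y => 2 * ‖grad u y‖ ^ 2) (ball 0 r) :=
      (integrableOn_gradSq hu 0 r).const_mul 2
    have hW2 : IntegrableOn (fun y => 2 * ‖grad S.W y‖ ^ 2) (ball 0 r) :=
      (hWi.const_mul 2).integrableOn
    refine (integral_mono_of_nonneg (Eventually.of_forall fun y => by positivity)
      (hu2.add hW2) hb).trans ?_
    rw [integral_add' hu2 hW2, integral_const_mul, integral_const_mul]
    have h1 := integral_grad_sq hG hu (show 0 < r by linarith)
    have h2 := setIntegral_le_integral hWi (s := ball (0 : ℂ) r)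
      (Eventually.of_forall fun y => by positivity)
    have h3 : 0 ≤ ∫ y, ‖grad S.W y‖ ^ 2 := integral_nonneg fun _ => by positivity
    nlinarith [Real.pi_pos]
  have hφ : LocallyLipschitzOn (((K \ C) ∪ (fun z => (0 : ℂ) + (2⁻¹ : ℝ) • z) '' C)ᶜ)
      (fun _ : ℂ => (0 : ℝ)) :=
    fun z _ => ⟨0, univ, univ_mem, (LipschitzWith.const (0 : ℝ)).lipschitzOnWith⟩
  obtain ⟨-, hv⟩ := variation hR hG hu hCK hC hKo S 0 (show (0 : ℝ) < 2⁻¹ by norm_num) hφ
    HasCompactSupport.zero (by simp [dirichlet, gradSq])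
  have hz : ∀ z, grad (fun _ : ℂ => (0 : ℝ)) z = 0 := fun z => by
    apply Complex.ext <;> simp [grad, pd]
  simp only [hz, add_zero] at hv
  have hmv : Integrable (fun z => ‖movedGrad S.W 0 2⁻¹ z‖ ^ 2) ∧
      ∫ z, ‖movedGrad S.W 0 2⁻¹ z‖ ^ 2 = ∫ z, ‖grad S.W z‖ ^ 2 := by
    have e : ∀ z, ‖movedGrad S.W 0 2⁻¹ z‖ ^ 2 = 4 * ‖grad S.W ((2 : ℝ) • z)‖ ^ 2 := fun z => by
      simp [movedGrad, simInv, mul_pow]
      norm_num
    simp only [e]
    refine ⟨(hWi.comp_smul two_ne_zero).const_mul 4, ?_⟩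
    rw [integral_const_mul, Measure.integral_comp_smul volume (fun y => ‖grad S.W y‖ ^ 2) 2,
      Complex.finrank_real_complex, smul_eq_mul]
    norm_num
    ring
  have hae : (fun z => 2 * ⟪grad u z, movedGrad S.W 0 2⁻¹ z - grad S.W z⟫ +
      ‖movedGrad S.W 0 2⁻¹ z - grad S.W z‖ ^ 2) =ᵐ[volume]
      fun z => ‖movedGrad S.W 0 2⁻¹ z‖ ^ 2 - ‖grad S.W z‖ ^ 2 := by
    filter_upwards [ae_grad_split hu hC.isClosed hCK hKo S] with z hz
    rw [hz, hh0, zero_add, norm_sub_sq_real, inner_sub_right, real_inner_self_eq_norm_sq,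
      real_inner_comm (grad S.W z) (movedGrad S.W 0 2⁻¹ z)]
    ring
  rw [integral_congr_ae hae, integral_sub hmv.1 hWi, hmv.2, sub_self, add_zero] at hv
  linarith

/-- The potential of a piece vanishes when other crack is present. -/
theorem W_eq_zero (hR : ReplaceSpec) (hT : TestSpec) (hG : GrowthSpec) (hu : IsGM K u)
    (hCK : C ⊆ K) (hC : IsCompact C) (hKo : IsClosed (K \ C)) (S : Split K u C)
    (hne : (K \ C).Nonempty) {U : Set ℂ} {R : ℝ} (hUo : IsOpen U) (hUc : IsPreconnected U)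
    (hUC : U ⊆ Cᶜ) (hUR : (ball (0 : ℂ) R)ᶜ ⊆ U) (hKU : K \ C ⊆ U) :
    ∀ z ∈ U, S.W z = 0 := by
  set f := cgrad S.W with hf
  have hfd' : DifferentiableOn ℂ f Cᶜ := fun z hz =>
    (differentiableAt_cgrad S hC.isClosed hz).differentiableWithinAt
  have hfd : DifferentiableOn ℂ f U := hfd'.mono hUC
  have hga : AnalyticOnNhd ℂ (deriv f) Cᶜ := (hfd'.analyticOnNhd hC.isClosed.isOpen_compl).deriv
  have hzero : ∀ p ∈ K \ C, deriv f p = 0 := by
    intro p hp
    by_contra hfp
    obtain ⟨ρ, hρ, hρC, hflux⟩ := fluxFree hR hG hu hCK hC hKo S p hp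
    have hev : ∀ᶠ z in 𝓝 p, deriv f z ≠ 0 := (hga p hp.2).continuousAt.eventually_ne hfp
    obtain ⟨r, hr, hr0⟩ := Metric.eventually_nhds_iff_ball.1 hev
    set σ := min r ρ
    have hσ : 0 < σ := lt_min hr hρ
    have hσρ : ball p σ ⊆ ball p ρ := ball_subset_ball (min_le_right _ _)
    have hσC : ball p σ ⊆ Cᶜ := hσρ.trans hρC
    set X : ℂ → ℂ → ℂ := fun e z => (starRingEnd ℂ) (deriv f z * e) with hX
    have hXs : ∀ e, ContDiffOn ℝ ((⊤ : ℕ∞) : WithTop ℕ∞) (X e) (ball p σ) := fun e => by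
      have h1 : ContDiffOn ℂ ((⊤ : ℕ∞) : WithTop ℕ∞) (fun z => deriv f z * e) (ball p σ) :=
        (((hga.differentiableOn).mono hσC).mul_const e).contDiffOn isOpen_ball
      exact Complex.conjCLE.contDiff.comp_contDiffOn (h1.restrict_scalars ℝ)
    have hXd : ∀ e, ∀ z ∈ ball p σ,
        (fderiv ℝ (X e) z 1).re + (fderiv ℝ (X e) z Complex.I).im = 0 := fun e z hz => by
      have h1 : DifferentiableAt ℂ (fun y => deriv f y * e) z :=
        ((hga z (hσC hz)).differentiableAt).mul_const e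
      have h2 : HasFDerivAt (X e) _ z :=
        Complex.conjCLE.hasFDerivAt.comp z (h1.hasDerivAt.hasFDerivAt.restrictScalars ℝ)
      rw [h2.fderiv]
      simp
    have hflx : ∀ e, IsFluxFree K (X e) p σ := fun e φ h1 h2 h3 h4 =>
      hflux e φ h1 h2 (h3.trans hσρ) h4
    have hdet : ∀ z ∈ ball p σ,
        (X 1 z).re * (X Complex.I z).im - (X 1 z).im * (X Complex.I z).re ≠ 0 := fun z hz => by
      have hg := Complex.normSq_pos.2 (hr0 z (ball_subset_ball (min_le_left _ _) hz))
      rw [Complex.normSq_apply] at hg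
      simp [hX]
      intro hc
      linarith
    have hrem := removable_gen hR hT K u hu p σ hσ (X 1) (X Complex.I) (hXs 1) (hXs _) (hXd 1)
      (hXd _) hdet (hflx 1) (hflx _)
    exact (hrem ▸ (⟨hp.1, mem_ball_self hσ⟩ : p ∈ K ∩ ball p σ) : p ∈ (∅ : Set ℂ))
  obtain ⟨p, hp⟩ := hne
  have hfreq : ∃ᶠ z in 𝓝[≠] p, deriv f z = 0 := by
    rw [frequently_nhdsWithin_iff]
    rw [Metric.nhds_basis_ball.frequently_iff]
    intro r hr
    obtain ⟨s, hs, hsC⟩ := Metric.isOpen_iff.1 hC.isClosed.isOpen_compl p hp.2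
    have hlen := hu.reduced p hp.1 (min r s) (lt_min hr hs)
    by_contra hnone
    push Not at hnone
    have hsub : K ∩ ball p (min r s) ⊆ {p} := fun z hz => by
      by_contra hzp
      exact hnone z (ball_subset_ball (min_le_left _ _) hz.2)
        (hzero z ⟨hz.1, hsC (ball_subset_ball (min_le_right _ _) hz.2)⟩) hzp
    have := Measure.nullSingletonClass_hausdorff ℂ (show (0 : ℝ) < 1 by norm_num)
    exact hlen.ne' (measure_mono_null hsub (measure_singleton p))
  have hderiv : U.EqOn (deriv f) 0 :=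
    (hga.mono hUC).eqOn_zero_of_preconnected_of_frequently_eq_zero hUc (hKU hp) hfreq
  obtain ⟨c, hc⟩ := hUo.exists_is_const_of_deriv_eq_zero hUc hfd hderiv
  obtain ⟨A, R', hA, -, hdec'⟩ := S.decay
  have hdec : ∀ z : ℂ, max R R' ≤ ‖z‖ →
      z ∈ U ∧ |S.W z| ≤ A / ‖z‖ ∧ ‖grad S.W z‖ ≤ A / ‖z‖ ^ 2 := fun z hz =>
    ⟨hUR (by simpa [dist_zero_right] using (le_max_left R R').trans hz),
      (hdec' z ((le_max_right R R').trans hz)).2⟩
  have hlim : ∀ x : ℝ, (∀ s : ℝ, max R R' ≤ s → 1 ≤ s → |x| ≤ A / s) → x = 0 := by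
    intro x hx
    refine abs_eq_zero.1 (le_antisymm ?_ (abs_nonneg x))
    refine le_of_forall_pos_le_add fun ε hε => ?_
    refine (hx (max (max (max R R') 1) (A / ε)) ((le_max_left _ _).trans (le_max_left _ _))
      ((le_max_right _ _).trans (le_max_left _ _))).trans ?_
    rw [zero_add, div_le_iff₀ (lt_of_lt_of_le zero_lt_one
      ((le_max_right _ _).trans (le_max_left _ _)))]
    calc A = ε * (A / ε) := by field_simp
      _ ≤ _ := mul_le_mul_of_nonneg_left (le_max_right _ _) hε.le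
  have hc0 : c = 0 := norm_eq_zero.1 <| hlim ‖c‖ fun s hs hs1 => by
    have hn : ‖(s : ℂ)‖ = s := by simp [abs_of_nonneg (zero_le_one.trans hs1)]
    obtain ⟨h1, -, h3⟩ := hdec (s : ℂ) (by rwa [hn])
    rw [← norm_cgrad, ← hf, hc _ h1, hn] at h3
    rw [abs_norm]
    exact h3.trans (div_le_div_of_nonneg_left hA (by linarith) (by nlinarith))
  have hWd : DifferentiableOn ℝ S.W U := (S.smooth_W.differentiableOn (by simp)).mono hUC
  have hW0 : U.EqOn (fderiv ℝ S.W) 0 := fun z hz => by
    have hg0 : grad S.W z = 0 := by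
      rw [← norm_eq_zero, ← norm_cgrad, ← hf, hc z hz, hc0, norm_zero]
    refine ContinuousLinearMap.ext fun v => ?_
    simp [inner_grad, hg0]
  obtain ⟨k, hk⟩ := hUo.exists_is_const_of_fderiv_eq_zero hUc hWd hW0
  have hk0 : k = 0 := hlim k fun s hs hs1 => by
    have hn : ‖(s : ℂ)‖ = s := by simp [abs_of_nonneg (zero_le_one.trans hs1)]
    obtain ⟨h1, h2, -⟩ := hdec (s : ℂ) (by rwa [hn])
    rwa [hk _ h1, hn] at h2
  exact fun z hz => (hk z hz).trans hk0

/-- A piece with trivial potential on the outer region can be erased. -/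
theorem not_trivial (hR : ReplaceSpec) (hu : IsGM K u) (hCK : C ⊆ K) (hC : IsCompact C)
    (hKo : IsClosed (K \ C)) (S : Split K u C) {U : Set ℂ} {R : ℝ} (hUo : IsOpen U)
    (hUC : U ⊆ Cᶜ) (hUR : (ball (0 : ℂ) R)ᶜ ⊆ U) (hKU : K \ C ⊆ U)
    (hW : ∀ z ∈ U, S.W z = 0) (hpos : 0 < μH[1] C) : False := by
  set B : Set ℂ := closedBall 0 R
  have hUB : Uᶜ ⊆ ball (0 : ℂ) R := fun z hz => by_contra fun h => hz (hUR h)
  have hCR : C ⊆ B := fun z hz => ball_subset_closedBall (hUB fun h => hUC h hz)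
  have huh : ∀ z ∉ K, z ∈ U → u z = S.h z := fun z hz hzU => by
    rw [S.split z hz, hW z hzU, add_zero]
  have hLip : LocallyLipschitzOn (K \ C)ᶜ S.h :=
    Removable.locallyLipschitzOn_of_contDiffAt fun z hz =>
      (S.smooth_h.contDiffAt (hKo.isOpen_compl.mem_nhds hz)).of_le (by simp)
  have hmin := hR K u hu B (K \ C) S.h (isCompact_closedBall 0 R) hKo hLip
    (by ext z; simp only [Set.mem_sdiff]; exact ⟨fun h => ⟨h.1.1, h.2⟩, fun h => ⟨⟨h.1, fun hz => h.2 (hCR hz)⟩, h.2⟩⟩)
    (fun z hz => (huh z (fun h => hz (Or.inr h))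
      (hUR fun h => hz (Or.inl (ball_subset_closedBall h)))).symm)
    (keepsSeparation_of_piece hC hCK hKo subset_rfl (by simp))
  -- the cross term vanishes
  have hUcc : IsCompact Uᶜ :=
    (isCompact_closedBall (0 : ℂ) R).of_isClosed_subset hUo.isClosed_compl
      (hUB.trans ball_subset_closedBall)
  obtain ⟨ξ, V, hξ, hξc, hξU, hV, hUV, hξ1, -⟩ :=
    exists_cutoff hUcc hKo.isOpen_compl fun z hz h => hz (hKU h)
  have hψ : ContDiff ℝ ∞ (fun z => ξ z * S.h z) :=
    contDiff_mul_cutoff hKo.isOpen_compl hξ S.smooth_h hξU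
  obtain ⟨hgi, hg0⟩ := S.orth _ hψ hξc.mul_right
  have hW0 : ∀ z ∈ U, grad S.W z = 0 := fun z hz => by
    rw [grad_congr (g := fun _ => (0 : ℝ)) (eventually_of_mem (hUo.mem_nhds hz) hW)]
    apply Complex.ext <;> simp [grad, pd]
  have hcross : ∀ z, gradInner S.W (fun y => ξ y * S.h y) z = ⟪grad S.W z, grad S.h z⟫ := by
    intro z
    rw [gradInner_eq]
    by_cases hz : z ∈ U
    · simp [hW0 z hz]
    · rw [grad_congr (eventually_of_mem (hV.mem_nhds (hUV hz)) fun y hy => by
        simp [hξ1 hy] : (fun y => ξ y * S.h y) =ᶠ[𝓝 z] S.h)]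
  simp only [hcross] at hgi hg0
  have hBi : IntegrableOn (fun z => ⟪grad S.W z, grad S.h z⟫) B := hgi.integrableOn
  have hB0 : ∫ z in B, ⟪grad S.W z, grad S.h z⟫ = 0 := by
    rw [setIntegral_eq_integral_of_forall_compl_eq_zero fun z hz => by
      simp [hW0 z (hUR fun h => hz (ball_subset_closedBall h))]]
    exact hg0
  have hu2 : IntegrableOn (fun z => ‖grad u z‖ ^ 2) B :=
    (integrableOn_gradSq hu 0 (R + 1)).mono_set (closedBall_subset_ball (lt_add_one R))
  have hW2 : IntegrableOn (fun z => ‖grad S.W z‖ ^ 2) B :=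
    ((memLp_two_iff_integrable_sq_norm S.memL2.aestronglyMeasurable).1 S.memL2).integrableOn
  have hu2W : IntegrableOn (fun z => ‖grad u z‖ ^ 2 - ‖grad S.W z‖ ^ 2) B := hu2.sub hW2
  have hhe : (fun z => ‖grad u z‖ ^ 2 - ‖grad S.W z‖ ^ 2 - 2 * ⟪grad S.W z, grad S.h z⟫)
      =ᵐ[volume.restrict B] fun z => ‖grad S.h z‖ ^ 2 := by
    refine ae_restrict_of_ae ?_
    filter_upwards [ae_grad_split hu hC.isClosed hCK hKo S] with z hz
    rw [hz, norm_add_sq_real, real_inner_comm (grad S.W z) (grad S.h z)]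
    ring
  have hh2 : IntegrableOn (fun z => ‖grad S.h z‖ ^ 2) B :=
    (hu2W.sub (hBi.const_mul 2)).congr hhe
  have hle : ∫ z in B, ‖grad S.h z‖ ^ 2 ≤ ∫ z in B, ‖grad u z‖ ^ 2 := by
    rw [← integral_congr_ae hhe, integral_sub hu2W (hBi.const_mul 2), integral_sub hu2 hW2,
      integral_const_mul, hB0]
    have := setIntegral_nonneg (μ := volume) (s := B) measurableSet_closedBall
      (f := fun z => ‖grad S.W z‖ ^ 2) fun z _ => by positivity
    linarith
  have hnull : ∀ {L : Set ℂ} {g : ℂ → ℝ}, volume L = 0 →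
      IntegrableOn (fun z => ‖grad g z‖ ^ 2) B →
      dirichlet L g B = ENNReal.ofReal (∫ z in B, ‖grad g z‖ ^ 2) := fun hL hg => by
    rw [dirichlet, setLIntegral_congr (sdiff_null_ae_eq_self hL),
      ofReal_integral_eq_lintegral_ofReal hg (Eventually.of_forall fun z => by positivity)]
    simp only [gradSq_eq]
  have hdir : dirichlet (K \ C) S.h B ≤ dirichlet K u B := by
    rw [hnull (measure_mono_null sdiff_subset hu.volume_eq_zero) hh2,
      hnull hu.volume_eq_zero hu2]
    exact ENNReal.ofReal_le_ofReal hle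
  have hsplit : μH[1] (K ∩ B) = μH[1] C + μH[1] ((K \ C) ∩ B) := by
    rw [← measure_inter_add_sdiff (K ∩ B) hC.isClosed.measurableSet, inter_sdiff_right_comm,
      inter_eq_right.2 (subset_inter hCK hCR)]
  have hfin : energy K u B ≠ ⊤ :=
    ne_top_of_le_ne_top (hu.finite 0 (R + 1)).ne (add_le_add
      (lintegral_mono_set (sdiff_subset_sdiff_left (closedBall_subset_ball (lt_add_one R))))
      (measure_mono (inter_subset_inter_right K (closedBall_subset_ball (lt_add_one R)))))
  have hmin' := hmin.trans (show energy (K \ C) S.h B ≤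
      dirichlet K u B + μH[1] ((K \ C) ∩ B) from add_le_add_left hdir _)
  rw [energy, hsplit] at hmin'
  rw [energy, hsplit] at hfin
  set a := dirichlet K u B
  set b := μH[1] C
  set c := μH[1] ((K \ C) ∩ B)
  have hac : a + c ≠ ⊤ := ne_top_of_le_ne_top hfin (by gcongr; exact le_add_self)
  have h1 : b + (a + c) ≤ 0 + (a + c) := by rw [zero_add, add_left_comm]; exact hmin'
  exact hpos.ne' (le_zero_iff.1 ((ENNReal.add_le_add_iff_right hac).1 h1))

end KeyAux

open KeyAux in
/-- S04: the crack set has no compact relatively open piece. -/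
theorem key (hR : ReplaceSpec) (hT : TestSpec) (hG : GrowthSpec) : KeySpec := by
  intro K u hu C₀ hC₀K hC₀ hKo₀
  by_contra hne
  obtain ⟨x, hx⟩ := nonempty_iff_ne_empty.2 hne
  obtain ⟨R, hR0, hCR⟩ := hC₀.isBounded.subset_ball_lt 0 (0 : ℂ)
  -- `U` is the unbounded component of `C₀ᶜ`; the holes are filled
  set U := connectedComponentIn C₀ᶜ (R : ℂ)
  have hUo : IsOpen U := hC₀.isClosed.isOpen_compl.connectedComponentIn
  have hUR : (ball (0 : ℂ) R)ᶜ ⊆ U :=
    (isPreconnected_compl_ball hR0).subset_connectedComponentIn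
      (by simp [abs_of_pos hR0]) fun z hz hzC => hz (hCR hzC)
  have hUC₀ : U ⊆ C₀ᶜ := connectedComponentIn_subset _ _
  set C := K \ U with hCdef
  have hCK : C ⊆ K := sdiff_subset
  have hC : IsCompact C :=
    (isCompact_closedBall (0 : ℂ) R).of_isClosed_subset (hu.isClosed.sdiff hUo)
      fun z hz => ball_subset_closedBall (by_contra fun h => hz.2 (hUR h))
  have hKC : K \ C = K ∩ U := by rw [hCdef, sdiff_sdiff_right_self]
  have hKo : IsClosed (K \ C) := by
    have e : K ∩ U = (K \ C₀) ∩ closure U := by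
      ext z
      refine ⟨fun h => ⟨⟨h.1, hUC₀ h.2⟩, subset_closure h.2⟩, fun h => ⟨h.1.1, ?_⟩⟩
      obtain ⟨w, hw1, hw2⟩ := mem_closure_iff.1 h.2 _
        hC₀.isClosed.isOpen_compl.connectedComponentIn (mem_connectedComponentIn h.1.2)
      rw [show U = connectedComponentIn C₀ᶜ z by
        rw [connectedComponentIn_eq hw1, ← connectedComponentIn_eq hw2]]
      exact mem_connectedComponentIn h.1.2
    rw [hKC, e]
    exact hKo₀.inter isClosed_closure
  have hxC : x ∈ C := ⟨hC₀K hx, fun h => hUC₀ h hx⟩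
  obtain ⟨r, hr, hrK⟩ := Metric.isOpen_iff.1 hKo.isOpen_compl x fun h => h.2 hxC
  have hpos : 0 < μH[1] C := (hu.reduced x (hC₀K hx) r hr).trans_le <| measure_mono fun z hz => by
    by_contra hzC
    exact hrK hz.2 ⟨hz.1, hzC⟩
  obtain ⟨S⟩ := exists_split hT hu hCK hC hKo
  rcases (K \ C).eq_empty_or_nonempty with he | he
  · refine not_whole hR hG hu hCK hC hKo he S (ENNReal.toReal_pos hpos.ne' ?_)
    have := hu.length_lt_top_of_isBounded hC.isBounded
    rw [inter_eq_right.2 hCK] at this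
    exact this.ne
  · have hUC : U ⊆ Cᶜ := fun z hz h => h.2 hz
    have hKU : K \ C ⊆ U := hKC ▸ inter_subset_right
    exact not_trivial hR hu hCK hC hKo S hUo hUC hUR hKU
      (W_eq_zero hR hT hG hu hCK hC hKo S he hUo isPreconnected_connectedComponentIn hUC hUR hKU)
      hpos

open KeyAux in
/-- S04b: with empty crack set the function is constant. -/
theorem liouville (hG : GrowthSpec) : LiouvilleSpec := by
  intro u hu
  have hsm : ∀ n : WithTop ℕ∞, ContDiff ℝ n u := fun n =>
    contDiffOn_univ.1 (by simpa using hu.contDiffOn n)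
  have hd : Differentiable ℂ (cgrad u) := fun z =>
    differentiableAt_cgrad_of isOpen_univ (hsm _).contDiffOn
      (fun y _ => lap_eq_zero_of_harmonicAt (hu.harmonic y (notMem_empty y))) (mem_univ z)
  have h0 : ∀ z, fderiv ℝ u z = 0 := fun z => by
    have hg : grad u z = 0 := by
      rw [← norm_eq_zero, ← norm_cgrad, norm_eq_zero]
      refine eq_zero_of_growth hd (c := 2 * π) (fun r hr => ?_) z
      simp only [norm_cgrad]
      exact integral_grad_sq hG hu.toIsGM (zero_lt_one.trans_le hr)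
    refine ContinuousLinearMap.ext fun v => ?_
    simp [inner_grad, hg]
  exact ⟨u 0, fun z =>
    is_const_of_fderiv_eq_zero ((hsm 1).differentiable one_ne_zero) h0 z 0⟩

end Vale.Agent.P128
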