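import Mathlib

/-!
# P128: the notions of the problem

The plane is `ℂ` (Euclidean norm, Lebesgue `volume`, length `μH[1]`). `Pair` and
`IsGlobalMinimizer` are the problem's pairs and global minimisers.
-/

open MeasureTheory Set Metric Filter
open scoped ENNReal Topology Real RealInnerProductSpace

noncomputable section

namespace Vale.Agent.P128

/-- `G` is a weak gradient of `u` on the open set `U`. -/
def HasWeakGradOn (U : Set ℂ) (u : ℂ → ℝ) (G : ℂ → ℂ) : Prop :=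
  ∀ φ : ℂ → ℝ, ContDiff ℝ ((⊤ : ℕ∞) : WithTop ℕ∞) φ → HasCompactSupport φ →
    tsupport φ ⊆ U → ∀ e : ℂ, ∫ z, u z * fderiv ℝ φ z e = -∫ z, ⟪G z, e⟫ * φ z

/-- Mumford-Shah energy of `(K, G)` in `S`, `G` being the gradient. -/
def weakEnergy (K : Set ℂ) (G : ℂ → ℂ) (S : Set ℂ) : ℝ≥0∞ :=
  (∫⁻ z in S \ K, ‖G z‖ₑ ^ 2) + μH[1] (K ∩ S)

/-- `(u, K)`: `K` closed, `u ∈ W^{1,2}_loc(Kᶜ)` with gradient `G`, finite energy on every disc. -/
structure Pair where
  K : Set ℂ
  u : ℂ → ℝ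
  G : ℂ → ℂ
  isClosed : IsClosed K
  memL2 : ∀ C : Set ℂ, IsCompact C → C ⊆ Kᶜ → MemLp u 2 (volume.restrict C)
  grad_meas : AEStronglyMeasurable G (volume.restrict Kᶜ)
  weakGrad : HasWeakGradOn Kᶜ u G
  finite : ∀ (c : ℂ) (r : ℝ), weakEnergy K G (ball c r) < ⊤

/-- `x, y` lie in different connected components of the complement of `K`. -/
def Separates (K : Set ℂ) (x y : ℂ) : Prop :=
  connectedComponentIn Kᶜ x ≠ connectedComponentIn Kᶜ y

/-- The topological condition: `L` separates the points outside `ball c r ∪ K` separated by `K`. -/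
def KeepsSeparation (K L : Set ℂ) (c : ℂ) (r : ℝ) : Prop :=
  ∀ x y : ℂ, x ∉ ball c r ∪ K → y ∉ ball c r ∪ K → Separates K x y → Separates L x y

/-- `Q` competes with `P` in the disc `ball c r`. -/
def PairCompetes (P Q : Pair) (c : ℂ) (r : ℝ) : Prop :=
  (∃ C : Set ℂ, IsCompact C ∧ C ⊆ ball c r ∧ Q.K \ C = P.K \ C ∧
      ∀ᵐ z ∂volume.restrict (C ∪ P.K)ᶜ, Q.u z = P.u z) ∧
    KeepsSeparation P.K Q.K c r

/-- Global minimiser, as in the problem. -/
def IsGlobalMinimizer (P : Pair) : Prop :=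
  ∀ (c : ℂ) (r : ℝ), 0 < r → ∀ Q : Pair, PairCompetes P Q c r →
    weakEnergy P.K P.G (ball c r) ≤ weakEnergy Q.K Q.G (ball c r)

/-- Every disc centred on `K` meets it in positive length. -/
def IsReduced (K : Set ℂ) : Prop := ∀ x ∈ K, ∀ r : ℝ, 0 < r → 0 < μH[1] (K ∩ ball x r)

/-- The closed ray from `a` in the direction of angle `θ`. -/
def ray (a : ℂ) (θ : ℝ) : Set ℂ := (fun t : ℝ => a + t * Complex.exp (θ * Complex.I)) '' Ici 0

/-- Crack-tip function with tip `a`, crack `ray a (θ + π)`, additive constant `k`, sign `s`. -/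
def crackTip (a : ℂ) (θ k s : ℝ) (z : ℂ) : ℝ :=
  s * Real.sqrt (2 * ‖z - a‖ / π) *
    Real.sin (((z - a) * Complex.exp (-(θ * Complex.I))).arg / 2) + k

/-- A line. -/
def IsLineSet (K : Set ℂ) : Prop := ∃ a θ, K = ray a θ ∪ ray a (θ + π)

/-- Three half lines at mutual angles `2π/3`. -/
def IsTripodSet (K : Set ℂ) : Prop :=
  ∃ a θ, K = ray a θ ∪ ray a (θ + 2 * π / 3) ∪ ray a (θ + 4 * π / 3)

end Vale.Agent.P128
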